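import Vale.Agent.P269.B.PFDef
import Mathlib.LinearAlgebra.Vandermonde
import Mathlib.Algebra.Polynomial.RingDivision
import Mathlib.RingTheory.Coprime.Lemmas

/-! Partial fractions of the hypergeometric series, Lagrange interpolation, the Gram matrix. -/

namespace Vale.Agent.P269.B

open Fock Finset TensorProduct

variable {K : Type*} [CommRing K] [Algebra ℚ K] {C : Type*} [CommRing C] [Algebra K C] {σ : Type}

namespace PFP

variable (K C) in
include K in
lemma unit_succ (n : ℕ) : IsUnit ((n : C) + 1) := by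
  have : IsUnit ((n : ℚ) + 1) := IsUnit.mk0 _ (by positivity)
  simpa using (this.map (algebraMap ℚ K)).map (algebraMap K C)

variable (K) in
lemma mul_pe (χ : σ → C) (e : Edge σ) : ((e.deg : C) + 1) * pe K χ e = χ e.tgt - χ e.src := by
  have h : ((e.deg : C) + 1) = algebraMap K C (algebraMap ℚ K ((e.deg : ℚ) + 1)) := by simp
  rw [pe, Algebra.smul_def, ← mul_assoc, h, ← map_mul, ← map_mul,
    mul_one_div_cancel (by positivity), map_one, map_one, one_mul]

lemma prod_erase_ite {α B : Type*} [DecidableEq α] [CommMonoid B] (s : Finset α) (a : α)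
    (f : α → B) : ∏ x ∈ s.erase a, f x = ∏ x ∈ s, if x = a then 1 else f x := by
  rw [← filter_ne', prod_filter]
  simp only [ne_eq, ite_not]

end PFP

open PFP

lemma pe_rev (χ : σ → C) (e : Edge σ) : pe K χ e.rev = -pe K χ e := by
  rw [pe, pe, ← smul_neg, neg_sub]
  rfl

lemma map_pe {K' C' : Type*} [CommRing K'] [Algebra ℚ K'] [CommRing C'] [Algebra K' C']
    (ψ : C →+* C') (χ : σ → C) (e : Edge σ) : ψ (pe K χ e) = pe K' (fun j => ψ (χ j)) e := by
  refine (unit_succ K' C' e.deg).mul_left_cancel ?_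
  rw [mul_pe, ← map_sub, ← mul_pe K χ e]
  simp

lemma Gen.map {K' C' : Type*} [CommRing K'] [Algebra ℚ K'] [CommRing C'] [Algebra K' C']
    {χ : σ → C} (h : Gen K χ) (ψ : C →+* C') : Gen K' fun j => ψ (χ j) where
  p e := by simpa only [map_pe (K' := K')] using (h.p e).map ψ
  src e e' a b := by simpa only [map_sub, map_pe (K' := K')] using (h.src e e' a b).map ψ
  tgt e e' a := by simpa only [map_sub, map_pe (K' := K')] using (h.tgt e e' a).map ψ

lemma Gen.sub {χ : σ → C} (h : Gen K χ) {i j : σ} (hij : i ≠ j) : IsUnit (χ i - χ j) := by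
  simpa [pe] using h.p ⟨j, i, 0, hij.symm⟩

theorem gen_chiK {K : Type*} [CommRing K] [Algebra ℂ K] [Algebra ℚ K] {C : Type} [CommRing C]
    [Algebra ℂ C] {t : K} (ht : IsUnit t) {a : σ → ℂ} (ha : LinearIndependent ℚ a) {c : σ → C}
    (hc : ∀ j, IsNilpotent (c j)) : Gen K (chiK t a c) := by
  classical
  let v : Edge σ → σ →₀ ℚ := fun e =>
    (1 / ((e.deg : ℚ) + 1)) • (Finsupp.single e.tgt 1 - Finsupp.single e.src 1)
  have hq : ∀ q : ℚ, algebraMap ℚ K q = algebraMap ℂ K q := fun q =>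
    RingHom.congr_fun (RingHom.ext_rat _ ((algebraMap ℂ K).comp (algebraMap ℚ ℂ))) q
  have nil : ∀ j, IsNilpotent ((1 : K) ⊗ₜ[ℂ] c j) := fun j =>
    (hc j).map (Algebra.TensorProduct.includeRight (R := ℂ) (A := K))
  have key : ∀ e, ∃ ν, IsNilpotent ν ∧
      pe K (chiK t a c) e = (Finsupp.linearCombination ℚ a (v e) • t) ⊗ₜ 1 + ν := fun e => by
    refine ⟨algebraMap ℚ K (1 / ((e.deg : ℚ) + 1)) • ((1 : K) ⊗ₜ[ℂ] c e.tgt - 1 ⊗ₜ c e.src),
      ((Commute.all _ _).isNilpotent_sub (nil _) (nil _)).smul _, ?_⟩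
    rw [pe, chiK, chiK, add_sub_add_comm, smul_add, ← sub_tmul, smul_tmul', hq, ← sub_smul,
      algebraMap_smul, smul_smul]
    simp [v, Rat.smul_def]
  have unit : ∀ (w : σ →₀ ℚ) (ν : K ⊗[ℂ] C), w ≠ 0 → IsNilpotent ν →
      IsUnit ((Finsupp.linearCombination ℚ a w • t) ⊗ₜ[ℂ] (1 : C) + ν) := fun w ν hw hν => by
    refine hν.isUnit_add_left_of_commute ?_ (Commute.all _ _)
    refine IsUnit.map (Algebra.TensorProduct.includeLeftRingHom (R := ℂ) (B := C)) ?_
    rw [Algebra.smul_def]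
    exact ((IsUnit.mk0 _ fun e => hw (ha (e.trans (map_zero _).symm))).map _).mul ht
  have unit' : ∀ e e', v e ≠ v e' → IsUnit (pe K (chiK t a c) e - pe K (chiK t a c) e') :=
    fun e e' h => by
      obtain ⟨ν, a1, a2⟩ := key e
      obtain ⟨ν', b1, b2⟩ := key e'
      rw [a2, b2, add_sub_add_comm, ← sub_tmul, ← sub_smul, ← map_sub]
      exact unit _ _ (sub_ne_zero.2 h) ((Commute.all _ _).isNilpotent_sub a1 b1)
  have pos : ∀ e : Edge σ, 0 < 1 / ((e.deg : ℚ) + 1) := fun e => by positivity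
  have v1 : ∀ e, v e e.tgt = 1 / ((e.deg : ℚ) + 1) := fun e => by simp [v, e.ne]
  have v2 : ∀ e, v e e.src = -(1 / ((e.deg : ℚ) + 1)) := fun e => by simp [v, e.ne.symm]
  refine ⟨fun e => ?_, fun e e' h h' => unit' e e' fun b => h' ?_, fun e e' h => unit' e e' fun b => ?_⟩
  · obtain ⟨ν, a1, a2⟩ := key e
    exact a2 ▸ unit _ _ (fun b => (pos e).ne' (by rw [← v1, b]; rfl)) a1
  · have b1 := v2 e
    rw [b, h, v2, neg_inj, one_div, one_div, inv_inj, add_left_inj, Nat.cast_inj] at b1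
    refine Edge.ext h (by_contra fun d => (pos e).ne' ?_) b1.symm
    rw [← v1, b]
    simp [v, Ne.symm d, ← h, e.ne]
  · have b1 := v1 e
    rw [b, ← h, v2] at b1
    linarith [pos e, pos e']

variable [Fintype σ] [DecidableEq σ]

lemma ee_rev (χ : σ → C) (e : Edge σ) : ee K χ e.rev = ee K χ e := by
  rw [ee, ee, pe_rev]
  congr 2
  have k : ∀ a b : σ, ∀ x ∈ ((univ ×ˢ range (e.deg + 2)).erase (a, 0)).erase (b, e.deg + 1),
      (x.1, e.deg + 1 - x.2) ∈ ((univ ×ˢ range (e.deg + 2)).erase (b, 0)).erase (a, e.deg + 1) ∧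
        e.deg + 1 - (e.deg + 1 - x.2) = x.2 ∧ x.2 ≤ e.deg + 1 := fun a b x hx => by
    simp only [mem_erase, mem_product, mem_univ, mem_range, true_and, ne_eq, Prod.ext_iff] at hx ⊢
    refine ⟨⟨fun h => hx.2.1 ⟨h.1, ?_⟩, fun h => hx.1 ⟨h.1, ?_⟩, ?_⟩, ?_, ?_⟩ <;> omega
  refine prod_nbij' (fun x => (x.1, e.deg + 1 - x.2)) (fun x => (x.1, e.deg + 1 - x.2))
    (fun x hx => (k _ _ x hx).1) (fun x hx => (k _ _ x hx).1)
    (fun x hx => Prod.ext rfl (k _ _ x hx).2.1) (fun x hx => Prod.ext rfl (k _ _ x hx).2.1)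
    fun x hx => ?_
  simp only [Nat.cast_sub (k _ _ x hx).2.2, Edge.rev_src]
  push_cast
  linear_combination mul_pe K χ e

lemma Gen.eu {χ : σ → C} (h : Gen K χ) (i : σ) : IsUnit (eu χ i) :=
  IsUnit.prod_iff.2 fun _ hk => h.sub (ne_of_mem_erase hk)

namespace PFP

/-- the product of the linear factors of `dn` of degree `e.deg + 1` but one -/
noncomputable def aa {B : Type*} [CommRing B] (ξ : B) (χ : σ → B) (z : B) (e : Edge σ) : B :=
  ∏ x ∈ (univ ×ˢ range (e.deg + 1)).erase (e.tgt, e.deg), (ξ + χ x.1 - ((x.2 : B) + 1) * z)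

lemma ee_eq (χ : σ → C) (e : Edge σ) : ee K χ e =
    Ring.inverse (((e.deg : C) + 1) * (eu χ e.src * aa (-χ e.src) χ (pe K χ e) e)) := by
  rw [ee, eu, aa, prod_erase_ite, prod_erase_ite, prod_erase_ite, prod_erase_ite, prod_product,
    prod_product, ← prod_mul_distrib]
  congr 2
  refine prod_congr rfl fun j _ => ?_
  rw [prod_range_succ', mul_comm]
  congr 1
  · simp
  · refine prod_congr rfl fun s _ => ?_
    simp only [Prod.mk.injEq, Nat.add_eq_zero_iff, one_ne_zero, and_false, if_false,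
      Nat.add_right_cancel_iff]
    split_ifs
    · rfl
    · push_cast
      ring

lemma unit_aa {χ : σ → C} (h : Gen K χ) (e : Edge σ) : IsUnit (aa (-χ e.src) χ (pe K χ e) e) := by
  refine IsUnit.prod_iff.2 fun x hx => ?_
  by_cases a : e.src = x.1
  · rw [← a, neg_add_cancel, zero_sub]
    exact ((unit_succ K C x.2).mul (h.p e)).neg
  · have b := (unit_succ K C x.2).mul (h.src ⟨e.src, x.1, x.2, a⟩ e rfl fun b =>
      ne_of_mem_erase hx (Prod.ext (congrArg Edge.tgt b) (congrArg Edge.deg b)))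
    rwa [mul_sub, mul_pe K χ ⟨e.src, x.1, x.2, a⟩, ← neg_add_eq_sub (χ e.src)] at b

lemma unit_ee {χ : σ → C} (h : Gen K χ) (e : Edge σ) :
    IsUnit (((e.deg : C) + 1) * (eu χ e.src * aa (-χ e.src) χ (pe K χ e) e)) :=
  (unit_succ K C _).mul ((h.eu _).mul (unit_aa h e))

end PFP

lemma Gen.map_ee {K' C' : Type*} [CommRing K'] [Algebra ℚ K'] [CommRing C'] [Algebra K' C']
    {χ : σ → C} (h : Gen K χ) (ψ : C →+* C') (e : Edge σ) :
    ψ (ee K χ e) = ee K' (fun j => ψ (χ j)) e := by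
  rw [ee_eq, ee_eq, map_inv ψ (unit_ee h e)]
  simp [B.eu, aa, map_pe (K' := K')]

omit [Fintype σ] in
lemma Gen.map_sv {K' C' : Type*} [CommRing K'] [Algebra ℚ K'] [CommRing C'] [Algebra K' C']
    {χ : σ → C} (h : Gen K χ) (ψ : C →+* C') (e : Edge σ) (s : Sym σ) :
    ψ (sv K χ e s) = sv K' (fun j => ψ (χ j)) e s := by
  unfold sv
  split_ifs with a
  · rcases s with x | e'
    · simp only [map_pow, map_pe (K' := K')]
    · simp only [map_inv ψ (h.tgt e e' a), map_sub, map_pe (K' := K')]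
  · exact map_zero ψ

omit [Fintype σ] [DecidableEq σ] in
lemma PFP.fac_eq (χ : σ → C) (e : Edge σ) :
    LaurentPolynomial.C (-χ e.src) + LaurentPolynomial.C (χ e.tgt) -
      ((e.deg : LaurentPolynomial C) + 1) * LaurentPolynomial.T 1 =
    -((e.deg : LaurentPolynomial C) + 1) *
      (LaurentPolynomial.T 1 - LaurentPolynomial.C (pe K χ e)) := by
  have := congrArg LaurentPolynomial.C (mul_pe K χ e)
  simp only [map_mul, map_add, map_natCast, map_one, map_sub, map_neg] at this ⊢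
  linear_combination -this

omit [DecidableEq σ] in
/-- The denominators are units as soon as the linear forms `z - p_e` are. -/
lemma isUnit_dn {χ : σ → C} {R : Type*} [CommRing R] (φ : LaurentPolynomial C →+* R) (i : σ) (d : ℕ)
    (hu : ∀ e : Edge σ, e.src = i → e.deg < d →
      IsUnit (φ (LaurentPolynomial.T 1 - LaurentPolynomial.C (pe K χ e)))) :
    IsUnit (dn (φ (LaurentPolynomial.C (-χ i))) (fun j => φ (LaurentPolynomial.C (χ j)))
      (φ (LaurentPolynomial.T 1)) d) := by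
  refine IsUnit.prod_univ_iff.2 fun j => IsUnit.prod_iff.2 fun s hs => ?_
  have u : IsUnit ((s : R) + 1) := by
    simpa using ((unit_succ K C s).map LaurentPolynomial.C).map φ
  by_cases a : i = j
  · simpa [a] using u.mul ((LaurentPolynomial.isUnit_T 1).map φ)
  · have := congrArg φ (fac_eq (K := K) χ ⟨i, j, s, a⟩)
    simp only [map_mul, map_add, map_natCast, map_one, map_sub φ (_ + _), map_neg φ (_ + _)] at this
    rw [this]
    exact u.neg.mul (hu ⟨i, j, s, a⟩ rfl (mem_range.1 hs))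

namespace PFP

open LaurentPolynomial (T)

omit [Fintype σ] [DecidableEq σ] in
lemma ev_C {χ : σ → C} (h : Gen K χ) (e : Edge σ) (x : C) : h.ev e (LaurentPolynomial.C x) = x :=
  LaurentPolynomial.eval₂_C _ _ x

omit [Fintype σ] [DecidableEq σ] in
lemma ev_T {χ : σ → C} (h : Gen K χ) (e : Edge σ) : h.ev e (T 1) = pe K χ e := by
  simp [Gen.ev]

omit [Fintype σ] [DecidableEq σ] in
lemma dvd_of_ev {χ : σ → C} (h : Gen K χ) (e : Edge σ) {M : LaurentPolynomial C}
    (h0 : h.ev e M = 0) : T 1 - LaurentPolynomial.C (pe K χ e) ∣ M := by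
  obtain ⟨n, f, hf⟩ := M.exists_T_pow
  have a := congrArg (h.ev e) hf
  rw [map_mul, h0, zero_mul, Gen.ev, LaurentPolynomial.eval₂_toLaurent] at a
  have b := map_dvd Polynomial.toLaurent (Polynomial.dvd_iff_isRoot.2 a)
  rwa [hf, (LaurentPolynomial.isUnit_T _).dvd_mul_right, map_sub, Polynomial.toLaurent_X,
    Polynomial.toLaurent_C] at b

lemma coprime_of_sub {B : Type*} [CommRing B] {x y : B} (h : IsUnit (x - y)) : IsCoprime x y :=
  ⟨h.unit⁻¹.1, -h.unit⁻¹.1, by rw [neg_mul, ← sub_eq_add_neg, ← mul_sub, h.val_inv_mul]⟩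

lemma dn_dvd {χ : σ → C} (h : Gen K χ) (i : σ) (d : ℕ) {M : LaurentPolynomial C}
    (h0 : ∀ e : Edge σ, e.src = i → e.deg < d → h.ev e M = 0) :
    dn (LaurentPolynomial.C (-χ i)) (fun j => LaurentPolynomial.C (χ j)) (T 1) d ∣ M := by
  have u : ∀ s : ℕ, IsUnit ((s : LaurentPolynomial C) + 1) := fun s => by
    simpa using (unit_succ K C s).map LaurentPolynomial.C
  have u' : ∀ x : σ × ℕ, i = x.1 → IsUnit (LaurentPolynomial.C (-χ i) +
      LaurentPolynomial.C (χ x.1) - ((x.2 : LaurentPolynomial C) + 1) * T 1) := fun x a => by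
    simpa [a] using (u x.2).mul (LaurentPolynomial.isUnit_T 1)
  have u'' : ∀ x y : LaurentPolynomial C, IsUnit x → IsCoprime x y := fun x y a =>
    ⟨a.unit⁻¹.1, 0, by rw [a.val_inv_mul, zero_mul, add_zero]⟩
  rw [dn, ← prod_product']
  refine prod_dvd_of_coprime (fun x _ y _ a => ?_) fun x hx => ?_
  · by_cases b : i = x.1
    · exact u'' _ _ (u' x b)
    by_cases b' : i = y.1
    · exact (u'' _ _ (u' y b')).symm
    simp only [Function.onFun, fac_eq (K := K) χ ⟨i, x.1, x.2, b⟩, fac_eq (K := K) χ ⟨i, y.1, y.2, b'⟩]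
    rw [isCoprime_mul_unit_left_left (u _).neg, isCoprime_mul_unit_left_right (u _).neg]
    refine coprime_of_sub ?_
    rw [sub_sub_sub_cancel_left, ← map_sub]
    exact (h.src ⟨i, y.1, y.2, b'⟩ ⟨i, x.1, x.2, b⟩ rfl fun c =>
      a (Prod.ext (congrArg Edge.tgt c) (congrArg Edge.deg c)).symm).map _
  · by_cases b : i = x.1
    · exact (u' x b).dvd
    · rw [fac_eq (K := K) χ ⟨i, x.1, x.2, b⟩, (u _).neg.mul_left_dvd]
      exact dvd_of_ev h _ (h0 _ rfl (mem_range.1 (mem_product.1 hx).2))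

omit [DecidableEq σ] in
lemma dn_add {B : Type*} [CommRing B] (ξ : B) (χ : σ → B) (z : B) (m d : ℕ) :
    dn ξ χ z (m + d) = dn ξ χ z m * dn (ξ - m * z) χ z d := by
  simp only [dn, prod_range_add, prod_mul_distrib]
  congr 1
  exact prod_congr rfl fun j _ => prod_congr rfl fun s _ => by push_cast; ring

lemma dn_aa {B : Type*} [CommRing B] (ξ : B) (χ : σ → B) (z : B) (e : Edge σ) :
    dn ξ χ z (e.deg + 1) = aa ξ χ z e * (ξ + χ e.tgt - ((e.deg : B) + 1) * z) := by
  rw [dn, ← prod_product', aa]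
  exact (prod_erase_mul _ (fun x : σ × ℕ => ξ + χ x.1 - ((x.2 : B) + 1) * z)
    (a := (e.tgt, e.deg)) (by simp)).symm

/-- the denominator of degree `d` without the factor `z - p_e` -/
noncomputable def gg {B : Type*} [CommRing B] (ξ : B) (χ : σ → B) (z : B) (d : ℕ) (e : Edge σ) :
    B := -((e.deg : B) + 1) * aa ξ χ z e * dn (ξ - (e.deg + 1 : ℕ) * z) χ z (d - (e.deg + 1))

lemma dn_gg (χ : σ → C) (e : Edge σ) {d : ℕ} (hd : e.deg < d) :
    dn (LaurentPolynomial.C (-χ e.src)) (fun j => LaurentPolynomial.C (χ j)) (T 1) d =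
      gg (LaurentPolynomial.C (-χ e.src)) (fun j => LaurentPolynomial.C (χ j)) (T 1) d e *
        (T 1 - LaurentPolynomial.C (pe K χ e)) := by
  conv_lhs => rw [← Nat.add_sub_cancel' (show e.deg + 1 ≤ d from hd), dn_add, dn_aa,
    fac_eq (K := K)]
  rw [gg]
  ring

/-- the residues -/
lemma res_eq {χ : σ → C} (h : Gen K χ) (e : Edge σ) {d : ℕ} (hd : e.deg < d) (k : ℕ) :
    -(eu χ e.src * ee K χ e) * nn (-χ e.tgt) χ (pe K χ e) k (d - (e.deg + 1)) *
      h.ev e (gg (LaurentPolynomial.C (-χ e.src)) (fun j => LaurentPolynomial.C (χ j)) (T 1) d e) =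
    (-χ e.src - d * pe K χ e) ^ k := by
  have a := isUnit_dn (K := K) (χ := χ) (h.ev e) e.tgt (d - (e.deg + 1)) fun e' b _ => by
    rw [map_sub, ev_T, ev_C]
    exact h.tgt e e' b
  have b : -χ e.src - ((e.deg : C) + 1) * pe K χ e = -χ e.tgt := by
    rw [mul_pe]
    ring
  have c : -χ e.tgt - (d - (e.deg + 1) : ℕ) * pe K χ e = -χ e.src - d * pe K χ e := by
    rw [Nat.cast_sub hd, ← b]
    push_cast
    ring
  simp only [ev_C, ev_T] at a
  have a1 := Ring.inverse_mul_cancel _ a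
  have a2 := Ring.inverse_mul_cancel _ (unit_ee h e)
  rw [← ee_eq] at a2
  simp only [gg, aa, nn, map_mul, map_dn, map_prod, map_sub, map_add, map_neg (h.ev e) (_ + _),
    map_natCast, map_one, ev_C, ev_T, Nat.cast_add_one, b, c] at a2 ⊢
  linear_combination (-χ e.src - d * pe K χ e) ^ k * (a1 + Ring.inverse
    (dn (-χ e.tgt) χ (pe K χ e) (d - (e.deg + 1))) * dn (-χ e.tgt) χ (pe K χ e) (d - (e.deg + 1)) *
      a2)

/-- partial fractions in a fixed degree -/
lemma pf1 {χ : σ → C} (h : Gen K χ) (i : σ) (k : ℕ) (m : ℤ) (d : ℕ) :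
    ∃ L : LaurentPolynomial C, ∀ (R : Type) [CommRing R] (φ : LaurentPolynomial C →+* R),
    (∀ e : Edge σ, e.src = i → e.deg < d →
      IsUnit (φ (T 1 - LaurentPolynomial.C (pe K χ e)))) →
    nn (φ (LaurentPolynomial.C (-χ i))) (fun j => φ (LaurentPolynomial.C (χ j))) (φ (T 1)) k d *
        φ (T m) = φ L + ∑ e ∈ edges σ d with e.src = i,
        φ (LaurentPolynomial.C (-(B.eu χ e.src * ee K χ e) *
          (nn (-χ e.tgt) χ (pe K χ e) k (d - (e.deg + 1)) * h.ev e (T m)))) *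
        Ring.inverse (φ (T 1 - LaurentPolynomial.C (pe K χ e))) := by
  have g : ∀ e ∈ (edges σ d).filter (·.src = i),
      dn (LaurentPolynomial.C (-χ i)) (fun j => LaurentPolynomial.C (χ j)) (T 1) d =
        gg (LaurentPolynomial.C (-χ i)) (fun j => LaurentPolynomial.C (χ j)) (T 1) d e *
          (T 1 - LaurentPolynomial.C (pe K χ e)) := fun e he =>
    (mem_filter.1 he).2 ▸ dn_gg χ e (mem_edges.1 (mem_filter.1 he).1)
  obtain ⟨L, hL⟩ := dn_dvd h i d (M := (LaurentPolynomial.C (-χ i) -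
    (d : LaurentPolynomial C) * T 1) ^ k * T m -
    ∑ e ∈ edges σ d with e.src = i, LaurentPolynomial.C (-(B.eu χ e.src * ee K χ e) *
      (nn (-χ e.tgt) χ (pe K χ e) k (d - (e.deg + 1)) * h.ev e (T m))) *
      gg (LaurentPolynomial.C (-χ i)) (fun j => LaurentPolynomial.C (χ j)) (T 1) d e)
    fun e a b => by
      have he : e ∈ (edges σ d).filter (·.src = i) := mem_filter.2 ⟨mem_edges.2 b, a⟩
      rw [map_sub, map_sum, sum_eq_single_of_mem e he fun e' he' c => ?_]
      · subst a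
        simp only [map_mul (h.ev e), map_pow, map_sub, map_natCast, ev_C, ev_T]
        linear_combination -h.ev e (T m) * res_eq h e b k
      · have c1 := congrArg (h.ev e) ((g e he).symm.trans (g e' he'))
        simp only [map_mul, map_sub, ev_C, ev_T, sub_self, mul_zero] at c1
        rw [map_mul, (h.src e e' (a.trans (mem_filter.1 he').2.symm) c.symm).mul_left_eq_zero.1
          c1.symm, mul_zero]
  refine ⟨L, fun R _ φ hu => ?_⟩
  have u := isUnit_dn φ i d hu
  have a := congrArg φ (sub_eq_iff_eq_add.1 hL)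
  simp only [map_mul φ, map_add, map_pow, map_sub, map_natCast, map_sum, map_dn] at a
  rw [nn, mul_right_comm, a, add_mul, mul_right_comm, Ring.mul_inverse_cancel _ u, one_mul, sum_mul]
  refine congrArg _ (sum_congr rfl fun e he => ?_)
  have b := congrArg φ (g e he)
  have b1 := Ring.mul_inverse_cancel _ u
  have b2 := Ring.mul_inverse_cancel _
    (hu e (mem_filter.1 he).2 (mem_edges.1 (mem_filter.1 he).1))
  rw [map_dn, map_mul] at b
  have k : ∀ F G u x y : R, F = G * u → F * x = 1 → u * y = 1 → G * x = y :=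
    fun F G u x y a b c => by linear_combination y * b - G * x * c - y * x * a
  rw [mul_assoc, k _ _ _ _ _ b b1 b2]

end PFP

/-- Partial fractions with the recursive form of the residues. -/
theorem Gen.pf {χ : σ → C} (h : Gen K χ) {D : ℕ} {Q : C} (hQ : Q ^ (D + 1) = 0) (i : σ) (k : ℕ)
    (m : ℤ) : ∃ L : LaurentPolynomial C, ∀ (R : Type) [CommRing R] (φ : LaurentPolynomial C →+* R),
    (∀ e : Edge σ, e.src = i → e.deg < D →
      IsUnit (φ (LaurentPolynomial.T 1 - LaurentPolynomial.C (pe K χ e)))) →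
    nS D (φ (LaurentPolynomial.C Q)) (φ (LaurentPolynomial.C (-χ i)))
        (fun j => φ (LaurentPolynomial.C (χ j))) (φ (LaurentPolynomial.T 1)) k *
        φ (LaurentPolynomial.T m) =
      φ L + ∑ e ∈ edges σ D with e.src = i,
        φ (LaurentPolynomial.C (Q ^ (e.deg + 1) * -(B.eu χ e.src * ee K χ e) *
          (nS D Q (-χ e.tgt) χ (pe K χ e) k * h.ev e (LaurentPolynomial.T m)))) *
        Ring.inverse (φ (LaurentPolynomial.T 1 - LaurentPolynomial.C (pe K χ e))) := by
  choose L hL using pf1 h i k m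
  refine ⟨∑ d ∈ range (D + 1), LaurentPolynomial.C Q ^ d * L d, fun R _ φ hu => ?_⟩
  have key : ∀ (n : ℕ) (f : ℕ → C), n ≤ D + 1 → Q ^ n * ∑ d ∈ range (D + 1), Q ^ d * f d =
      ∑ d ∈ range (D + 1) with n ≤ d, Q ^ d * f (d - n) := fun n f hn => by
    rw [mul_sum, ← sum_range_add_sum_Ico _ (Nat.sub_le (D + 1) n), sum_eq_zero (s := Ico _ _),
      add_zero, show (range (D + 1)).filter (n ≤ ·) = Ico n (D + 1) by ext; simp [and_comm],
      sum_Ico_eq_sum_range]
    · exact sum_congr rfl fun d _ => by rw [Nat.add_sub_cancel_left, pow_add, mul_assoc]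
    · intro d hd
      rw [← mul_assoc, ← pow_add, pow_eq_zero_of_le (by have := (mem_Ico.1 hd).1; omega) hQ,
        zero_mul]
  rw [nS, sum_mul, sum_congr rfl fun d hd => (mul_assoc _ _ _).trans (congrArg _ (hL d R φ
    fun e a b => hu e a (b.trans_le (Nat.lt_succ_iff.1 (mem_range.1 hd)))))]
  simp only [mul_add, sum_add_distrib, map_sum, map_mul φ (_ ^ _) (L _), map_pow φ, mul_sum]
  refine congrArg _ ((sum_comm' (t' := (edges σ D).filter (·.src = i))
    (s' := fun e => (range (D + 1)).filter (e.deg + 1 ≤ ·)) fun d e => ?_).trans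
    (sum_congr rfl fun e he => ?_))
  · simp only [mem_filter, mem_edges, mem_range]
    exact ⟨fun ⟨a, b, c⟩ => ⟨⟨a, b⟩, by omega, c⟩, fun ⟨⟨a, b⟩, _, c⟩ => ⟨a, b, c⟩⟩
  · have := key (e.deg + 1) (fun d => nn (-χ e.tgt) χ (pe K χ e) k d)
      (by have := mem_edges.1 (mem_filter.1 he).1; omega)
    rw [mul_comm (Q ^ _), mul_assoc, ← mul_assoc (Q ^ _), nS, this, sum_mul, mul_sum, map_sum,
      map_sum, sum_mul]
    refine sum_congr rfl fun d _ => ?_
    simp only [map_mul, map_pow]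
    ring

omit [DecidableEq σ] in
lemma fE_monic (χ : σ → C) : (fE χ).Monic :=
  Polynomial.monic_prod_of_monic _ _ fun j _ => Polynomial.monic_X_add_C (χ j)

section fin

variable {r : ℕ}

omit [Fintype σ] [DecidableEq σ]

namespace PFP

open Polynomial

lemma natDegree_fE [Nontrivial C] (χ : Fin (r + 1) → C) : (fE χ).natDegree = r + 1 := by
  rw [fE, natDegree_prod_of_monic _ _ fun j _ => monic_X_add_C (χ j)]
  simp

lemma degree_fE [Nontrivial C] (χ : Fin (r + 1) → C) : (fE χ).degree = (r + 1 : ℕ) := by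
  rw [degree_eq_natDegree (fE_monic χ).ne_zero, natDegree_fE]

lemma eval_mod (χ : Fin (r + 1) → C) (y : C) (m : ℕ) : y ^ m =
    ∑ k : Fin (r + 1), xc χ m k * y ^ (k : ℕ) + (∏ j, (y + χ j)) * (X ^ m /ₘ fE χ).eval y := by
  nontriviality C
  have a := congrArg (eval y) (modByMonic_add_div (X ^ m) (fE χ))
  have b : (X ^ m %ₘ fE χ).natDegree < r + 1 := (natDegree_modByMonic_lt _ (fE_monic χ)
    fun e => by have := natDegree_fE χ; rw [e, natDegree_one] at this; omega).trans_eq
      (natDegree_fE χ)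
  rw [eval_add, eval_eq_sum_range' b, eval_mul, sum_range, eval_pow, eval_X] at a
  rw [← a]
  simp [xc, fE, eval_prod]

lemma sum_rec (χ : Fin (r + 1) → C) (n : ℕ) {N : ℕ} (hN : r + 1 < N) :
    ∑ j ∈ range N, xc χ (n + j) r * (fE χ).coeff j = 0 := by
  nontriviality C
  have a : modByMonicHom (fE χ) (X ^ n * fE χ) = 0 :=
    (modByMonic_eq_zero_iff_dvd (fE_monic χ)).2 (dvd_mul_left _ _)
  nth_rw 2 [as_sum_range_C_mul_X_pow' (fE χ) ((natDegree_fE χ).trans_lt hN)] at a
  have b := congrArg (coeff · r) a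
  simp only [mul_sum, map_sum, mul_smul_comm, ← pow_add, ← smul_eq_C_mul, map_smul,
    finsetSum_coeff, coeff_smul, smul_eq_mul, coeff_zero] at b
  exact (sum_congr rfl fun j _ => mul_comm _ _).trans b

end PFP

lemma map_xc {C' : Type*} [CommRing C'] (ψ : C →+* C') (χ : Fin (r + 1) → C) (m k : ℕ) :
    ψ (xc χ m k) = xc (fun j => ψ (χ j)) m k := by
  rw [xc, xc, ← Polynomial.coeff_map, Polynomial.map_modByMonic _ (fE_monic χ)]
  simp [fE, Polynomial.map_prod]

lemma xc_of_le (χ : Fin (r + 1) → C) {m : ℕ} (hm : m ≤ r) (k : ℕ) :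
    xc χ m k = if k = m then 1 else 0 := by
  nontriviality C
  rw [xc, (Polynomial.modByMonic_eq_self_iff (fE_monic χ)).2, Polynomial.coeff_X_pow]
  rw [degree_fE, Polynomial.degree_X_pow]
  exact_mod_cast Nat.lt_succ_of_le hm

/-- Lagrange interpolation. -/
theorem Gen.xc_eq {χ : Fin (r + 1) → C} (h : Gen K χ) (m : ℕ) :
    xc χ m r = ∑ i, (-χ i) ^ m * Ring.inverse (B.eu χ i) := by
  nontriviality C
  let P : Fin (r + 1) → Polynomial C := fun i =>
    ∏ k ∈ univ.erase i, (Polynomial.X + Polynomial.C (χ k))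
  have m1 : ∀ i, (P i).Monic := fun i =>
    Polynomial.monic_prod_of_monic _ _ fun j _ => Polynomial.monic_X_add_C (χ j)
  have m2 : ∀ i, (P i).natDegree = r := fun i => by
    rw [Polynomial.natDegree_prod_of_monic _ _ fun j _ => Polynomial.monic_X_add_C (χ j)]
    simp
  have m3 : ∀ i, (P i).coeff r = 1 := fun i => m2 i ▸ (m1 i).coeff_natDegree
  have d : fE χ ∣ Polynomial.X ^ m - ∑ i, ((-χ i) ^ m * Ring.inverse (B.eu χ i)) • P i := by
    refine Fintype.prod_dvd_of_coprime (fun i j a => coprime_of_sub ?_) fun i => ?_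
    · simpa using (h.sub a).map Polynomial.C
    · rw [← sub_neg_eq_add, ← map_neg, Polynomial.dvd_iff_isRoot, Polynomial.IsRoot,
        Polynomial.eval_sub, Polynomial.eval_finsetSum, sum_eq_single i (fun j _ a => ?_) (by simp)]
      · have : (P i).eval (-χ i) = B.eu χ i := by
          simp [P, B.eu, Polynomial.eval_prod, neg_add_eq_sub]
        simp [this, mul_assoc, Ring.inverse_mul_cancel _ (h.eu i)]
      · rw [Polynomial.eval_smul, Polynomial.eval_prod,
          prod_eq_zero (mem_erase.2 ⟨a.symm, mem_univ i⟩) (by simp), smul_zero]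
  rw [xc, Polynomial.modByMonic_eq_of_dvd_sub (fE_monic χ) d,
    (Polynomial.modByMonic_eq_self_iff (fE_monic χ)).2]
  · simp [m3]
  · rw [degree_fE]
    refine (Polynomial.degree_sum_le _ _).trans_lt ((Finset.sup_lt_iff (WithBot.bot_lt_coe _)).2
      fun i _ => (Polynomial.degree_smul_le _ _).trans_lt ?_)
    rw [Polynomial.degree_eq_natDegree (m1 i).ne_zero, m2]
    exact_mod_cast Nat.lt_succ_self r

theorem Gen.isUnit_vandermonde {χ : Fin (r + 1) → C} (h : Gen K χ) :
    IsUnit (Matrix.of fun i k : Fin (r + 1) => (-χ i) ^ (k : ℕ)) := by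
  rw [Matrix.isUnit_iff_isUnit_det]
  refine (Matrix.det_vandermonde fun i => -χ i) ▸ IsUnit.prod_univ_iff.2 fun i =>
    IsUnit.prod_iff.2 fun j hj => ?_
  rw [neg_sub_neg]
  exact h.sub (mem_Ioi.1 hj).ne

/-- The inverse of the Gram matrix. -/
theorem gram_inv (χ : Fin (r + 1) → C) (k k' : Fin (r + 1)) :
    ∑ l : Fin (r + 1), xc χ (k + l) r * (fE χ).coeff (l + k' + 1) = if k = k' then 1 else 0 := by
  nontriviality C
  have hk := k.2
  have hk' := k'.2
  have z : ∀ n, r + 1 < n → (fE χ).coeff n = 0 := fun n hn =>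
    Polynomial.coeff_eq_zero_of_natDegree_lt ((natDegree_fE χ).trans_lt hn)
  by_cases a : (k' : ℕ) < k
  · have b := sum_rec χ (k - (k' + 1)) (N := k' + 1 + (r + 1)) (by omega)
    rw [sum_range_add, sum_eq_zero fun j hj => ?_, zero_add, sum_range] at b
    · rw [if_neg fun e => by simp [e] at a, ← b]
      exact sum_congr rfl fun l _ => by congr 2 <;> omega
    · have := mem_range.1 hj
      rw [xc_of_le χ (by omega), if_neg (by omega), zero_mul]
  · rw [sum_eq_single ⟨r - k, by omega⟩ (fun l _ b => ?_) (by simp), xc_of_le χ (by simp; omega),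
      if_pos (by simp; omega), one_mul]
    · split_ifs with e
      · rw [show r - k + k' + 1 = (fE χ).natDegree by rw [natDegree_fE, ← e]; omega]
        exact (fE_monic χ).coeff_natDegree
      · exact z _ (by have : (k : ℕ) ≠ k' := fun f => e (Fin.ext f); simp; omega)
    · have : (l : ℕ) ≠ r - k := fun f => b (Fin.ext f)
      by_cases e : k + l ≤ r
      · rw [xc_of_le χ e, if_neg (by omega), zero_mul]
      · rw [z _ (by omega), mul_zero]

/-- The quantum differential equation. -/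
theorem nn_top {ξ z : C} {χ : Fin (r + 1) → C} {d : ℕ}
    (h : IsUnit (dn ξ χ z (d + 1))) : nn ξ χ z (r + 1) (d + 1) =
      ∑ k : Fin (r + 1), xc χ (r + 1) k * nn ξ χ z k (d + 1) + nn ξ χ z 0 d := by
  nontriviality C
  have a : Polynomial.X ^ (r + 1) /ₘ fE χ = 1 :=
    (Polynomial.div_modByMonic_unique 1 (Polynomial.X ^ (r + 1) - fE χ) (fE_monic χ) ⟨by ring,
      Polynomial.degree_sub_lt_right (by rw [degree_fE, Polynomial.degree_X_pow])
        (fE_monic χ).ne_zero (by rw [fE_monic χ, Polynomial.monic_X_pow])⟩).1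
  have b := Ring.mul_inverse_cancel _ h
  rw [dn_succ] at h
  have c := Ring.mul_inverse_cancel _ (isUnit_of_mul_isUnit_left h)
  simp only [nn]
  rw [eval_mod χ _ (r + 1), a, add_mul, sum_mul]
  simp only [mul_assoc, Polynomial.eval_one, one_mul, pow_zero]
  congr 1
  generalize Ring.inverse (dn ξ χ z (d + 1)) = x at b ⊢
  rw [dn_succ] at b
  linear_combination Ring.inverse (dn ξ χ z d) * b -
    (∏ j, (ξ - ((d + 1 : ℕ) : C) * z + χ j)) * x * c

theorem pow_top {ξ : C} {χ : Fin (r + 1) → C} (h : ∏ j, (ξ + χ j) = 0) (m : ℕ) :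
    ξ ^ m = ∑ k : Fin (r + 1), xc χ m k * ξ ^ (k : ℕ) := by
  rw [eval_mod χ ξ m, h, zero_mul, add_zero]

end fin

end Vale.Agent.P269.B
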