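import Vale.Agent.P269.B.EndB

/-! Step (B): specialisation to `t = 0` and the conclusion. -/

namespace Vale.Agent.P269.B

open Fock Finset TensorProduct

variable {H : Type} [AddCommGroup H] [Module ℂ H] {p : Par ℂ H} {ι : Type} [Fintype ι]
  {fr : Frame p ι} {d : VD fr} {C : Type} [CommRing C] [Algebra ℂ C] {ac : Act fr C} {r : ℕ}
  {c : Fin (r + 1) → C} {Γ : Type}
  {ZT : Γ → ℤ → ℤ → S ((p.pi (Fin (r + 1))).fs ℕ) →ₗ[ℂ] Polynomial ℂ}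

lemma exists_GS' {B : Type} [CommRing B] [Algebra ℂ B] [Algebra ℚ B] (hr : 0 < r) {Q : B} {D : ℕ}
    (hQ : Q ^ (D + 1) = 0) (χ : Fin (r + 1) → B ⊗[ℂ] C) (u : Bˣ) :
    ∃ G, IsGS (ac.bc B) D (algebraMap B _ Q) χ (frT (ac.bc B) χ u) G :=
  exists_GS (ac.bc B) hr (by rw [← map_pow, hQ, map_zero]) (isT_frT (ac.bc B) χ u)

theorem descend {P B B0 : Type} [CommRing P] [Algebra ℂ P] [CommRing B] [Algebra ℂ B] [Algebra ℚ B]
    [CommRing B0] [Algebra ℂ B0] [Algebra ℚ B0] (f : P →ₐ[ℂ] B) (π : P →ₐ[ℂ] B0) (hr : 0 < r)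
    (a : Fin (r + 1) → ℂ) {t Q : P} {u : Pˣ} {D D0 : ℕ} (hQ : Q ^ (D + 1) = 0)
    (hQ0 : π Q ^ (D0 + 1) = 0) (ht : π t = 0) {uB : Bˣ} (hu : f u = uB) {u0 : B0ˣ} (hu0 : π u = u0)
    (Zc : S ((p.pi (Fin (r + 1))).fs ℕ) →ₗ[ℂ] P)
    {ZB : S (((p.bc B).pi (Fin (r + 1))).fs ℕ) →ₗ[B] B}
    (hZB : ∀ x, ZB (bcS _ (isEvS_jV p B) x) = f (Zc x))
    {Z0 : S (((p.bc B0).pi (Fin (r + 1))).fs ℕ) →ₗ[B0] B0}
    (hZ0 : ∀ x, Z0 (bcS _ (isEvS_jV p B0) x) = π (Zc x)) {GB G0}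
    (hGB : IsGS (ac.bc B) D (algebraMap B _ (f Q)) (chiK (f t) a c)
      (frT (ac.bc B) (chiK (f t) a c) uB) GB)
    (hG0 : IsGS (ac.bc B0) D0 (algebraMap B0 _ (π Q)) (fun l => iR B0 C (c l))
      (frT (ac.bc B0) (fun l => iR B0 C (c l)) u0) G0) (N s1 U1) (m : ℕ)
    (x : S ((p.pi (Fin (r + 1))).fs ℕ)) : ∃ xm x1 : P,
      ZB (GB (br (frT (ac.bc B) (chiK (f t) a c) uB)
        (zp _ _ (-1) * XB d ac c (f t) (f Q) N s1 U1 ^ m) (bcS _ (isEvS_jV p B) x))) =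
        f Q ^ (N * m) * f xm + f t * f x1 ∧
      π xm = Z0 (G0 (br (frT (ac.bc B0) (fun l => iR B0 C (c l)) u0)
        (zp _ _ (-1) * DB d ac c (π Q) ^ m) (bcS _ (isEvS_jV p B0) x))) := by
  let _ : Algebra ℚ P := ((algebraMap ℂ P).comp (algebraMap ℚ ℂ)).toAlgebra
  obtain ⟨Z, hZ⟩ := exists_ext_jV Zc
  obtain ⟨G, hG⟩ := exists_GS' (ac := ac) hr hQ (chiK t a c) u
  obtain ⟨Y, hY, e⟩ := XB_split d ac c (fT := frT (ac.bc P) (chiK t a c) u) t Q N s1 U1 m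
  have n1 := (nice_zp (-1)).mul ((nice_DB d ac c (fT := frT (ac.bc P) (chiK t a c) u) Q).pow m)
  refine ⟨_, Z (G (br (frT (ac.bc P) (chiK t a c) u) Y (bcS _ (isEvS_jV p P) x))), ?_,
    (transfer_jT ac c π a hu0 (by ext; simp [chiK, ht]) hQ hQ0 hG hG0 (fun x => by rw [hZ, hZ0]) n1
      ((nice_zp _).mul ((nice_DB d ac c _).pow m))
      ((rl_zp _).mul ((rl_DB d ac c π Q).pow m)) x).symm⟩
  rw [transfer_jT ac c f a hu rfl hQ (by rw [← map_pow, hQ, map_zero]) hG hGB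
    (fun x => by rw [hZ, hZB]) ((nice_zp _).mul ((nice_XB d ac c _ _ _ _ _).pow m))
    ((nice_zp _).mul ((nice_XB d ac c _ _ _ _ _).pow m))
    ((rl_zp _).mul ((rl_XB d ac c f t Q N s1 U1).pow m)), e, br_add n1 hY]
  simp only [LinearMap.add_apply, LinearMap.smul_apply, map_add, map_smul, smul_eq_mul, map_mul,
    map_pow]

lemma co_aeval_tt (P : Polynomial ℂ) : (∀ n, 0 < n → (Polynomial.aeval tt P).co n = 0) ∧
    (Polynomial.aeval tt P).co 0 = P.coeff 0 := by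
  induction P using Polynomial.induction_on' with
  | add a b ha hb =>
    exact ⟨fun n hn => by rw [map_add, Hat.co_add, ha.1 n hn, hb.1 n hn, add_zero],
      by rw [map_add, Hat.co_add, ha.2, hb.2, Polynomial.coeff_add]⟩
  | monomial k a =>
    rw [Polynomial.aeval_monomial, tt, single_pow, Hat.algebraMap_co, Hat.C_apply, Hat.single_mul,
      Polynomial.coeff_monomial]
    refine ⟨fun n hn => by rw [Hat.co_single, if_neg (by omega)], ?_⟩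
    rw [Hat.co_single]
    by_cases h : k = 0 <;> simp [h]

lemma mem_PP_of {D : ℕ} {y : F1 D} {P : ℤ → ℤ → Polynomial ℂ}
    (h : ∀ e : ℤ, e ≤ D → ∀ j, coord r D e j y = Polynomial.aeval tt (P e j)) : y ∈ PP r D :=
  fun e j n hn => by
    rcases le_or_gt e D with he | he
    · rw [h e he, (co_aeval_tt _).1 n hn]
    · rw [coord_of_lt he, Hat.co_zero]

lemma exists_lin_PP {D : ℕ} (Z : S (((p.bc (F1 D)).pi (Fin (r + 1))).fs ℕ) →ₗ[F1 D] F1 D)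
    (h : ∀ x, Z (bcS _ (isEvS_jV p (F1 D)) x) ∈ PP r D) :
    ∃ Zc : S ((p.pi (Fin (r + 1))).fs ℕ) →ₗ[ℂ] PP r D,
      ∀ x, Z (bcS _ (isEvS_jV p (F1 D)) x) = (PP r D).val (Zc x) :=
  ⟨⟨⟨fun x => ⟨_, h x⟩, fun x y => Subtype.ext (by simp only [map_add]; rfl)⟩,
    fun a x => Subtype.ext (by
      simp only [bcS_smul, map_smul, smul_eq_mul, ← Algebra.smul_def]; rfl)⟩, fun _ => rfl⟩

/-- The genus variable as a unit. -/
noncomputable def uK (D : ℕ) : (K1 D)ˣ :=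
  ⟨hb1 D 1, hb1 D (-1), by rw [← hb1_add]; simp, by rw [← hb1_add]; simp⟩

/-- The genus variable as a unit. -/
noncomputable def uP (r D : ℕ) : (PP r D)ˣ :=
  ⟨⟨_, hb_mem 1⟩, ⟨_, hb_mem (-1)⟩, Subtype.ext (uH r D).val_inv, Subtype.ext (uH r D).inv_val⟩

variable (I : BIn d ac c Γ ZT)

lemma BIn.exists_Z0 (β : Γ) {s0 : ℤ} (hs : ∀ βv ∈ I.tup β, s0 ≤ I.sh βv) (D : ℕ) :
    ∃ Z : S ((p.pi (Fin (r + 1))).fs ℕ) →ₗ[ℂ] K1 D, ∀ x (e j : ℤ), e ≤ D →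
      cq D e ((Z x).co j) = (ZT β (e + s0) j x).coeff 0 := by
  obtain ⟨_, h⟩ := I.small β hs 1 0
  obtain ⟨_, _, _, h⟩ := h 0
  obtain ⟨Z, -, h, -⟩ := h D
  obtain ⟨π, hπ⟩ := exists_pi I.hr (le_refl D)
  obtain ⟨Zc, hZ⟩ := exists_lin_PP Z fun x => mem_PP_of (h x)
  exact ⟨π.toLinearMap ∘ₗ Zc, fun x e j he => (hπ _ e j he).trans (by
    rw [← (co_aeval_tt _).2, ← h x e he, hZ]; rfl)⟩

theorem BIn.vanish (β : Γ) {s0 : ℤ} (hs : ∀ βv ∈ I.tup β, s0 ≤ I.sh βv) {D0 : ℕ}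
    {Z0 : S (((p.bc (K1 D0)).pi (Fin (r + 1))).fs ℕ) →ₗ[K1 D0] K1 D0}
    (hZ0 : ∀ x (e j : ℤ), e ≤ D0 →
      cq D0 e ((Z0 (bcS _ (isEvS_jV p (K1 D0)) x)).co j) = (ZT β (e + s0) j x).coeff 0) {G0}
    (hG0 : IsGS (ac.bc (K1 D0)) D0 (algebraMap _ _ (q1 D0)) (fun l => iR (K1 D0) C (c l))
      (frT (ac.bc (K1 D0)) (fun l => iR (K1 D0) C (c l)) (uK D0)) G0) (m : ℕ)
    (x : S ((p.pi (Fin (r + 1))).fs ℕ)) :
    Z0 (G0 (br (frT (ac.bc (K1 D0)) (fun l => iR (K1 D0) C (c l)) (uK D0))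
      (zp _ _ (-1) * DB d ac c (q1 D0) ^ m) (bcS _ (isEvS_jV p (K1 D0)) x))) = 0 := by
  refine Hat.ext (funext fun j => ?_)
  obtain ⟨Y, hY⟩ := I.exists_Z0 I.o (s0 := 0) (by simp [I.tup_o, I.sh_o]) D0
  obtain ⟨J, hJ⟩ := (Y 1).exists_Lo
  obtain ⟨L, h⟩ := I.small β hs x m
  obtain ⟨N, s1, U1, h⟩ := h (r * (j - J) + 1 + L)
  obtain ⟨Z, y, h1, h2, ⟨h3, h4, h5⟩, h6⟩ := h (D0 + N * m)
  have hD : D0 ≤ D0 + N * m := Nat.le_add_right _ _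
  obtain ⟨π, hπ⟩ := exists_pi I.hr hD
  obtain ⟨Zc, hZ⟩ := exists_lin_PP Z fun x => mem_PP_of (h1 x)
  obtain ⟨G, hG⟩ := exists_GS' (ac := ac) I.hr (Qe_pow (r := r)) (chiK (t1 (D0 + N * m)) I.a c)
    (uH r (D0 + N * m))
  obtain ⟨w, hw, e⟩ := h6 G hG
  have e1 := hπ.Qe hD
  obtain ⟨xm, x1, e2, e3⟩ := descend (d := d) (PP r (D0 + N * m)).val π I.hr I.a
    (t := ⟨t1 _, phF_tt _ ▸ tt_mem⟩) (Q := ⟨_, Qe_mem⟩) (u := uP r _) (Subtype.ext Qe_pow)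
    (by rw [e1, q1_pow]) ((congrArg π (Subtype.ext (phF_tt _).symm)).trans (hπ.tt hD))
    (uB := uH r _) rfl (u0 := uK D0) (hπ.hb hD 1) Zc hZ (Z0 := Z0)
    (fun x => K1_ext fun e j _ he => by
      rw [hZ0 x e j he, hπ _ e j he, ← (co_aeval_tt _).2, ← h1 x e (by omega), hZ]; rfl)
    hG (e1 ▸ hG0) N s1 U1 m x
  rw [e1] at e3
  rw [← e3]
  refine extract I.hr le_rfl hπ (y := ⟨y, mem_PP_of h2⟩) (x1 := x1) (PP_unit I.hr h3 h4 h5)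
    (M := r * (j - J) + 1) (Hat.Lo_mono (by omega) hw) (J := J) ?_ (by
      rw [phF_tt]; exact e.symm.trans e2) (by omega)
  rwa [show π ⟨y, mem_PP_of h2⟩ = Y 1 from K1_ext fun e j _ he => by
    rw [hY _ e j he, hπ _ e j he, ← (co_aeval_tt _).2, add_zero, ← h2 e (by omega)]]

include I in
theorem BIn.finish {ι' : Type} [Fintype ι'] {fr' : Frame (p.pi (Fin (r + 1))) ι'} {d' : VD fr'}
    (hP : IsProj d ac c d') {B : Type} [CommRing B] [Algebra ℂ B] [Algebra ℚ B] {Q : B} {D : ℕ}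
    (hQ : Q ^ (D + 1) = 0) (u : Bˣ) (Zc : S ((p.pi (Fin (r + 1))).fs ℕ) →ₗ[ℂ] B)
    (h : ∀ Z : S (((p.bc B).pi (Fin (r + 1))).fs ℕ) →ₗ[B] B,
      (∀ x, Z (bcS _ (isEvS_jV p B) x) = Zc x) → ∀ G,
      IsGS (ac.bc B) D (algebraMap _ _ Q) (fun l => iR B C (c l))
        (frT (ac.bc B) (fun l => iR B C (c l)) u) G → ∀ m x,
      Z (G (br (frT (ac.bc B) (fun l => iR B C (c l)) u) (zp _ _ (-1) * DB d ac c Q ^ m)
        (bcS _ (isEvS_jV p B) x))) = 0) (k : ℕ) (x : S ((p.pi (Fin (r + 1))).fs ℕ)) :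
    Zc (fr'.q0 (d'.ell k) x + (if k = 1 then d'.c0 else 0) • x) +
      (u⁻¹ : Bˣ) * Zc (fr'.qm (d'.ell k) x) + u * Zc (fr'.q1 (d'.ell k) x) = 0 := by
  obtain ⟨Z, hZ⟩ := exists_ext_jV Zc
  obtain ⟨f0, dE, hc, hη, h1, hE, hμ, hρ⟩ := hP.exists_bc I.μ_c I.ρ_c u
  have hT := isT_frT (ac.bc B) (fun l => iR B C (c l)) u
  have hT' : IsT (ac.bc B) (fun l => iR B C (c l)) f0 u := ⟨hη ▸ hT.η, h1 ▸ hT.one⟩
  have hn : ∀ l, IsNilpotent (iR B C (c l)) := fun l => (I.nil l).map _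
  obtain ⟨G, hG⟩ := exists_GS' (ac := ac) I.hr hQ (fun l => iR B C (c l)) u
  have key := endgame I.hr hQ hn hT' hE (hG.congr hη h1) (Z := Z) (fun m y => by
    have hq := same_quad hη.symm (quad_Dt I.hr hQ hn hT' hE (m + 1))
    rw [← same_qz hη h1 hq, ← same_qz hη h1 (quad_zi _), ← br_quad hq]
    exact bcS_induction (hj := isEvS_jV p B) (P := fun y => Z (G (br _ _ y)) = 0) span_jV
      (h Z hZ G hG (m + 1)) (fun x y hx hy => by simp only [map_add, hx, hy, add_zero])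
      (fun a x hx => by simp only [map_smul, hx, smul_zero]) y) k
  have e0 := rl_ell hμ hρ k
  have e1 := LinearMap.congr_fun key (bcS _ (hc.ev.fs ℕ) x)
  have hZ' : ∀ x, Z (bcS _ (hc.ev.fs ℕ) x) = Zc x := hZ
  rw [LinearMap.comp_apply, VD.L, LinearMap.add_apply, Frame.qz_eq, LinearMap.add_apply,
    LinearMap.add_apply, hc.q0 (d'.quad_ell k) (dE.quad_ell k) e0,
    hc.qm (d'.quad_ell k) (dE.quad_ell k) e0, hc.q1 (d'.quad_ell k) (dE.quad_ell k) e0,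
    rl_c0 hc (Units.inv_mul _) hμ, LinearMap.smul_apply, Module.End.one_apply,
    ← map_zero (algebraMap ℂ B), ← apply_ite, ← bcS_smul, add_right_comm, add_right_comm _ _
    (bcS _ _ _), ← map_add, map_add Z, map_add Z, map_smul, map_smul, hZ', hZ', hZ'] at e1
  exact e1

theorem stepB : StepB := by
  intro H _ _ p ι _ fr d C _ _ ac r c Γ ZT I ι' _ fr' d' hP β e k j x
  obtain ⟨s0, hs⟩ := ((I.tup β).finite_toSet.image I.sh |>.insert e).bddBelow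
  obtain ⟨D, hD⟩ := Int.eq_ofNat_of_zero_le (sub_nonneg.2 (hs (Set.mem_insert _ _)))
  have hs' : ∀ βv ∈ I.tup β, s0 ≤ I.sh βv := fun βv h => hs (Set.mem_insert_of_mem _ ⟨βv, h, rfl⟩)
  obtain ⟨Zc, hZc⟩ := I.exists_Z0 β hs' D
  have e1 := congrArg (fun y : K1 D => cq D D (y.co j)) (I.finish hP q1_pow (uK D) Zc
    (fun Z hZ G hG => I.vanish β hs' (fun x e j he => by rw [hZ, hZc x e j he]) hG) k x)
  have e2 : ∀ (n : ℤ) (y : K1 D), (hb1 D n * y).co j = y.co (j - n) := fun n y => by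
    rw [hb1, Hat.co_single_mul, one_mul]
  rw [show ((uK D)⁻¹ : (K1 D)ˣ).1 = hb1 D (-1) from rfl, show (uK D).1 = hb1 D 1 from rfl] at e1
  simp only [Hat.co_add, map_add (cq D D), e2, hZc _ _ _ le_rfl, show D + s0 = e by omega,
    sub_neg_eq_add, Hat.co_zero, map_zero] at e1
  exact e1

end Vale.Agent.P269.B
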