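import Vale.Agent.P269.B.Op

/-! Compatibility of all constructions with a change of the ground ring. -/

namespace Vale.Agent.P269.B

open Fock Finset TensorProduct

section rl

variable {K K' : Type*} [CommRing K] [CommRing K'] {φ : K →+* K'} {M M' : Type*} [AddCommGroup M]
  [Module K M] [AddCommGroup M'] [Module K' M']

/-- Operators related by a semilinear map. -/
def Rl (j : M →ₛₗ[φ] M') (A : Module.End K M) (A' : Module.End K' M') : Prop :=
  ∀ y, A' (j y) = j (A y)

variable {j : M →ₛₗ[φ] M'} {A B : Module.End K M} {A' B' : Module.End K' M'}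

lemma Rl.mul (h : Rl j A A') (h' : Rl j B B') : Rl j (A * B) (A' * B') := fun y => by
  rw [Module.End.mul_apply, h', h, Module.End.mul_apply]

lemma Rl.add (h : Rl j A A') (h' : Rl j B B') : Rl j (A + B) (A' + B') := fun y => by
  simp [h y, h' y]

lemma Rl.sub (h : Rl j A A') (h' : Rl j B B') : Rl j (A - B) (A' - B') := fun y => by
  simp [h y, h' y]

lemma Rl.neg (h : Rl j A A') : Rl j (-A) (-A') := fun y => by simp [h y]

lemma Rl.smul (h : Rl j A A') (c : K) : Rl j (c • A) (φ c • A') := fun y => by simp [h y]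

lemma Rl.one : Rl j 1 1 := fun _ => rfl

lemma Rl.zero : Rl j 0 0 := fun _ => by simp

lemma Rl.pow (h : Rl j A A') (k : ℕ) : Rl j (A ^ k) (A' ^ k) := by
  induction k with
  | zero => exact Rl.one
  | succ k ih => rw [pow_succ, pow_succ]; exact ih.mul h

lemma Rl.sum {α : Type*} (s : Finset α) {A : α → Module.End K M} {A' : α → Module.End K' M'}
    (h : ∀ a ∈ s, Rl j (A a) (A' a)) : Rl j (∑ a ∈ s, A a) (∑ a ∈ s, A' a) := fun y => by
  rw [LinearMap.sum_apply, LinearMap.sum_apply, map_sum]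
  exact sum_congr rfl fun a ha => h a ha y

lemma ext_span (hs : Submodule.span K' (Set.range j) = ⊤) {N : Type*} [AddCommGroup N]
    [Module K' N] {f g : M' →ₗ[K'] N} (h : ∀ y, f (j y) = g (j y)) : f = g :=
  LinearMap.ext_on_range hs h

lemma ext_span₂ (hs : Submodule.span K' (Set.range j) = ⊤) {N : Type*} [AddCommGroup N]
    [Module K' N] {f g : M' →ₗ[K'] M' →ₗ[K'] N} (h : ∀ y y', f (j y) (j y') = g (j y) (j y')) :
    f = g := ext_span hs fun y => ext_span hs (h y)

lemma Rl.unique (hs : Submodule.span K' (Set.range j) = ⊤) (h : Rl j A A') (h' : Rl j A B') :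
    A' = B' := ext_span hs fun y => by rw [h, h']

lemma Rl.isEv (hs : Submodule.span K' (Set.range j) = ⊤) {p : Par K M} {p' : Par K' M'}
    (hj : IsEvS p p' j) (h : Rl j A A') (hA : IsEv p p A) : IsEv p' p' A' := fun v =>
  LinearMap.congr_fun (ext_span (f := p'.σ ∘ₗ A') (g := A' ∘ₗ p'.σ) hs fun y => by
    simp [h y, hj y, hj (A y), h _, hA y]) v

/-- A semilinear map applied to the components. -/
def piS (j : M →ₛₗ[φ] M') (σ : Type) : (σ → M) →ₛₗ[φ] (σ → M') where
  toFun v i := j (v i)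
  map_add' _ _ := by ext; simp
  map_smul' _ _ := by ext; simp

@[simp] lemma piS_apply {σ : Type} (v : σ → M) (i : σ) : piS j σ v i = j (v i) := rfl

lemma piS_single {σ : Type} [DecidableEq σ] (i : σ) (v : M) :
    piS j σ (Pi.single i v) = Pi.single i (j v) := by
  ext k; by_cases h : k = i
  · subst h; simp
  · simp [h]

lemma span_piS (hs : Submodule.span K' (Set.range j) = ⊤) (σ : Type) [Fintype σ] [DecidableEq σ] :
    Submodule.span K' (Set.range (piS j σ)) = ⊤ := by
  refine eq_top_iff.mpr fun v _ => ?_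
  rw [← Finset.univ_sum_single v]
  refine Submodule.sum_mem _ fun i _ => ?_
  generalize v i = w
  induction w using span_ind hs with
  | a w => exact Submodule.subset_span ⟨_, piS_single i w⟩
  | b x y hx hy => rw [Pi.single_add]; exact add_mem hx hy
  | c c x hx => rw [Pi.single_smul]; exact Submodule.smul_mem _ _ hx

lemma isEvS_pi {p : Par K M} {p' : Par K' M'} (h : IsEvS p p' j) (σ : Type) :
    IsEvS (p.pi σ) (p'.pi σ) (piS j σ) := fun v => funext fun i => h (v i)

lemma Rl.cst (h : Rl j A A') : Rl (fsS j ℤ) (cst A) (cst A') := fun y => by ext; simp [h _]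

lemma rl_zp (n : ℤ) : Rl (fsS j ℤ) (zp K M n) (zp K' M' n) := fun y => by ext; simp [zp_apply]

lemma rl_eu : Rl (fsS j ℤ) (Fock.eu K M) (Fock.eu K' M') := fun y => by ext; simp [eu_apply]

lemma Rl.dg {σ : Type} (h : Rl j A A') : Rl (piS j σ) (dg σ A) (dg σ A') :=
  fun v => funext fun i => h (v i)

lemma rl_EU {σ : Type} [DecidableEq σ] (i k : σ) : Rl (piS j σ) (EU K M i k) (EU K' M' i k) :=
  fun v => (piS_single i (v k)).symm

variable {C C' : Type*} [CommRing C] [CommRing C'] [Algebra K C] [Algebra K' C'] {ψ : C →+* C'}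
  {act : C →ₐ[K] Module.End K M} {act' : C' →ₐ[K'] Module.End K' M'}
  (h : ∀ x, Rl j (act x) (act' (ψ x)))
include h

lemma rl_opL (x : LaurentPolynomial C) : Rl (fsS j ℤ) (opL act x) (opL act' (mapL ψ x)) := by
  induction x using LaurentPolynomial.induction_on' with
  | add a b ha hb => simpa using ha.add hb
  | C_mul_T n a => simpa using (h a).cst.mul (rl_zp n)

variable {σ : Type} [Fintype σ] [DecidableEq σ]

lemma rl_actM (N : Matrix σ σ C) : Rl (piS j σ) (actM act N) (actM act' (N.map ψ)) :=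
  Rl.sum _ fun i _ => Rl.sum _ fun k _ => (rl_EU i k).mul (h _).dg

lemma rl_opM (N : Matrix σ σ (LaurentPolynomial C)) :
    Rl (fsS (piS j σ) ℤ) (opM act N) (opM act' (N.map (mapL ψ))) :=
  Rl.sum _ fun i _ => Rl.sum _ fun k _ => (rl_EU i k).cst.mul
    (rl_opL (act := (dg σ).comp act) (act' := (dg σ).comp act') (fun x => (h x).dg) _)

end rl

section cmp

variable {K K' : Type*} [CommRing K] [CommRing K'] {φ : K →+* K'} {H H' : Type*} [AddCommGroup H]
  [Module K H] [AddCommGroup H'] [Module K' H'] {p : Par K H} {p' : Par K' H'} {ι : Type*}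
  [Fintype ι] {fr : Frame p ι} {fr' : Frame p' ι} {j : H →ₛₗ[φ] H'} {u u' : K'}

lemma cmp_pi (h : fr.Cmp fr' j u u') (σ : Type) [Fintype σ] [DecidableEq σ] :
    (fr.pi σ).Cmp (fr'.pi σ) (piS j σ) u u' where
  ev := isEvS_pi h.ev σ
  η v w := by simp [Frame.pi_η, h.η, Finset.mul_sum]
  e a := by simp [Frame.pi, piS_single, h.e]
  f a := by simp [Frame.pi, piS_single, h.f, Pi.single_smul]
  one := funext fun _ => h.one

lemma adj_span (h : fr.Cmp fr' j u u') (hs : Submodule.span K' (Set.range j) = ⊤)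
    {a b : Module.End K H} {a' b' : Module.End K' H'} (ha : Rl j a a') (hb : Rl j b b')
    (e : ∀ v w, fr.η (a v) w = fr.η v (b w)) (v w : H') : fr'.η (a' v) w = fr'.η v (b' w) :=
  LinearMap.congr_fun₂ (ext_span₂ (f := fr'.η ∘ₗ a') (g := fr'.η.compl₂ b') hs fun y y' => by
    simp [ha y, hb y', h.η, e]) v w

lemma Adj_span (h : fr.Cmp fr' j u u') (hs : Submodule.span K' (Set.range j) = ⊤)
    {A B : Module.End K (LL H)} {A' B' : Module.End K' (LL H')} (ha : Rl (fsS j ℤ) A A')
    (hb : Rl (fsS j ℤ) B B') (e : fr.Adj A B) : fr'.Adj A' B' := fun v w =>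
  LinearMap.congr_fun₂ (ext_span₂ (f := fr'.Ω ∘ₗ A') (g := fr'.Ω.compl₂ B') (span_fsS hs ℤ)
    fun y y' => by simp [ha y, hb y', h.Ω, e y y']) v w

/-- Adjoints of related operators are related. -/
lemma Rl.adj (h : fr.Cmp fr' j u u') (hs : Submodule.span K' (Set.range j) = ⊤)
    {A B : Module.End K (LL H)} {A' B' : Module.End K' (LL H')} (ha : Rl (fsS j ℤ) A A')
    (e : fr.Adj A B) (e' : fr'.Adj A' B') : Rl (fsS j ℤ) B B' := fun y => fr'.Ω_ext fun w =>
  LinearMap.congr_fun (ext_span (f := fr'.Ω.flip (B' (fsS j ℤ y)))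
    (g := fr'.Ω.flip (fsS j ℤ (B y))) (span_fsS hs ℤ) fun w => by
      simp only [LinearMap.flip_apply]
      rw [← e', ha, h.Ω, h.Ω, e]) w

/-- Transport of Virasoro data. -/
def vdOf (d : VD fr) (h : fr.Cmp fr' j u u') (hs : Submodule.span K' (Set.range j) = ⊤)
    {μ ρ : Module.End K' H'} (hμ : Rl j d.μ μ) (hρ : Rl j d.ρ ρ) : VD fr' where
  μ := μ
  ρ := ρ
  evμ := hμ.isEv hs h.ev d.evμ
  evρ := hρ.isEv hs h.ev d.evρ
  adjμ v w := by simpa using adj_span h hs hμ hμ.neg (fun v w => by simp [d.adjμ]) v w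
  adjρ := adj_span h hs hρ hρ d.adjρ
  comm := (hμ.mul hρ).unique hs (d.comm ▸ (hρ.mul hμ).add hρ)

lemma rl_str (h : fr.Cmp fr' j u u') (hu : u * u' = 1) {T : Module.End K H} {T' : Module.End K' H'}
    (hT : Rl j T T') : fr'.str T' = φ (fr.str T) := by
  simp only [Frame.str_apply, h.e, h.f, map_smul, hT _, h.η, map_sum, smul_eq_mul]
  exact sum_congr rfl fun a _ => by rw [← mul_assoc, mul_comm u', hu, one_mul]

variable [Algebra ℚ K] [Algebra ℚ K']

lemma Rl.hf {M M' : Type*} [AddCommGroup M] [Module K M] [AddCommGroup M'] [Module K' M']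
    {j : M →ₛₗ[φ] M'} {A : Module.End K M} {A' : Module.End K' M'} (h : Rl j A A') :
    Rl j (hf K • A) (hf K' • A') := map_hf φ ▸ h.smul (Fock.hf K)

section
variable {ι' : Type*} [Fintype ι'] {fr₁ : Frame p' ι'} {d : VD fr} {d' : VD fr₁}
  (hμ : Rl j d.μ d'.μ) (hρ : Rl j d.ρ d'.ρ)
include hμ hρ

lemma rl_D : Rl (fsS j ℤ) d.D d'.D :=
  ((rl_zp 1).mul ((rl_eu.add Rl.one.hf).add hμ.cst)).add hρ.cst

lemma rl_ell (k : ℕ) : Rl (fsS j ℤ) (d.ell k) (d'.ell k) := (rl_zp _).mul ((rl_D hμ hρ).pow k)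

end

lemma rl_c0 (h : fr.Cmp fr' j u u') (hu : u * u' = 1) {d : VD fr} {d' : VD fr'}
    (hμ : Rl j d.μ d'.μ) : d'.c0 = φ d.c0 := by
  have e : φ (hf K * hf K) = hf K' * hf K' := by rw [map_mul, map_hf]
  rw [VD.c0, VD.c0, map_mul, map_neg, e, rl_str h hu ((hμ.mul hμ).sub (e ▸ Rl.one.smul _))]

lemma hD_bcS {V V' : Type*} [AddCommGroup V] [Module K V] [AddCommGroup V'] [Module K' V']
    {q : Par K V} {q' : Par K' V'} {j : V →ₛₗ[φ] V'} (hj : IsEvS q q' j) (d : V) {v : V}
    {ψ : Module.Dual K V} {ψ' : Module.Dual K' V'} (h : ∀ w, ψ' (j w) = φ (ψ w)) (x : S q) :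
    hD q' (j d) (j v, ψ') (bcS j hj x) = bcS j hj (hD q d (v, ψ) x) := by
  simp [hD_apply, hm_apply, con_bcS (hj := hj) (u := 1) (ψ := ψ) (ψ' := ψ') (fun w => by simp [h]),
    h]

lemma h_bcS (h : fr.Cmp fr' j 1 1) (y : LL H) (x : S (p.fs ℕ)) :
    fr'.h (fsS j ℤ y) (bcS _ (h.ev.fs ℕ) x) = bcS _ (h.ev.fs ℕ) (fr.h y x) := by
  rw [Frame.h_eq, Frame.h_eq, pos_fsS, h.dil]
  exact hD_bcS _ _ (fun w => by rw [h.neg, one_mul]) x

lemma qz_bcS (h : fr.Cmp fr' j 1 1) {A : Module.End K (LL H)} {A' : Module.End K' (LL H')}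
    (hA : fr.Quad A) (hA' : fr'.Quad A') (e : Rl (fsS j ℤ) A A') (x : S (p.fs ℕ)) :
    fr'.qz A' (bcS _ (h.ev.fs ℕ) x) = bcS _ (h.ev.fs ℕ) (fr.qz A x) := by
  simp [Frame.qz_eq, h.q0 hA hA' e, h.qm hA hA' e, h.q1 hA hA' e]

end cmp

section same

variable {K : Type*} [CommRing K] {H : Type*} [AddCommGroup H] [Module K H] {p : Par K H}
  {ι ι' : Type*} [Fintype ι] [Fintype ι'] {fr : Frame p ι} {fr' : Frame p ι'}
  (hη : fr.η = fr'.η)
include hη

lemma same_Ω : fr.Ω = fr'.Ω := by rw [Frame.Ω, Frame.Ω, hη]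

lemma same_neg : fr.neg = fr'.neg := by rw [Frame.neg, Frame.neg, same_Ω hη]

lemma same_adj {A B : Module.End K (LL H)} (h : fr.Adj A B) : fr'.Adj A B := fun y y' => by
  rw [← same_Ω hη, h]

lemma same_quad {A : Module.End K (LL H)} (h : fr.Quad A) : fr'.Quad A :=
  ⟨h.ev, same_adj hη h.adj, h.fin⟩

variable [Algebra ℚ K] (h1 : fr.one = fr'.one)
include h1

lemma same_h : fr.h = fr'.h := by rw [Frame.h, Frame.h, same_neg hη, Frame.dil, Frame.dil, h1]

lemma same_qz {A : Module.End K (LL H)} (h : fr.Quad A) : fr.qz A = fr'.qz A := by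
  rw [(same_quad hη h).eq_qz (X := fr.qz A) (same_h hη h1 ▸ h.isQ), h.aug_qz_one, zero_smul,
    add_zero]

end same

section mor

variable {K K' : Type*} [CommRing K] [CommRing K'] {φ : K →+* K'} {H H' : Type*} [AddCommGroup H]
  [Module K H] [AddCommGroup H'] [Module K' H'] {p : Par K H} {p' : Par K' H'} {ι : Type*}
  [Fintype ι] {fr : Frame p ι} {fr' : Frame p' ι} {C C' : Type*} [CommRing C] [CommRing C']
  [Algebra K C] [Algebra K' C']

/-- A morphism of ground data. -/
structure Mor (ac : Act fr C) (ac' : Act fr' C') (j : H →ₛₗ[φ] H') (ψ : C →+* C') : Prop where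
  cmp : fr.Cmp fr' j 1 1
  act : ∀ x, Rl j (ac.act x) (ac'.act (ψ x))
  alg : ∀ k, ψ (algebraMap K C k) = algebraMap K' C' (φ k)
  span : Submodule.span K' (Set.range j) = ⊤

end mor

section tensor

variable {K₀ : Type*} [CommRing K₀] {H : Type*} [AddCommGroup H] [Module K₀ H] {p : Par K₀ H}
  {ι : Type*} [Fintype ι] {fr : Frame p ι} {C : Type*} [CommRing C] [Algebra K₀ C]
  {K K' : Type*} [CommRing K] [CommRing K'] [Algebra K₀ K] [Algebra K₀ K']

variable (K H) in
/-- `v ↦ 1 ⊗ v`. -/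
noncomputable def j1 : H →ₛₗ[algebraMap K₀ K] K ⊗[K₀] H := sl K (TensorProduct.mk K₀ K H 1)

@[simp] lemma j1_apply (v : H) : j1 H K v = (1 : K) ⊗ₜ[K₀] v := rfl

lemma span_j1 : Submodule.span K (Set.range (j1 (K₀ := K₀) H K)) = ⊤ :=
  span_sl (TensorProduct.isBaseChange K₀ H K)

lemma rl_j1 (a : Module.End K₀ H) : Rl (j1 H K) a (a.baseChange K) := fun _ => rfl

variable (K) in
theorem mor_j1 (ac : Act fr C) :
    Mor ac (ac.bc K) (j1 H K)
      ((Algebra.TensorProduct.includeRight : C →ₐ[K₀] K ⊗[K₀] C) : C →+* K ⊗[K₀] C) where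
  cmp := ⟨fun _ => rfl, fun v w => by simp [Algebra.algebraMap_eq_smul_one], fun _ => rfl,
    fun _ => (one_smul _ _).symm, rfl⟩
  act x v := by simp
  alg k := by simp [Algebra.algebraMap_eq_smul_one, smul_tmul', Algebra.TensorProduct.one_def]
  span := span_j1

variable (K) in
/-- Base change of Virasoro data. -/
noncomputable def vdBc (ac : Act fr C) (d : VD fr) : VD (fr.bc K) :=
  vdOf d (mor_j1 K ac).cmp span_j1 (rl_j1 d.μ) (rl_j1 d.ρ)

variable (H) in
/-- The map induced by a homomorphism of ground rings. -/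
noncomputable def jT (f : K →ₐ[K₀] K') : K ⊗[K₀] H →ₛₗ[(f : K →+* K')] K' ⊗[K₀] H where
  toFun := f.toLinearMap.rTensor H
  map_add' := map_add _
  map_smul' c x := by
    induction x with
    | zero => simp
    | add a b ha hb => simp only [smul_add, map_add, ha, hb]
    | tmul a v => simp [smul_tmul']

@[simp] lemma jT_tmul (f : K →ₐ[K₀] K') (a : K) (v : H) : jT H f (a ⊗ₜ v) = f a ⊗ₜ v := rfl

lemma span_jT (f : K →ₐ[K₀] K') : Submodule.span K' (Set.range (jT H f)) = ⊤ :=
  eq_top_iff.mpr (span_j1 (K₀ := K₀) (H := H) (K := K') ▸ Submodule.span_mono (by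
    rintro _ ⟨v, rfl⟩; exact ⟨1 ⊗ₜ v, by simp⟩))

lemma rl_jT (f : K →ₐ[K₀] K') (a : Module.End K₀ H) :
    Rl (jT H f) (a.baseChange K) (a.baseChange K') := fun x => by
  induction x with
  | zero => simp
  | add a b ha hb => simp only [map_add, ha, hb]
  | tmul a v => simp

theorem mor_jT (ac : Act fr C) (f : K →ₐ[K₀] K') : Mor (ac.bc K) (ac.bc K') (jT H f)
    (Algebra.TensorProduct.map f (AlgHom.id K₀ C) : K ⊗[K₀] C →+* K' ⊗[K₀] C) where
  cmp := by
    refine ⟨fun x => ?_, fun v w => ?_, fun _ => by simp [Frame.bc], fun _ => by simp [Frame.bc],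
      by simp [Frame.bc]⟩
    · exact rl_jT f p.σ x
    · induction v with
      | zero => simp
      | add a b ha hb => simp only [map_add, LinearMap.add_apply, ha, hb, mul_add]
      | tmul a v =>
        induction w with
        | zero => simp
        | add a b ha hb => simp only [map_add, ha, hb, mul_add]
        | tmul b w => simp
  act x := by
    induction x with
    | zero => simpa using Rl.zero
    | add a b ha hb => simpa using ha.add hb
    | tmul a x =>
      intro v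
      induction v with
      | zero => simp
      | add a b ha hb => simp only [map_add, ha, hb]
      | tmul b w => simp
  alg k := by simp
  span := span_jT f

lemma jV_eq (σ : Type) : jV H σ K = fsS (piS (j1 (K₀ := K₀) H K) σ) ℕ := rfl

end tensor

end Vale.Agent.P269.B
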