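import Vale.Agent.P269.Fock.BC
import Vale.Agent.P269.Fock.Hat
import Mathlib.RingTheory.PowerSeries.Inverse
import Mathlib.NumberTheory.Bernoulli
import Mathlib.RingTheory.TensorProduct.Basic

/-! The interface of step (B): from the Virasoro constraints of `B` to those of the projective
bundle `E = P(L_0 ⊕ ⋯ ⊕ L_r)`. -/

namespace Vale.Agent.P269.B

open Fock Finset TensorProduct

/-- A commutative ring of even classes acting on the cohomology. -/
structure Act {K : Type*} [CommRing K] {H : Type*} [AddCommGroup H] [Module K H] {p : Par K H}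
    {ι : Type*} [Fintype ι] (fr : Frame p ι) (C : Type*) [CommRing C] [Algebra K C] where
  act : C →ₐ[K] Module.End K H
  ev : ∀ x, IsEv p p (act x)
  adj : ∀ x v w, fr.η (act x v) w = fr.η v (act x w)

/-- An oriented edge type: from the fixed component `src` to `tgt`, of degree `deg + 1`. -/
@[ext] structure Edge (σ : Type) where
  src : σ
  tgt : σ
  deg : ℕ
  ne : src ≠ tgt

/-- The opposite orientation. -/
def Edge.rev {σ : Type} (e : Edge σ) : Edge σ := ⟨e.tgt, e.src, e.deg, e.ne.symm⟩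

/-- Insertion symbols: `inl (i, k)` is `ψ^k` over the component `i`, `inr e` is `1 / (ψ - p_e)`
over the component `e.src`. -/
abbrev Sym (σ : Type) : Type := (σ × ℕ) ⊕ Edge σ

/-- The component of a symbol. -/
def Sym.cmp {σ : Type} : Sym σ → σ
  | .inl x => x.1
  | .inr e => e.src

section generic

variable {K : Type*} [CommRing K] {H : Type*} [AddCommGroup H] [Module K H]
  {p : Par K H} {ι : Type*} [Fintype ι] {fr : Frame p ι} {C : Type*} [CommRing C] [Algebra K C]
  {σ : Type} [Fintype σ] [DecidableEq σ]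

/-- An operator on the loop space of one copy. -/
noncomputable def cmp (i : σ) (A : Module.End K (LL H)) : Module.End K (LL (σ → H)) :=
  Finsupp.mapRange.linearMap (LinearMap.single K (fun _ => H) i) ∘ₗ A ∘ₗ
    Finsupp.mapRange.linearMap (LinearMap.proj i)

/-- The Euler class of the normal bundle of the component `i`. -/
noncomputable def eu (χ : σ → C) (i : σ) : C := ∏ k ∈ univ.erase i, (χ k - χ i)

variable (K) [Algebra ℚ K]

/-- The tangent weight `(χ_l - χ_i) / m` of the edge at its source. -/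
noncomputable def pe (χ : σ → C) (e : Edge σ) : C :=
  algebraMap ℚ K (1 / ((e.deg : ℚ) + 1)) • (χ e.tgt - χ e.src)

/-- The edge factor. -/
noncomputable def ee (χ : σ → C) (e : Edge σ) : C :=
  Ring.inverse (((e.deg : C) + 1) *
    ∏ x ∈ ((univ ×ˢ range (e.deg + 2)).erase (e.src, 0)).erase (e.tgt, e.deg + 1),
      (χ x.1 - χ e.src - x.2 * pe K χ e))

/-- The value of a symbol at a marked point on the end of `e` over `e.tgt`, where `ψ = p_e`. -/
noncomputable def sv (χ : σ → C) (e : Edge σ) (s : Sym σ) : C :=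
  if s.cmp = e.tgt then
    (match s with
      | .inl x => pe K χ e ^ x.2
      | .inr e' => Ring.inverse (pe K χ e - pe K χ e'))
  else 0

variable {K} (ac : Act fr C) (χ : σ → C)

/-- Evaluation of an insertion at the end of `e` over `e.tgt`. -/
noncomputable def evp (e : Edge σ) : (Sym σ →₀ H) →ₗ[K] H :=
  Finsupp.lsum K fun s => ac.act (sv K χ e s)

lemma isEv_evp (e : Edge σ) : IsEv (p.fs _) p (evp ac χ e) := fun v => by
  induction v using Finsupp.induction_linear with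
  | zero => simp
  | add a b ha hb => simp only [map_add, ha, hb]
  | single s v => simp [evp, ac.ev _ v]

/-- A node over `e.src`, a marked point over `e.tgt`. -/
noncomputable def Ae (e : Edge σ) : Module.End K (Sym σ →₀ H) :=
  Finsupp.lsingle (.inr e) ∘ₗ ac.act (-(eu χ e.src * ee K χ e)) ∘ₗ evp ac χ e

/-- Marked points on both ends. -/
noncomputable def We (e : Edge σ) : SymB (p.fs (Sym σ)) :=
  ⟨fr.η.compl₁₂ (ac.act (ee K χ e) ∘ₗ evp ac χ e.rev) (evp ac χ e) +
    fr.η.compl₁₂ (ac.act (ee K χ e) ∘ₗ evp ac χ e) (evp ac χ e.rev), fun v w => by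
    simp only [LinearMap.add_apply, LinearMap.compl₁₂_apply, LinearMap.comp_apply]
    rw [add_comm, ← isEv_evp, ← isEv_evp, ac.adj, ac.adj, fr.η_symm, fr.η_symm (evp ac χ e.rev v),
      ac.ev, ac.ev]⟩

/-- Nodes on both ends. -/
noncomputable def Ce (e : Edge σ) : S (p.fs (Sym σ)) :=
  ∑ a, Fock.ι _ (Finsupp.single (.inr e) (ac.act (eu χ e.src * eu χ e.tgt * ee K χ e) (fr.e a))) *
    Fock.ι _ (Finsupp.single (.inr e.rev) (fr.f a))

variable (fr σ) in
/-- The dilaton vector. -/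
noncomputable def dilR : Sym σ →₀ H := ∑ i, Finsupp.single (.inl (i, 1)) fr.one

/-- Removal of an edge with exactly one node. -/
noncomputable def X0 (e : Edge σ) : Module.End K (S (p.fs (Sym σ))) :=
  Q0 _ (dilR fr σ) (Ae ac χ e + Ae ac χ e.rev)

/-- Removal of an edge without nodes. -/
noncomputable def Xm (e : Edge σ) : Module.End K (S (p.fs (Sym σ))) :=
  Qm _ (dilR fr σ) (We ac χ e) + (hf K * (We ac χ e).1 (dilR fr σ) (dilR fr σ)) • 1

/-- Removal of an edge with two nodes. -/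
noncomputable def X1 (e : Edge σ) : Module.End K (S (p.fs (Sym σ))) :=
  LinearMap.mul K _ (Ce ac χ e)

/-- The truncated expansion `1 / (ψ - p) = - ∑ ψ^k / p^(k+1)`. -/
noncomputable def exN (N : ℕ) : (Sym σ →₀ H) →ₗ[K] VV (σ → H) :=
  Finsupp.lsum K fun s => match s with
    | .inl x => Finsupp.lsingle x.2 ∘ₗ LinearMap.single K (fun _ => H) x.1
    | .inr e => -∑ k ∈ range N, Finsupp.lsingle k ∘ₗ LinearMap.single K (fun _ => H) e.src ∘ₗ
        ac.act (Ring.inverse (pe K χ e) ^ (k + 1))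

lemma isEv_exN (N : ℕ) : IsEv (p.fs _) ((p.pi σ).fs ℕ) (exN ac χ N) := fun v => by
  induction v using Finsupp.induction_linear with
  | zero => simp
  | add a b ha hb => simp only [map_add, ha, hb]
  | single s v =>
    rcases s with x | e
    · simp [exN, Par.pi_σ_single]
    · simp [exN, Par.pi_σ_single, ac.ev _ v, map_sum, -map_pow]

omit [Algebra ℚ K]

/-- Restriction of `∑ v k ξ^k` to the fixed components, `ξ = - χ i`. -/
noncomputable def res {r : ℕ} : VV (Fin (r + 1) → H) →ₗ[K] (Sym σ →₀ H) :=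
  Finsupp.lsum K fun m => ∑ i, ∑ k : Fin (r + 1),
    Finsupp.lsingle (.inl (i, m)) ∘ₗ ac.act ((-χ i) ^ (k : ℕ)) ∘ₗ LinearMap.proj k

lemma isEv_res {r : ℕ} : IsEv ((p.pi (Fin (r + 1))).fs ℕ) (p.fs _) (res ac χ) := fun v => by
  induction v using Finsupp.induction_linear with
  | zero => simp
  | add a b ha hb => simp only [map_add, ha, hb]
  | single s v => simp [res, map_sum, ac.ev _ _, -map_pow]

/-- The relation of `ξ`. -/
noncomputable def fE (χ : σ → C) : Polynomial C := ∏ j, (Polynomial.X + Polynomial.C (χ j))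

/-- The coefficient of `ξ^k` in `ξ^m`. -/
noncomputable def xc (χ : σ → C) (m k : ℕ) : C := (Polynomial.X ^ m %ₘ fE χ).coeff k

/-- Base change of an action. -/
noncomputable def actBC (K' : Type*) [CommRing K'] [Algebra K K'] :
    K' ⊗[K] C →ₐ[K'] Module.End K' (K' ⊗[K] H) :=
  Algebra.TensorProduct.lift (Algebra.ofId K' _)
    ((Module.End.baseChangeHom K K' H).comp ac.act) fun a b => (Algebra.commutes a _ : _ = _)

lemma actBC_tmul (K' : Type*) [CommRing K'] [Algebra K K'] (a : K') (x : C) :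
    actBC ac K' (a ⊗ₜ x) = a • (ac.act x).baseChange K' := by
  exact (Algebra.TensorProduct.lift_tmul _ _ _ a x).trans (Algebra.smul_def a _).symm

/-- Base change of an action. -/
noncomputable def Act.bc (K' : Type*) [CommRing K'] [Algebra K K'] :
    Act (fr.bc K') (K' ⊗[K] C) where
  act := actBC ac K'
  ev x := by
    induction x with
    | zero => simpa using IsEv.zero
    | add a b ha hb => simpa using ha.add hb
    | tmul a x =>
      rw [actBC_tmul]
      exact ((ac.ev x).bc K').smul a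
  adj x v w := by
    induction x with
    | zero => simp
    | add a b ha hb => simp [ha, hb]
    | tmul a x =>
      rw [actBC_tmul]
      simp only [LinearMap.smul_apply, map_smul]
      exact congrArg _ (fr.bc_adj K' (ac.adj x) v w)

@[simp] lemma Act.bc_act (K' : Type*) [CommRing K'] [Algebra K K'] (a b : K') (x : C) (v : H) :
    (ac.bc K').act (a ⊗ₜ x) (b ⊗ₜ v) = (a * b) ⊗ₜ ac.act x v := by
  simp [Act.bc, actBC_tmul, smul_tmul']

variable (H σ) in
/-- The inclusion of the constant insertions after a base change. -/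
noncomputable def jV (K' : Type*) [CommRing K'] [Algebra K K'] :
    VV (σ → H) →ₛₗ[algebraMap K K'] VV (σ → K' ⊗[K] H) :=
  sl K' (Finsupp.mapRange.linearMap ((TensorProduct.mk K K' H 1).compLeft σ))

omit [Fintype σ] [DecidableEq σ] in
lemma isEvS_jV (p : Par K H) (K' : Type*) [CommRing K'] [Algebra K K'] :
    IsEvS ((p.pi σ).fs ℕ) (((p.bc K').pi σ).fs ℕ) (jV H σ K') := fun _ => by ext; rfl

end generic

/-- The field `ℂ((ε))`, `ε = 1 / t`. -/
abbrev F : Type := Hat ℂ ℂ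

/-- The equivariant parameter `t = 1 / ε`. -/
noncomputable def tt : F := Hat.single ℂ (-1) 1

section data

variable {H : Type} [AddCommGroup H] [Module ℂ H] {p : Par ℂ H} {ι : Type} [Fintype ι]
  {fr : Frame p ι} {C : Type} [CommRing C] [Algebra ℂ C] {r : ℕ} (ac : Act fr C)
  (a : Fin (r + 1) → ℂ) (c : Fin (r + 1) → C)

/-- The equivariant first Chern classes `χ_j = a_j t + c_j`. -/
noncomputable def chi (j : Fin (r + 1)) : F ⊗[ℂ] C := (a j • tt) ⊗ₜ 1 + 1 ⊗ₜ c j

/-- The terms of the Riemann-Roch operator of order `ε^k` with `z^(q - 1)`, `q ∈ T`. -/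
noncomputable def aK (T : ℕ → Prop) [DecidablePred T] (i : Fin (r + 1)) (k : ℕ) :
    Module.End ℂ (LL H) :=
  if k = 0 then 0 else ∑ l ∈ univ.erase i, ∑ q ∈ antidiagonal (k + 1) with T q.1,
    ((-1) ^ k * k.factorial / (a l - a i) ^ k * (bernoulli q.1 : ℚ) /
      (q.1.factorial * q.2.factorial) : ℂ) •
      (zp ℂ H (q.1 - 1) * cst (ac.act ((c l - c i) ^ q.2)))

/-- The total Chern class `∏ (1 + ε c_l / b_l)` of the normal bundle of the component `i`. -/
noncomputable def cI (i : Fin (r + 1)) : PowerSeries C :=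
  ∏ l ∈ univ.erase i, (1 + PowerSeries.C ((a l - a i)⁻¹ • (c l - c i)) * PowerSeries.X)

/-- The skew part of the Riemann-Roch operator multiplied with a series of classes. -/
noncomputable def aT (u : PowerSeries C) (i : Fin (r + 1)) (k : ℕ) : Module.End ℂ (LL H) :=
  ∑ q ∈ antidiagonal k, cst (ac.act (PowerSeries.coeff q.1 u)) * aK ac a c (· ≠ 1) i q.2

end data

/-- The input of step (B). -/
structure BIn {H : Type} [AddCommGroup H] [Module ℂ H] {p : Par ℂ H} {ι : Type} [Fintype ι]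
    {fr : Frame p ι} (d : VD fr) {C : Type} [CommRing C] [Algebra ℂ C] (ac : Act fr C) {r : ℕ}
    (c : Fin (r + 1) → C) (Γ : Type)
    (ZT : Γ → ℤ → ℤ → S ((p.pi (Fin (r + 1))).fs ℕ) →ₗ[ℂ] Polynomial ℂ) where
  hr : 0 < r
  nil : ∀ l, IsNilpotent (c l)
  μ_c : ∀ l, d.μ * ac.act (c l) = ac.act (c l) * d.μ + ac.act (c l)
  ρ_c : ∀ l, d.ρ * ac.act (c l) = ac.act (c l) * d.ρ
  /- the weights of the torus -/
  a : Fin (r + 1) → ℂ
  ha : LinearIndependent ℚ a
  /- curve classes in the fixed locus: those over `β : Γ` and their degree against `ξ` -/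
  Γv : Type
  tup : Γ → Finset Γv
  sh : Γv → ℤ
  o : Γ
  ov : Γv
  tup_o : tup o = {ov}
  sh_o : sh ov = 0
  /- twisted invariants of the fixed locus: `ZB β jv m` has the class `Θ_m` inserted -/
  ZB : Γv → (Fin (r + 1) → ℤ) → ℕ → S ((p.pi (Fin (r + 1))).fs ℕ) →ₗ[ℂ] ℂ
  vir : ∀ i k β jv x,
    ZB β jv 0 ((fr.pi _).q0 (cmp i (d.ell k)) x + (if k = 1 then d.c0 else 0) • x) +
      ZB β (jv + Pi.single i 1) 0 ((fr.pi _).qm (cmp i (d.ell k)) x) +
      ZB β (jv - Pi.single i 1) 0 ((fr.pi _).q1 (cmp i (d.ell k)) x) = 0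
  κ : ℕ → ℂ
  κ_zero : κ 0 = 0
  qrr : ∀ β jv (m : ℕ) x, m * ZB β jv m x = ∑ q ∈ antidiagonal m,
    (ZB β jv q.1 (κ q.2 • x - (fr.pi _).q0 (∑ i, cmp i (aK ac a c (fun _ => True) i q.2)) x) -
      ∑ i, ZB β (jv - Pi.single i 1) q.1 ((fr.pi _).q1 (cmp i (aT ac a c (cI a c i) i q.2)) x) -
      ∑ i, ZB β (jv + Pi.single i 1) q.1
        ((fr.pi _).qm (cmp i (aT ac a c (Ring.inverse (cI a c i)) i q.2)) x))
  low : ∀ β x, ∃ J : ℤ, ∀ m jv, ZB β jv m x ≠ 0 → ∀ i, J ≤ jv i
  norm_neg : ∀ jv m, ZB ov jv m 1 ≠ 0 → ∀ i, 0 ≤ jv i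
  norm_zero : ∀ m, ZB ov 0 m 1 = if m = 0 then 1 else 0
  ZF : Γv → (Fin (r + 1) → ℤ) → S (((p.bc F).pi (Fin (r + 1))).fs ℕ) →ₗ[F] F
  ZF_bc : ∀ β jv x, ZF β jv (bcS _ (isEvS_jV p F) x) =
    Hat.ofPS ℂ (PowerSeries.mk fun m => ZB β jv m x)
  /- localization: `ZZ m β e j` is the contribution of the fixed loci with `m` edges of total
  degree `e` -/
  ZZ : ℕ → Γv → ℤ → ℤ → S ((p.bc F).fs (Sym (Fin (r + 1)))) →ₗ[F] F
  loc1 : ∀ β e j x, Polynomial.aeval tt (ZT β e j x) = ∑ βv ∈ tup β, ∑ᶠ m, ZZ m βv (e - sh βv) j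
    (Fock.map _ (isEv_res (ac.bc F) (chi a c)) (bcS _ (isEvS_jV p F) x))
  lam : Γv → F
  lam_o : lam ov = 1
  loc2 : ∀ β j x, ∀ᶠ N in Filter.atTop, ZZ 0 β 0 j x = lam β * ∑ᶠ (jv) (_ : ∑ i, jv i = j),
    (∏ i, (∏ l ∈ univ.erase i, (a l - a i) • tt) ^ jv i) *
      ZF β jv (Fock.map _ (isEv_exN (ac.bc F) (chi a c) N) x)
  loc2' : ∀ β e j, e ≠ 0 → ZZ 0 β e j = 0
  loc3 : ∀ (m : ℕ) β e j x, (2 * ((m : F) + 1)) * ZZ (m + 1) β e j x = ∑ᶠ E : Edge (Fin (r + 1)),
    (ZZ m β (e - (E.deg + 1)) j (X0 (ac.bc F) (chi a c) E x) +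
      ZZ m β (e - (E.deg + 1)) (j + 1) (Xm (ac.bc F) (chi a c) E x) +
      ZZ m β (e - (E.deg + 1)) (j - 1) (X1 (ac.bc F) (chi a c) E x))

/-- The Virasoro data of the projective bundle in the basis `1, ξ, …, ξ^r` over `H`. -/
structure IsProj {H : Type} [AddCommGroup H] [Module ℂ H] {p : Par ℂ H} {ι : Type} [Fintype ι]
    {fr : Frame p ι} (d : VD fr) {C : Type} [CommRing C] [Algebra ℂ C] (ac : Act fr C) {r : ℕ}
    (c : Fin (r + 1) → C) {ι' : Type} [Fintype ι'] {fr' : Frame (p.pi (Fin (r + 1))) ι'}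
    (d' : VD fr') : Prop where
  η : ∀ v w, fr'.η v w =
    ∑ k : Fin (r + 1), ∑ l : Fin (r + 1), fr.η (ac.act (xc c (k + l) r) (v k)) (w l)
  one : fr'.one = Pi.single 0 fr.one
  μ : ∀ v k, d'.μ v k = d.μ (v k) + ((k : ℕ) - r / 2 : ℂ) • v k
  ρ : ∀ v k, d'.ρ v k = d.ρ (v k) + ac.act (∑ l, c l) (v k) +
    ((r : ℂ) + 1) • ∑ l : Fin (r + 1), ac.act (xc c (l + 1) k) (v l)

/-- The statement of step (B). -/
def StepB : Prop :=
  ∀ {H : Type} [AddCommGroup H] [Module ℂ H] {p : Par ℂ H} {ι : Type} [Fintype ι]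
    {fr : Frame p ι} (d : VD fr) {C : Type} [CommRing C] [Algebra ℂ C] (ac : Act fr C) {r : ℕ}
    (c : Fin (r + 1) → C) (Γ : Type)
    (ZT : Γ → ℤ → ℤ → S ((p.pi (Fin (r + 1))).fs ℕ) →ₗ[ℂ] Polynomial ℂ) (_ : BIn d ac c Γ ZT)
    {ι' : Type} [Fintype ι'] {fr' : Frame (p.pi (Fin (r + 1))) ι'} (d' : VD fr')
    (_ : IsProj d ac c d') (β : Γ) (e : ℤ),
    d'.VirC fun j => Polynomial.lcoeff ℂ 0 ∘ₗ ZT β e j

end Vale.Agent.P269.B
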