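import Vale.Agent.P269.B.CoDef

/-! Coordinates: multiplication rules, the specialisation `t = 0`, the extraction lemma. -/

set_option linter.unusedSectionVars false

namespace Vale.Agent.P269.B

open Fock Finset

variable {r D : ℕ}

lemma cq_mk {e : ℤ} (h0 : 0 ≤ e) (h : e ≤ D) (p : Polynomial ℂ) :
    cq D e (AdjoinRoot.mk _ p) = p.coeff e.toNat := by
  rw [cq, if_pos h0, LinearMap.comp_apply, AdjoinRoot.modByMonicHom_mk, Polynomial.lcoeff_apply,
    Polynomial.modByMonic_eq_sub_mul_div, Polynomial.coeff_sub, Polynomial.coeff_X_pow_mul',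
    if_neg (by omega), sub_zero]

lemma Rq_ext {x y : Rq D} (h : ∀ e : ℤ, 0 ≤ e → e ≤ D → cq D e x = cq D e y) : x = y := by
  obtain ⟨p, rfl⟩ := AdjoinRoot.mk_surjective x
  obtain ⟨p', rfl⟩ := AdjoinRoot.mk_surjective y
  refine AdjoinRoot.mk_eq_mk.2 (Polynomial.X_pow_dvd_iff.2 fun d hd => ?_)
  have := h d (by omega) (by omega)
  rw [cq_mk (by omega) (by omega), cq_mk (by omega) (by omega), Int.toNat_natCast] at this
  rw [Polynomial.coeff_sub, this, sub_self]

lemma cq_neg {e : ℤ} (h : e < 0) (x : Rq D) : cq D e x = 0 := by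
  rw [cq, if_neg (by omega), LinearMap.zero_apply]

lemma cq_of_lt {e : ℤ} (h : (D : ℤ) < e) (x : Rq D) : cq D e x = 0 := by
  obtain ⟨p, rfl⟩ := AdjoinRoot.mk_surjective x
  rw [cq, if_pos (by omega), LinearMap.comp_apply, AdjoinRoot.modByMonicHom_mk,
    Polynomial.lcoeff_apply]
  refine Polynomial.coeff_eq_zero_of_degree_lt
    ((Polynomial.degree_modByMonic_lt p (Polynomial.monic_X_pow _)).trans_le ?_)
  rw [Polynomial.degree_X_pow]
  exact_mod_cast (by omega : D + 1 ≤ e.toNat)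

lemma cq_algebraMap (e : ℤ) (c : ℂ) : cq D e (algebraMap ℂ _ c) = if e = 0 then c else 0 := by
  rcases lt_or_ge e 0 with h0 | h0
  · rw [cq_neg h0, if_neg (by omega)]
  rcases lt_or_ge (D : ℤ) e with h | h
  · rw [cq_of_lt h, if_neg (by omega)]
  rw [AdjoinRoot.algebraMap_eq, ← AdjoinRoot.mk_C, cq_mk h0 h, Polynomial.coeff_C]
  split_ifs <;> first | rfl | omega

lemma cq_one (e : ℤ) : cq D e 1 = if e = 0 then 1 else 0 := by
  rw [← map_one (algebraMap ℂ (Rq D)), cq_algebraMap]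

lemma cq_mul {e : ℤ} (h : e ≤ D) (x y : Rq D) :
    cq D e (x * y) = ∑ a ∈ Icc 0 e, cq D a x * cq D (e - a) y := by
  rcases lt_or_ge e 0 with h0 | h0
  · rw [cq_neg h0, Icc_eq_empty (by omega), sum_empty]
  obtain ⟨p, rfl⟩ := AdjoinRoot.mk_surjective x
  obtain ⟨p', rfl⟩ := AdjoinRoot.mk_surjective y
  obtain ⟨m, rfl⟩ := Int.eq_ofNat_of_zero_le h0
  rw [← map_mul, cq_mk h0 h, Int.toNat_natCast, Polynomial.coeff_mul]
  refine sum_nbij' (fun z => (z.1 : ℤ)) (fun i => (i.toNat, m - i.toNat)) ?_ ?_ ?_ ?_ ?_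
  · rintro ⟨i, j⟩; simp only [mem_antidiagonal, mem_Icc]; omega
  · intro i; simp only [mem_antidiagonal, mem_Icc]; omega
  · rintro ⟨i, j⟩ hij
    obtain rfl := mem_antidiagonal.mp hij
    simp
  · intro i; simp only [mem_Icc]; omega
  · rintro ⟨i, j⟩ hij
    obtain rfl := mem_antidiagonal.mp hij
    rw [cq_mk (by omega) (by omega), cq_mk (by omega) (by omega)]
    simp

lemma cq_qq_mul {e : ℤ} (h : e ≤ D) (x : Rq D) : cq D e (qq D * x) = cq D (e - 1) x := by
  rcases lt_or_ge e 0 with h0 | h0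
  · rw [cq_neg h0, cq_neg (by omega)]
  obtain ⟨p, rfl⟩ := AdjoinRoot.mk_surjective x
  rw [qq, ← AdjoinRoot.mk_X, ← map_mul, cq_mk h0 h]
  rcases h0.eq_or_lt with rfl | h1
  · rw [cq_neg (by omega)]; simp
  · rw [cq_mk (by omega) (by omega), show e.toNat = (e - 1).toNat + 1 by omega,
      Polynomial.coeff_X_mul]

lemma exists_rq (f : ℤ → ℂ) :
    ∃ x : Rq D, (∀ e : ℤ, 0 ≤ e → e ≤ D → cq D e x = f e) := by
  refine ⟨AdjoinRoot.mk _ (∑ i ∈ range (D + 1), Polynomial.monomial i (f i)), fun e h0 h => ?_⟩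
  rw [cq_mk h0 h, Polynomial.finsetSum_coeff, sum_eq_single e.toNat]
  · rw [Polynomial.coeff_monomial, if_pos rfl, Int.toNat_of_nonneg h0]
  · intro b _ hb; rw [Polynomial.coeff_monomial, if_neg hb]
  · intro hn; exact absurd (mem_range.2 (by omega)) hn

lemma K1_ext {x y : K1 D}
    (h : ∀ e j : ℤ, 0 ≤ e → e ≤ D → cq D e (x.co j) = cq D e (y.co j)) : x = y :=
  Hat.ext (funext fun j => Rq_ext fun e h0 h1 => h e j h0 h1)

lemma q1_pow : q1 D ^ (D + 1) = 0 := by rw [q1, ← map_pow, qq_pow, map_zero]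

lemma hb1_add (m n : ℤ) : hb1 D (m + n) = hb1 D m * hb1 D n := by
  rw [hb1, hb1, hb1, Hat.single_mul, one_mul]

lemma hb_add (m n : ℤ) : hb r D (m + n) = hb r D m * hb r D n := by
  rw [hb, hb, hb, Hat.single_mul, hb1_add, mul_add]

@[simp] lemma hb1_zero : hb1 D 0 = 1 := rfl

@[simp] lemma hb_zero : hb r D 0 = 1 := by rw [hb, mul_zero]; rfl

lemma single_pow {K A : Type*} [Ring A] (k : ℤ) (a : A) (m : ℕ) :
    Hat.single K k a ^ m = Hat.single K (k * m) (a ^ m) := by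
  induction m with
  | zero => simp [Hat.one_def]
  | succ m ih => rw [pow_succ, ih, Hat.single_mul, pow_succ]; congr 2; push_cast; ring

lemma Qe_pow : Qe r D ^ (D + 1) = 0 := by rw [Qe, single_pow, q1_pow, map_zero]

lemma phF_algebraMap (c : ℂ) : phF D (algebraMap ℂ F c) = algebraMap ℂ (F1 D) c :=
  Hat.mapR_single _ _ _

lemma coord_ext {x y : F1 D} (h : ∀ e j : ℤ, 0 ≤ e → e ≤ D → coord r D e j x = coord r D e j y) :
    x = y := by
  refine Hat.ext (funext fun N => K1_ext fun e j h0 h1 => ?_)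
  have := congrArg (·.co (N - r * j + (r + 1) * e)) (h e j h0 h1)
  simp only [co_coord] at this
  rwa [show N - r * j + (r + 1) * e + r * j - (r + 1) * e = N by ring] at this

lemma coord_neg {e : ℤ} (h : e < 0) (j : ℤ) (w : F1 D) : coord r D e j w = 0 :=
  Hat.ext (funext fun _ => cq_neg h _)

lemma coord_of_lt {e : ℤ} (h : (D : ℤ) < e) (j : ℤ) (w : F1 D) : coord r D e j w = 0 :=
  Hat.ext (funext fun _ => cq_of_lt h _)

lemma co_algebraMap_mul (c : ℂ) (a : K1 D) (j : ℤ) :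
    (algebraMap ℂ (K1 D) c * a).co j = c • a.co j := by
  rw [← Algebra.smul_def, Hat.co_smul]

lemma coord_phF_mul (e j : ℤ) (c : F) (w : F1 D) :
    coord r D e j (phF D c * w) = c * coord r D e j w := by
  refine Hat.ext (funext fun n => ?_)
  refine (Hat.map_co_cv (cq D e ∘ₗ Hat.coL ℂ j) Hat.bi_mul (phF D c) w _).trans
    (finsum_congr fun i => ?_)
  change cq D e ((algebraMap ℂ (K1 D) (c.co i) * _).co j) = c.co i * _
  rw [co_algebraMap_mul, map_smul, co_coord, smul_eq_mul]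
  congr 4
  ring

lemma coord_smul (e j : ℤ) (c : ℂ) (w : F1 D) :
    coord r D e j (c • w) = c • coord r D e j w :=
  Hat.ext (funext fun _ => map_smul (cq D e) c _)

lemma coord_Qe_mul {e : ℤ} (h : e ≤ D) (j : ℤ) (w : F1 D) :
    coord r D e j (Qe r D * w) = coord r D (e - 1) j w := by
  refine Hat.ext (funext fun n => ?_)
  rw [co_coord, co_coord, Qe, Hat.co_single_mul, q1, Hat.algebraMap_co, Hat.C_apply,
    Hat.co_single_mul, Algebra.algebraMap_self_apply, cq_qq_mul h, sub_zero]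
  congr 3
  ring

lemma coord_Qe_pow_mul {e : ℤ} (h : e ≤ D) (j : ℤ) (m : ℕ) (w : F1 D) :
    coord r D e j (Qe r D ^ m * w) = coord r D (e - m) j w := by
  induction m generalizing e with
  | zero => simp
  | succ m ih =>
    rw [pow_succ' (Qe r D), mul_assoc, coord_Qe_mul h, ih (by omega)]
    congr 2
    push_cast; ring

lemma coord_hb_mul (e j n : ℤ) (w : F1 D) :
    coord r D e j (hb r D n * w) = coord r D e (j - n) w := by
  refine Hat.ext (funext fun k => ?_)
  rw [co_coord, co_coord, hb, Hat.co_single_mul, hb1, Hat.co_single_mul, one_mul]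
  congr 3
  ring

lemma coord_one (e j : ℤ) : coord r D e j 1 = if e = 0 ∧ j = 0 then 1 else 0 := by
  refine Hat.ext (funext fun n => ?_)
  rw [co_coord, Hat.one_def, Hat.co_single]
  by_cases h : e = 0 ∧ j = 0
  · obtain ⟨rfl, rfl⟩ := h
    simp only [mul_zero, add_zero, sub_zero, and_self, if_true, Hat.one_def, Hat.co_single]
    split_ifs
    · rw [Hat.co_single_same, cq_one, if_pos rfl]
    · simp
  · rw [if_neg h, Hat.co_zero]
    split_ifs
    · rw [Hat.one_def, Hat.co_single]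
      split_ifs with h2
      · rw [cq_one, if_neg fun h1 => h ⟨h1, h2⟩]
      · simp
    · simp

lemma coord_Lo {L : ℤ} {w : F1 D} (h : w ∈ Hat.Lo _ _ L) (e j : ℤ) :
    coord r D e j w ∈ Hat.Lo ℂ ℂ (L - r * j + (r + 1) * e) := fun n hn => by
  rw [co_coord, h _ (by omega)]; simp

/-- A coefficient of a product vanishes when all the terms vanish. -/
lemma supp_mul {x y : F1 D} {N j e : ℤ} (H : ∀ N' j' e', cq D e' ((x.co N').co j') = 0 ∨
    cq D (e - e') ((y.co (N - N')).co (j - j')) = 0) : cq D e (((x * y).co N).co j) = 0 := by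
  rcases lt_or_ge (D : ℤ) e with h | h
  · exact cq_of_lt h _
  refine Hat.cv_mem (U := (cq D e ∘ₗ Hat.coL ℂ j).toAddMonoidHom.ker) Hat.bi_mul fun N' => ?_
  refine Hat.cv_mem (U := (cq D e).toAddMonoidHom.ker) Hat.bi_mul fun j' => ?_
  change cq D e _ = 0
  rw [cq_mul h]
  exact sum_eq_zero fun e' _ => mul_eq_zero.2 (H N' j' e')

lemma isP_iff {w : F1 D} : IsP r D w ↔
    ∀ N j e : ℤ, r * j < N + (r + 1) * e → cq D e ((w.co N).co j) = 0 := by
  refine ⟨fun h N j e hN => ?_, fun h e j n hn => h _ _ _ (by omega)⟩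
  have := h e j (N - r * j + (r + 1) * e) (by omega)
  rwa [co_coord, show N - r * j + (r + 1) * e + r * j - (r + 1) * e = N by ring] at this

variable (r D) in
/-- Series whose coordinates are polynomials in `t`. -/
def PP : Subalgebra ℂ (F1 D) where
  carrier := {w | IsP r D w}
  mul_mem' := fun {x y} hx hy => isP_iff.2 fun N j e h => supp_mul fun N' j' e' => by
    by_cases h' : r * j' < N' + (r + 1) * e'
    · exact Or.inl (isP_iff.1 hx _ _ _ h')
    · exact Or.inr (isP_iff.1 hy _ _ _ (by linarith))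
  add_mem' := fun {x y} hx hy e j n hn => by
    rw [map_add, Hat.co_add, hx e j n hn, hy e j n hn, add_zero]
  algebraMap_mem' := fun c e j n hn => by
    rw [Algebra.algebraMap_eq_smul_one, coord_smul, coord_one, Hat.co_smul]
    split_ifs
    · rw [Hat.one_def, Hat.co_single, if_neg hn.ne', smul_zero]
    · simp

lemma mem_PP {w : F1 D} : w ∈ PP r D ↔ IsP r D w := Iff.rfl

lemma tt_mem : phF D tt ∈ PP r D := fun e j n hn => by
  rw [← mul_one (phF D tt), coord_phF_mul, tt, Hat.co_single_mul, one_mul]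
  exact (PP r D).one_mem e j _ (by omega)

lemma Qe_mem : Qe r D ∈ PP r D := fun e j n hn => by
  rcases lt_or_ge (D : ℤ) e with h | h
  · rw [coord_of_lt h, Hat.co_zero]
  · rw [← mul_one (Qe r D), coord_Qe_mul h]
    exact (PP r D).one_mem _ j n hn

lemma hb_mem (n : ℤ) : hb r D n ∈ PP r D := fun e j k hk => by
  rw [← mul_one (hb r D n), coord_hb_mul]
  exact (PP r D).one_mem _ _ k hk

/-- `π` is the specialisation `t = 0` followed by the reduction modulo `q^(D₀+1)`. -/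
def IsPi (r D D₀ : ℕ) (π : PP r D →ₐ[ℂ] K1 D₀) : Prop :=
  ∀ (w : PP r D) (e j : ℤ), e ≤ D₀ → cq D₀ e ((π w).co j) = (coord r D e j w.1).co 0

lemma IsP.co_Lo (hr : 0 < r) {w : F1 D} (h : IsP r D w) {L : ℤ} (hL : w ∈ Hat.Lo _ _ L) (N : ℤ) :
    w.co N ∈ Hat.Lo _ _ (min L 0) := fun j hj => by
  rcases lt_or_ge N L with h1 | h1
  · rw [hL N h1, Hat.co_zero]
  · refine Rq_ext fun e h0 _ => ?_
    have : (r : ℤ) * j ≤ j := by nlinarith [show (1 : ℤ) ≤ r by omega, show j < 0 by omega]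
    have h2 : 0 ≤ ((r : ℤ) + 1) * e := by positivity
    rw [isP_iff.1 h N j e (by omega), map_zero]

/-- The coefficient of `t^0` of a product. -/
lemma coord_mul_zero (hr : 0 < r) {x y : F1 D} (hx : IsP r D x) (hy : IsP r D y) {A B : ℤ}
    (hA : x ∈ Hat.Lo _ _ A) (hB : y ∈ Hat.Lo _ _ B) {e : ℤ} (he : e ≤ D) (j : ℤ) :
    (coord r D e j (x * y)).co 0 = ∑ j' ∈ Icc (min A 0) (j - min B 0), ∑ e' ∈ Icc 0 e,
      (coord r D e' j' x).co 0 * (coord r D (e - e') (j - j') y).co 0 := by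
  rw [co_coord, Hat.mul_def, Hat.co_cv _ hA hB, Hat.co_sum, map_sum]
  simp only [Hat.mul_def, Hat.co_cv _ (hx.co_Lo hr hA _) (hy.co_Lo hr hB _), map_sum, cq_mul he]
  rw [sum_comm]
  refine sum_congr rfl fun j' _ => ?_
  rw [sum_comm]
  refine sum_congr rfl fun e' _ => ?_
  rw [sum_eq_single (0 + r * j' - (r + 1) * e'), co_coord, co_coord]
  · congr 4
    ring
  · intro N _ hN
    by_cases h' : r * j' < N + (r + 1) * e'
    · rw [isP_iff.1 hx _ _ _ h', zero_mul]
    · rw [isP_iff.1 hy _ _ _ (by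
        have : N < 0 + r * j' - (r + 1) * e' := by omega
        linarith), mul_zero]
  · intro hn
    rw [mem_Icc, not_and_or] at hn
    rcases hn with hn | hn
    · rw [hA _ (by omega)]; simp
    · rw [hB _ (by omega)]; simp

theorem exists_pi (hr : 0 < r) {D₀ : ℕ} (h : D₀ ≤ D) : ∃ π, IsPi r D D₀ π := by
  have h1 : ∀ w : PP r D, ∃ z : K1 D₀, (∀ e j : ℤ, e ≤ D₀ →
      cq D₀ e (z.co j) = (coord r D e j w.1).co 0) ∧
      ∀ L, w.1 ∈ Hat.Lo _ _ L → z ∈ Hat.Lo _ _ (min L 0) := fun w => by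
    choose f hf using fun j : ℤ => exists_rq (D := D₀) fun e => (coord r D e j w.1).co 0
    have h2 : ∀ L, w.1 ∈ Hat.Lo _ _ L → ∀ j < min L 0, f j = 0 := fun L hL j hj =>
      Rq_ext fun e h0 h1 => by
        rw [hf j e h0 h1, co_coord, IsP.co_Lo hr w.2 hL _ j hj, map_zero, map_zero]
    obtain ⟨L, hL⟩ := w.1.exists_Lo
    refine ⟨⟨f, _, h2 L hL⟩, fun e j he => ?_, h2⟩
    rcases lt_or_ge e 0 with h0 | h0
    · rw [cq_neg h0, coord_neg h0, Hat.co_zero]
    · exact hf j e h0 he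
  choose π hπ hL using h1
  have hs : ∀ (c : ℂ) w, π (c • w) = c • π w := fun c w => K1_ext fun e j _ he => by
    rw [hπ _ e j he, Hat.co_smul, map_smul, hπ _ e j he]
    exact congrArg (·.co 0) (coord_smul e j c w.1)
  have ha : ∀ x y, π (x + y) = π x + π y := fun x y => K1_ext fun e j _ he => by
    rw [hπ _ e j he, Hat.co_add, map_add, hπ _ e j he, hπ _ e j he]
    exact congrArg (·.co 0) (map_add (coord r D e j) x.1 y.1)
  have h1 : π 1 = 1 := K1_ext fun e j _ he => by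
    rw [hπ _ e j he, OneMemClass.coe_one, coord_one, Hat.one_def, Hat.one_def, Hat.co_single]
    by_cases hj : j = 0
    · rw [if_pos hj, cq_one]
      by_cases h0 : e = 0 <;> simp [h0, hj]
    · simp [hj]
  have hm : ∀ x y, π (x * y) = π x * π y := fun x y => K1_ext fun e j _ he => by
    obtain ⟨A, hA⟩ := x.1.exists_Lo
    obtain ⟨B, hB⟩ := y.1.exists_Lo
    rw [hπ _ e j he, MulMemClass.coe_mul, coord_mul_zero hr x.2 y.2 hA hB (by omega), Hat.mul_def,
      Hat.co_cv _ (hL x A hA) (hL y B hB), map_sum]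
    refine sum_congr rfl fun j' _ => ?_
    rw [cq_mul he]
    refine sum_congr rfl fun e' he' => ?_
    rw [mem_Icc] at he'
    rw [hπ _ _ _ (by omega), hπ _ _ _ (by omega)]
  exact ⟨AlgHom.ofLinearMap ⟨⟨π, ha⟩, hs⟩ h1 hm, hπ⟩

section
variable {D₀ : ℕ} {π : PP r D →ₐ[ℂ] K1 D₀} (hπ : IsPi r D D₀ π) (h : D₀ ≤ D)
include hπ h

lemma IsPi.tt : π ⟨_, tt_mem⟩ = 0 := K1_ext fun e j _ he => by
  rw [hπ _ e j he, Subtype.coe_mk, ← mul_one (phF D B.tt), coord_phF_mul, B.tt,
    Hat.co_single_mul, one_mul, Hat.co_zero, map_zero]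
  exact (PP r D).one_mem e j _ (by omega)

lemma IsPi.Qe : π ⟨_, Qe_mem⟩ = q1 D₀ := K1_ext fun e j _ he => by
  rw [hπ _ e j he, Subtype.coe_mk, ← mul_one (B.Qe r D), coord_Qe_mul (by omega), coord_one, q1,
    Hat.algebraMap_co, Hat.C_apply, Hat.co_single, Algebra.algebraMap_self_apply]
  by_cases hj : j = 0
  · rw [if_pos hj, ← mul_one (qq D₀), cq_qq_mul he, cq_one]
    by_cases h0 : e - 1 = 0 <;> simp [h0, hj, Hat.one_def]
  · simp [hj]

lemma IsPi.hb (n : ℤ) : π ⟨_, hb_mem n⟩ = hb1 D₀ n := K1_ext fun e j _ he => by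
  rw [hπ _ e j he, Subtype.coe_mk, ← mul_one (B.hb r D n), coord_hb_mul, coord_one, hb1,
    Hat.co_single]
  by_cases hj : j = n
  · rw [if_pos hj, cq_one]
    by_cases h0 : e = 0 <;> simp [h0, hj, Hat.one_def]
  · simp [hj, sub_eq_zero]

end

lemma PP_unit_one {a : PP r D} (h : a.1 - 1 ∈ Hat.Lo _ _ 1) : IsUnit a := by
  have hx' : 1 - a.1 ∈ Hat.Lo _ _ 1 := by simpa using neg_mem h
  obtain ⟨y, e1, -, e3⟩ := Hat.exists_fix (Φ := fun y => 1 + (1 - a.1) * y) (x0 := 1) (L := 1)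
    (U := PP r D) (fun n a b h => by
      rw [add_sub_add_left_eq_sub, ← mul_sub, add_comm n]; exact Hat.mul_Lo hx' h)
    (by simpa using hx') (PP r D).one_mem fun y hy =>
      add_mem (one_mem _) (mul_mem (sub_mem (one_mem _) a.2) hy)
  have hy : y ∈ PP r D := isP_iff.2 fun N j e hN => by
    obtain ⟨z, hz, e4⟩ := e3 (N + 1)
    have := e4 N (by omega)
    rw [Hat.co_sub, sub_eq_zero] at this
    rw [this]
    exact isP_iff.1 hz N j e hN
  refine IsUnit.of_mul_eq_one ⟨y, hy⟩ (Subtype.ext ?_)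
  change a.1 * y = 1
  linear_combination -e1

lemma nilpotent_of_cq {x : F1 D} (h : ∀ N j, cq D 0 ((x.co N).co j) = 0) : x ^ (D + 1) = 0 := by
  have : ∀ (m : ℕ) (N j e : ℤ), e < m → cq D e (((x ^ m).co N).co j) = 0 := fun m => by
    induction m with
    | zero => exact fun N j e he => cq_neg he _
    | succ m ih =>
      intro N j e he
      rw [pow_succ' x]
      refine supp_mul fun N' j' e' => ?_
      rcases lt_trichotomy e' 0 with h1 | rfl | h1
      · exact Or.inl (cq_neg h1 _)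
      · exact Or.inl (h _ _)
      · exact Or.inr (ih _ _ _ (by omega))
  refine Hat.ext (funext fun N => K1_ext fun e j _ he => ?_)
  rw [this _ N j e (by omega)]
  simp

theorem PP_unit (hr : 0 < r) {y : PP r D} (h0 : ∀ j < 0, coord r D 0 j y.1 = 0)
    (h1 : coord r D 0 0 y.1 = 1) (h2 : ∀ j, coord r D 0 j y.1 ∈ Hat.Lo ℂ ℂ (-(r * j))) :
    IsUnit y := by
  have hc : ∀ N j, cq D 0 ((y.1.co N).co j) = (coord r D 0 j y.1).co (N - r * j) := fun N j => by
    rw [co_coord]; congr 3; ring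
  let y0 : F1 D := ⟨fun N => ⟨fun j => algebraMap ℂ _ (cq D 0 ((y.1.co N).co j)),
    0, fun j hj => by rw [hc, h0 j hj]; simp⟩, 0, fun N hN => Hat.ext (funext fun j => by
      change algebraMap ℂ _ _ = 0
      rw [hc, h2 j _ (by omega), map_zero])⟩
  have e0 : ∀ N j, (y0.co N).co j = algebraMap ℂ _ (cq D 0 ((y.1.co N).co j)) := fun _ _ => rfl
  have m0 : y0 ∈ PP r D := isP_iff.2 fun N j e hN => by
    rw [e0, cq_algebraMap]
    split_ifs with he
    · exact isP_iff.1 y.2 N j 0 (he ▸ hN)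
    · rfl
  have l0 : y0 ∈ Hat.Lo _ _ 0 := fun N hN => Hat.ext (funext fun j => by
    rw [e0, hc, h2 j _ (by omega), map_zero]; rfl)
  obtain ⟨v, v1, -, v2, v3⟩ := Hat.exists_inv (x := y0.co 0) (fun j hj => by
    rw [Hat.co_sub, e0, hc, Hat.one_def, Hat.co_single]
    split_ifs with h
    · subst h; rw [h1]; simp [Hat.one_def]
    · rw [h0 j (by omega)]; simp) (algebraMap ℂ (Rq D)).range fun j => ⟨_, (e0 0 j).symm⟩
  have v4 : v ∈ Hat.Lo _ _ 0 := by
    simpa using add_mem (Hat.Lo_mono zero_le_one v2) (Hat.one_Lo (K := Rq D) (A := Rq D))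
  have mv : Hat.C _ v ∈ PP r D := isP_iff.2 fun N j e hN => by
    rw [Hat.C_apply, Hat.co_single]
    split_ifs with h
    · rcases lt_or_ge j 0 with hj | hj
      · rw [v4 j hj, map_zero]
      · obtain ⟨c, hc⟩ := v3 j
        have : 0 ≤ (r : ℤ) * j := by positivity
        rw [← hc, cq_algebraMap, if_neg]
        rintro rfl
        omega
    · simp
  have u0 : IsUnit ((⟨y0, m0⟩ : PP r D) * ⟨_, mv⟩) := PP_unit_one fun N hN => by
    change (y0 * Hat.C _ v - 1).co N = 0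
    rw [Hat.co_sub, Hat.C_apply, Hat.co_mul_single, sub_zero, Hat.one_def, Hat.co_single]
    split_ifs with h
    · rw [h, v1, sub_self]
    · rw [l0 N (by omega), zero_mul, sub_zero]
  have n1 : IsNilpotent (y - ⟨y0, m0⟩) := ⟨D + 1, Subtype.ext (nilpotent_of_cq fun N j => by
    change cq D 0 (((y.1 - y0).co N).co j) = 0
    rw [Hat.co_sub, Hat.co_sub, map_sub, e0, cq_algebraMap, if_pos rfl, sub_self])⟩
  simpa using n1.isUnit_add_left_of_commute (isUnit_of_mul_isUnit_left u0) (Commute.all _ _)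

theorem extract (hr : 0 < r) {D₀ b : ℕ} (h : D₀ + b ≤ D) {π : PP r D →ₐ[ℂ] K1 D₀}
    (hπ : IsPi r D D₀ π) {y xm x1 : PP r D} (hy : IsUnit y) {w : F1 D} {M J : ℤ}
    (hw : w ∈ Hat.Lo _ _ (M - (r + 1) * b)) (hJ : π y ∈ Hat.Lo _ _ J)
    (e : y.1 * w = Qe r D ^ b * xm.1 + phF D tt * x1.1) {j : ℤ} (hj : r * (j - J) < M) :
    (π xm).co j = 0 := by
  obtain ⟨z, hz⟩ := hy.exists_left_inv
  have hz' : z.1 * y.1 = 1 := congrArg Subtype.val hz
  have e1 : w = Qe r D ^ b * (z * xm).1 + phF D tt * (z * x1).1 := by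
    simp only [MulMemClass.coe_mul]
    linear_combination z.1 * e - w * hz'
  have e2 : ∀ i : ℤ, r * i < M → (π (z * xm)).co i = 0 := fun i hi => Rq_ext fun a a0 a1 => by
    have h1 := coord_Lo (r := r) hw (a + b) i 0 (by
      have : 0 ≤ ((r : ℤ) + 1) * a := by positivity
      linarith)
    rw [e1, map_add, coord_Qe_pow_mul (by omega), coord_phF_mul, Hat.co_add, tt,
      Hat.co_single_mul, (z * x1).2 _ _ _ (by omega), mul_zero, add_zero,
      add_sub_cancel_right] at h1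
    rw [hπ _ a i a1, h1, map_zero]
  have e3 : π xm = π y * π (z * xm) := by
    rw [← map_mul, ← mul_assoc, mul_comm y, hz, one_mul]
  rw [e3]
  refine Hat.cv_mem (U := ⊥) Hat.bi_mul fun i => ?_
  rw [AddSubgroup.mem_bot]
  rcases lt_or_ge i J with hi | hi
  · rw [hJ i hi, zero_mul]
  · rw [e2 _ (by nlinarith [show (0 : ℤ) ≤ r by omega]), mul_zero]

theorem exists_inv_Lo {y : F1 D} (hy : y ∈ Hat.Lo _ _ 0) {u v : K1 D} (hu : u - 1 ∈ Hat.Lo _ _ 1)
    (e : y.co 0 = u + q1 D * v) : ∃ y' ∈ Hat.Lo _ _ 0, y * y' = 1 := by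
  obtain ⟨u', h1, -⟩ := Hat.exists_inv hu ⊤ fun _ => trivial
  have h2 : IsNilpotent (q1 D * v) := ⟨D + 1, by rw [mul_pow, q1_pow, zero_mul]⟩
  obtain ⟨s, hs⟩ := (h2.isUnit_add_left_of_commute (IsUnit.of_mul_eq_one _ h1)
    (Commute.all _ _)).exists_right_inv
  obtain ⟨z, z1, -, z2, -⟩ := Hat.exists_inv (x := y * Hat.C _ s) (fun N hN => by
    rw [Hat.co_sub, Hat.C_apply, Hat.co_mul_single, sub_zero, Hat.one_def, Hat.co_single]
    split_ifs with h
    · rw [h, e, hs, sub_self]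
    · rw [hy N (by omega), zero_mul, sub_zero]) ⊤ fun _ => trivial
  have z3 : z ∈ Hat.Lo _ _ 0 := by
    simpa using add_mem (Hat.Lo_mono zero_le_one z2) (Hat.one_Lo (K := K1 D) (A := K1 D))
  exact ⟨Hat.C _ s * z, Hat.mul_Lo (Hat.single_Lo 0 s) z3, by rw [← mul_assoc, z1]⟩

section gen

variable {σ : Type} [Fintype σ] [DecidableEq σ] {w : σ → ℂ}

/-- Families with bounded below support. -/
def Bd (z : (σ → ℤ) → ℂ) : Prop := ∃ J : ℤ, ∀ jv, z jv ≠ 0 → ∀ i, J ≤ jv i

omit [Fintype σ] [DecidableEq σ] in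
lemma Bd.add {z z' : (σ → ℤ) → ℂ} (h : Bd z) (h' : Bd z') : Bd (z + z') := by
  obtain ⟨J, hJ⟩ := h
  obtain ⟨J', hJ'⟩ := h'
  refine ⟨min J J', fun jv hv i => ?_⟩
  by_cases h : z jv = 0
  · exact (min_le_right _ _).trans (hJ' jv (by simpa [h] using hv) i)
  · exact (min_le_left _ _).trans (hJ jv h i)

omit [Fintype σ] [DecidableEq σ] in
lemma Bd.smul {z : (σ → ℤ) → ℂ} (h : Bd z) (c : ℂ) : Bd (c • z) :=
  h.imp fun _ hJ jv hv => hJ jv (right_ne_zero_of_mul hv)

omit [DecidableEq σ] in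
lemma Bd.shift {z : (σ → ℤ) → ℂ} (h : Bd z) (v : σ → ℤ) : Bd fun jv => z (jv + v) := by
  obtain ⟨J, hJ⟩ := h
  refine ⟨J - ∑ i, |v i|, fun jv hv i => ?_⟩
  have h1 := hJ _ hv i
  have h2 := single_le_sum (f := fun i => |v i|) (fun i _ => abs_nonneg _) (mem_univ i)
  rw [Pi.add_apply] at h1
  linarith [le_abs_self (v i)]

omit [DecidableEq σ] in
lemma finite_level (J j : ℤ) : {jv : σ → ℤ | (∀ i, J ≤ jv i) ∧ ∑ i, jv i = j}.Finite := by
  refine (Set.Finite.pi' fun _ : σ => Set.finite_Icc J (J + (j - ∑ _i : σ, J))).subset ?_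
  rintro jv ⟨h1, h2⟩ i
  refine ⟨h1 i, ?_⟩
  have := single_le_sum (f := fun i => jv i - J) (fun i _ => sub_nonneg.2 (h1 i)) (mem_univ i)
  rw [sum_sub_distrib, h2] at this
  linarith

omit [DecidableEq σ] in
lemma finsum_level {M : Type*} [AddCommMonoid M] {f : (σ → ℤ) → M} {J : ℤ}
    (h : ∀ jv, f jv ≠ 0 → ∀ i, J ≤ jv i) (j : ℤ) :
    ∑ᶠ (jv) (_ : ∑ i, jv i = j), f jv = ∑ jv ∈ (finite_level J j).toFinset, f jv :=
  finsum_cond_eq_sum_of_cond_iff f fun hx => by
    rw [Set.Finite.mem_toFinset]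
    exact ⟨fun e => ⟨h _ hx, e⟩, fun e => e.2⟩

omit [DecidableEq σ] in
lemma exists_isGen {z : (σ → ℤ) → ℂ} (h : Bd z) : ∃ y, IsGen D w z y := by
  obtain ⟨J, hJ⟩ := h
  refine ⟨⟨fun j => algebraMap ℂ _ (∑ᶠ (jv) (_ : ∑ i, jv i = j), (∏ i, w i ^ jv i) * z jv),
    ∑ _i : σ, J, fun j hj => ?_⟩, fun _ => rfl⟩
  rw [finsum_level (J := J) (fun jv hv => hJ jv (right_ne_zero_of_mul hv)), sum_eq_zero, map_zero]
  intro jv hv
  obtain ⟨h1, h2⟩ := (Set.Finite.mem_toFinset _).1 hv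
  exact absurd (sum_le_sum fun i _ => h1 i) (by rw [h2]; exact hj.not_ge)

omit [DecidableEq σ] in
lemma IsGen.unique {z : (σ → ℤ) → ℂ} {y y' : K1 D} (h : IsGen D w z y) (h' : IsGen D w z y') :
    y = y' := Hat.ext (funext fun j => (h j).trans (h' j).symm)

omit [DecidableEq σ] in
lemma IsGen.zero : IsGen D w 0 0 := fun j => by simp

lemma IsGen.add {z z' : (σ → ℤ) → ℂ} {y y' : K1 D} (hz : Bd z) (hz' : Bd z') (h : IsGen D w z y)
    (h' : IsGen D w z' y') : IsGen D w (z + z') (y + y') := fun j => by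
  obtain ⟨J, hJ⟩ := hz
  obtain ⟨J', hJ'⟩ := hz'
  have a1 : ∀ jv, z jv ≠ 0 → ∀ i, min J J' ≤ jv i := fun jv hv i =>
    (min_le_left _ _).trans (hJ jv hv i)
  have a2 : ∀ jv, z' jv ≠ 0 → ∀ i, min J J' ≤ jv i := fun jv hv i =>
    (min_le_right _ _).trans (hJ' jv hv i)
  rw [Hat.co_add, h j, h' j, ← map_add,
    finsum_level fun jv hv => a1 jv (right_ne_zero_of_mul hv),
    finsum_level fun jv hv => a2 jv (right_ne_zero_of_mul hv),
    finsum_level (J := min J J') fun jv hv => by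
      by_cases h : z jv = 0
      · exact a2 jv (by simpa [h] using right_ne_zero_of_mul hv)
      · exact a1 jv h, ← sum_add_distrib]
  simp only [Pi.add_apply, mul_add]

lemma mul_finsum_Prop (p : Prop) (c x : ℂ) : c * ∑ᶠ _ : p, x = ∑ᶠ _ : p, c * x := by
  by_cases h : p <;> simp [h]

omit [DecidableEq σ] in
set_option linter.unusedVariables false in
lemma IsGen.smul {z : (σ → ℤ) → ℂ} {y : K1 D} (hz : Bd z) (h : IsGen D w z y) (c : ℂ) :
    IsGen D w (c • z) (c • y) := fun j => by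
  rw [Hat.co_smul, h j, Algebra.smul_def, ← map_mul, mul_finsum]
  refine congrArg _ (finsum_congr fun jv => ?_)
  rw [mul_finsum_Prop]
  exact finsum_congr fun _ => by rw [Pi.smul_apply, smul_eq_mul]; ring

lemma IsGen.shift (hw : ∀ i, w i ≠ 0) {z : (σ → ℤ) → ℂ} {y : K1 D} (h : IsGen D w z y) (i : σ)
    (n : ℤ) : IsGen D w (fun jv => z (jv - Pi.single i n)) (w i ^ n • (hb1 D n * y)) := fun j => by
  rw [Hat.co_smul, hb1, Hat.co_single_mul, one_mul, h, Algebra.smul_def, ← map_mul, mul_finsum]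
  refine congrArg _ (finsum_eq_of_bijective _
    (Equiv.addRight (Pi.single i n : σ → ℤ)).bijective fun jv => ?_)
  have e1 : (∑ k, (jv + (Pi.single i n : σ → ℤ)) k = j) = (∑ k, jv k = j - n) := by
    simp only [Pi.add_apply, sum_add_distrib, sum_pi_single', mem_univ, if_true]
    exact propext eq_sub_iff_add_eq.symm
  have e2 : ∏ k, w k ^ (jv + (Pi.single i n : σ → ℤ)) k = w i ^ n * ∏ k, w k ^ jv k := by
    simp only [Pi.add_apply, zpow_add₀ (hw _), prod_mul_distrib]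
    rw [mul_comm, prod_eq_single i (fun k _ hk => by simp [hk]) (by simp), Pi.single_eq_same]
  simp only [Equiv.coe_addRight, add_sub_cancel_right]
  rw [mul_finsum_Prop, e2]
  exact finsum_congr_Prop e1.symm fun _ => (mul_assoc _ _ _).symm

/-- A linear family of bounded families has a linear generating series. -/
theorem exists_gen_lin {M : Type*} [AddCommGroup M] [Module ℂ M] (Z : (σ → ℤ) → M →ₗ[ℂ] ℂ)
    (h : ∀ x, Bd fun jv => Z jv x) :
    ∃ Y : M →ₗ[ℂ] K1 D, ∀ x, IsGen D w (fun jv => Z jv x) (Y x) := by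
  choose Y hY using fun x => exists_isGen (D := D) (w := w) (h x)
  refine ⟨⟨⟨Y, fun x x' => (hY _).unique ?_⟩, fun c x => (hY _).unique ?_⟩, hY⟩
  · simp only [map_add]
    exact (hY x).add (h x) (h x') (hY x')
  · simp only [map_smul]
    exact (hY x).smul (h x) c

lemma single_zpow (k : ℤ) {a : ℂ} (ha : a ≠ 0) (n : ℤ) :
    (Hat.single ℂ k a : F) ^ n = Hat.single ℂ (k * n) (a ^ n) := by
  rcases n with n | n
  · rw [Int.ofNat_eq_natCast, zpow_natCast, zpow_natCast, single_pow]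
  · rw [zpow_negSucc, zpow_negSucc, single_pow]
    refine inv_eq_of_mul_eq_one_right ?_
    rw [Hat.single_mul, mul_inv_cancel₀ (pow_ne_zero _ ha), Hat.one_def]
    congr 2
    rw [Int.negSucc_eq]; push_cast; ring

lemma prod_single {α : Type*} (s : Finset α) (k : α → ℤ) (a : α → ℂ) :
    ∏ i ∈ s, (Hat.single ℂ (k i) (a i) : F) = Hat.single ℂ (∑ i ∈ s, k i) (∏ i ∈ s, a i) := by
  classical
  induction s using Finset.induction_on with
  | empty => rfl
  | insert b s hb ih => rw [prod_insert hb, sum_insert hb, prod_insert hb, ih, Hat.single_mul]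

/-- The coordinates of a power series of generating series. -/
theorem coord_gen (hw : ∀ i, w i ≠ 0) {z : ℕ → (σ → ℤ) → ℂ} {J : ℤ}
    (hz : ∀ m jv, z m jv ≠ 0 → ∀ i, J ≤ jv i)
    {y : F1 D} (hy : y ∈ Hat.Lo _ _ 0) (h : ∀ m : ℕ, IsGen D w (z m) (y.co m)) (e j : ℤ) :
    coord r D e j y = if e = 0 then ∑ᶠ (jv) (_ : ∑ i, jv i = j),
      (∏ i, (w i • tt ^ r) ^ jv i) * Hat.ofPS ℂ (PowerSeries.mk fun m => z m jv) else 0 := by
  refine Hat.ext (funext fun n => ?_)
  rw [co_coord]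
  split_ifs with he
  · subst he
    have e1 : ∀ i, w i • tt ^ r = Hat.single ℂ (-r) (w i) := fun i => by
      rw [tt, single_pow, one_pow, neg_one_mul]
      exact Hat.ext (funext fun k => by simp [Hat.co_single])
    rw [finsum_level (J := J) (fun jv hv => by
      by_contra hn
      refine right_ne_zero_of_mul hv ?_
      rw [show (PowerSeries.mk fun m => z m jv) = 0 from PowerSeries.ext fun m => by
        rw [PowerSeries.coeff_mk, map_zero]
        exact by_contra fun h0 => hn (hz m jv h0), map_zero]), Hat.co_sum, mul_zero, sub_zero]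
    have e2 : ∀ jv ∈ (finite_level J j).toFinset, ((∏ i, (w i • tt ^ r) ^ jv i) *
        Hat.ofPS ℂ (PowerSeries.mk fun m => z m jv)).co n = (∏ i, w i ^ jv i) *
          (Hat.ofPS ℂ (PowerSeries.mk fun m => z m jv)).co (n + r * j) := fun jv hv => by
      simp only [e1, single_zpow _ (hw _)]
      rw [prod_single, Hat.co_single_mul, ← mul_sum, ((Set.Finite.mem_toFinset _).1 hv).2]
      congr 2
      ring
    rw [sum_congr rfl e2]
    rcases lt_or_ge (n + r * j) 0 with h0 | h0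
    · rw [hy _ h0, Hat.co_zero, map_zero]
      exact (sum_eq_zero fun jv _ => by rw [Hat.ofPS_Lo _ _ h0, mul_zero]).symm
    · obtain ⟨m, hm⟩ := Int.eq_ofNat_of_zero_le h0
      rw [hm, h m j, cq_algebraMap, if_pos rfl,
        finsum_level (J := J) fun jv hv => hz m jv (right_ne_zero_of_mul hv)]
      simp only [Hat.co_ofPS, PowerSeries.coeff_mk]
  · rw [Hat.co_zero]
    rcases lt_or_ge (n + r * j - (r + 1) * e) 0 with h0 | h0
    · rw [hy _ h0, Hat.co_zero, map_zero]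
    · obtain ⟨m, hm⟩ := Int.eq_ofNat_of_zero_le h0
      rw [hm, h m j, cq_algebraMap, if_neg he]

end gen

end Vale.Agent.P269.B
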