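import Vale.Agent.P269.B.Ring
import Mathlib.RingTheory.AdjoinRoot

/-! The coefficient rings of step (B) and their coordinates. -/

namespace Vale.Agent.P269.B

open Fock Finset

/-- `ℂ[q] / q^(D+1)`. -/
abbrev Rq (D : ℕ) : Type := AdjoinRoot (Polynomial.X ^ (D + 1) : Polynomial ℂ)

/-- The nilpotent Novikov variable. -/
noncomputable def qq (D : ℕ) : Rq D := AdjoinRoot.root _

lemma qq_pow (D : ℕ) : qq D ^ (D + 1) = 0 := by
  rw [qq, ← AdjoinRoot.mk_X, ← map_pow, AdjoinRoot.mk_self]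

/-- The coefficient of `q^e`. -/
noncomputable def cq (D : ℕ) (e : ℤ) : Rq D →ₗ[ℂ] ℂ :=
  if 0 ≤ e then Polynomial.lcoeff ℂ e.toNat ∘ₗ
    AdjoinRoot.modByMonicHom (Polynomial.monic_X_pow (D + 1)) else 0

/-- Laurent series in `ħ`. -/
abbrev K1 (D : ℕ) : Type := Hat (Rq D) (Rq D)

/-- Laurent series in `ε`. -/
abbrev F1 (D : ℕ) : Type := Hat (K1 D) (K1 D)

/-- `q` as a constant. -/
noncomputable def q1 (D : ℕ) : K1 D := algebraMap (Rq D) (K1 D) (qq D)

/-- `ħ^n`. -/
noncomputable def hb1 (D : ℕ) (n : ℤ) : K1 D := Hat.single _ n 1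

/-- The inclusion of `ℂ((ε))`. -/
noncomputable def phF (D : ℕ) : F →+* F1 D := Hat.mapR (algebraMap ℂ (K1 D))

/-- The Novikov variable `Q = q / ε^(r+1)`. -/
noncomputable def Qe (r D : ℕ) : F1 D := Hat.single _ (-(r + 1)) (q1 D)

/-- The `n`-th power of the genus variable `ħ ε^r`. -/
noncomputable def hb (r D : ℕ) (n : ℤ) : F1 D := Hat.single _ (r * n) (hb1 D n)

/-- The coefficient of `Qe^e hb^j`. -/
noncomputable def coord (r D : ℕ) (e j : ℤ) : F1 D →+ F where
  toFun w := ⟨fun n => cq D e ((w.co (n + r * j - (r + 1) * e)).co j), by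
    obtain ⟨L, hL⟩ := w.bdd
    exact ⟨L - r * j + (r + 1) * e, fun n hn => by
      rw [hL (n + r * j - (r + 1) * e) (by omega)]; simp⟩⟩
  map_zero' := by ext; simp
  map_add' x y := by ext; simp

lemma co_coord (r D : ℕ) (e j : ℤ) (w : F1 D) (n : ℤ) :
    (coord r D e j w).co n = cq D e ((w.co (n + r * j - (r + 1) * e)).co j) := rfl

/-- Series whose coordinates are polynomials in `t`. -/
def IsP (r D : ℕ) (w : F1 D) : Prop := ∀ e j n : ℤ, 0 < n → (coord r D e j w).co n = 0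

/-- The generating series of a family indexed by the genera of the components. -/
def IsGen {σ : Type} [Fintype σ] (D : ℕ) (w : σ → ℂ) (z : (σ → ℤ) → ℂ) (y : K1 D) : Prop :=
  ∀ j, y.co j = algebraMap ℂ _ (∑ᶠ (jv) (_ : ∑ i, jv i = j), (∏ i, w i ^ jv i) * z jv)

end Vale.Agent.P269.B
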