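import Vale.Agent.P269.B.EgDef

/-! Attaching edges: the expansion at `z = 0`. -/

namespace Vale.Agent.P269.B

open Fock Finset

variable {K : Type} [CommRing K] [Algebra ℚ K] {H : Type} [AddCommGroup H] [Module K H]
  {p : Par K H} {ι : Type} [Fintype ι] {fr : Frame p ι} {C : Type} [CommRing C] [Algebra K C]
  {ac : Act fr C} {HA : Type} [AddCommGroup HA] [Module (Hat K K) HA] {pA : Par (Hat K K) HA}
  {frA : Frame pA ι} {A : Type} [CommRing A] [Algebra (Hat K K) A] {acA : Act frA A}
  (em : Emb ac acA)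

section

variable {σ : Type} [Fintype σ] [DecidableEq σ] {χ : σ → A}

omit [Algebra ℚ K] in
lemma Emb.atA_Lo {x : A} {n : ℤ} (h : em.c x ∈ Hat.Lo _ _ n) : em.atA x ∈ Hat.Lo _ _ n :=
  Hat.map_Lo _ h

omit [Algebra ℚ K] in
lemma Emb.atA_inv {x : A} (hx : IsUnit x) : em.atA x * em.atA (Ring.inverse x) = 1 := by
  rw [← map_mul, Ring.mul_inverse_cancel _ hx, map_one]

omit [Algebra ℚ K] in
lemma Emb.at0_unit {x : A} (hx : IsUnit x) (h : em.c (Ring.inverse x) ∈ Hat.Lo _ _ 1) :
    IsUnit (zH K C 1 - em.atA x) := by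
  obtain ⟨y, hy, -⟩ := Hat.exists_inv (x := 1 - zH K C 1 * em.atA (Ring.inverse x))
    (by rw [sub_sub_cancel_left]; exact neg_mem (C_mul_Lo _ (em.atA_Lo h))) ⊤ fun _ => trivial
  refine IsUnit.of_mul_eq_one (-(em.atA (Ring.inverse x) * y)) ?_
  linear_combination hy + y * em.atA_inv hx

lemma exH_inl (x : σ × ℕ) (w : HA) : exH em χ (Finsupp.single (.inl x) w) =
    em.L σ (Finsupp.single (x.2 : ℤ) (Pi.single x.1 w)) := by simp [exH]

lemma exH_inr (e : Edge σ) (w : HA) : exH em χ (Finsupp.single (.inr e) w) =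
    Hat.act K _ (opH ac σ (PH em χ e)) (em.L σ (Finsupp.single 0 (Pi.single e.src w))) := by
  simp [exH]

lemma exH_inc (v : VV (σ → HA)) :
    exH em χ (inc (Hat K K) HA σ v) = em.L σ (up (Hat K K) _ v) := by
  induction v using Finsupp.induction_linear with
  | zero => simp
  | add a b ha hb => simp only [map_add, ha, hb]
  | single n v =>
    rw [inc_single, map_sum, up_single]
    simp only [exH_inl]
    rw [← map_sum, ← Finsupp.single_finsetSum, Finset.univ_sum_single]

omit [Algebra ℚ K] in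
lemma Emb.L_act (m : ℤ) (i : σ) (x : A) (w : HA) :
    em.L σ (Finsupp.single m (Pi.single i (acA.act x w))) =
      Hat.act K _ (opH ac σ (zH K C m * em.atA x)) (em.L σ (Finsupp.single 0 (Pi.single i w))) := by
  have := em_opL em (LaurentPolynomial.T m * LaurentPolynomial.C x)
    (Finsupp.single 0 (Pi.single i w))
  rw [map_mul, map_mul em.at0, opL_C, opL_T, em.at0_C, em.at0_T] at this
  rw [← this]
  simp [dg_single]

omit [Algebra ℚ K] in
lemma em_pm : Em σ em (pm _ _) (Hat.C K (pm K _)) := fun f => by simp [pm, em_pp em f]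

omit [Algebra ℚ K] in
lemma em_dH (β : σ → A) :
    Em σ em (cst (actM acA.act (Matrix.diagonal β))) (dH ac fun i => em.c (β i)) := by
  have := em_opM em ((Matrix.diagonal β).map LaurentPolynomial.C)
  rw [opM_C, Matrix.diagonal_map (map_zero _), Matrix.diagonal_map (map_zero _)] at this
  simp only [em.at0_C] at this
  exact this

lemma isEv_exH : IsEv (pA.fs (Sym σ)) (parH ((p.pi σ).fs ℤ)) (exH em χ) := fun v => by
  induction v using Finsupp.induction_linear with
  | zero => simp
  | add a b ha hb => simp only [map_add, ha, hb]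
  | single s w =>
    rcases s with x | e
    · rw [Par.fs_σ_single, exH_inl, exH_inl, isEv_embL, Par.fs_σ_single, Par.pi_σ_single]
    · rw [Par.fs_σ_single, exH_inr, exH_inr, (opH_ev ac σ _).act, isEv_embL, Par.fs_σ_single,
        Par.pi_σ_single]

lemma exH_dil : exH em χ (dilR frA σ) = Hat.single K 0 (up K _ (fr.pi σ).dil) := by
  have e : dilR frA σ = inc (Hat K K) HA σ (Finsupp.single 1 fun _ => frA.one) :=
    (inc_single _ _).symm
  rw [e, exH_inc, Frame.dil, up_single, up_single]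
  ext n m i
  rw [em.L_co, Hat.co_single]
  by_cases hm : m = 1 <;> by_cases hn : n = 0 <;> simp [hm, hn, em.one, Hat.co_single, Frame.pi]

omit [Algebra ℚ K] in
lemma geo_aux {R : Type*} [CommRing R] {z P q I : R} (h1 : P * q = 1) (h2 : I * (z - P) = 1)
    (N : ℕ) : I + ∑ k ∈ range N, z ^ k * q ^ (k + 1) = z ^ N * q ^ N * I := by
  induction N with
  | zero => simp
  | succ N ih =>
    rw [sum_range_succ, ← add_assoc, ih]
    linear_combination (-(z ^ N * q ^ N * q)) * h2 - z ^ N * q ^ N * I * h1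

omit [Algebra ℚ K] in
lemma zH_nat (k : ℕ) : zH K C k = zH K C 1 ^ k := by
  induction k with
  | zero => simp
  | succ k ih => rw [Nat.cast_succ, zH_add, ih, pow_succ]

variable (h : Gen (Hat K K) χ) (hp : ∀ e, em.c (Ring.inverse (pe (Hat K K) χ e)) ∈ Hat.Lo _ _ 1)
include h hp

lemma exH_approx (v : Sym σ →₀ HA) (n : ℤ) : ∀ᶠ N in Filter.atTop,
    exH em χ v - em.L σ (up (Hat K K) _ (exN acA χ N v)) ∈ Hat.Lo _ _ n := by
  induction v using Finsupp.induction_linear with
  | zero => simp
  | add a b ha hb =>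
    filter_upwards [ha, hb] with N h1 h2
    simp only [map_add]
    rw [add_sub_add_comm]
    exact add_mem h1 h2
  | single s w =>
    rcases s with x | e
    · simp [exH_inl, exN]
    · obtain ⟨a, ha⟩ := (PH em χ e).exists_Lo
      obtain ⟨c, hc⟩ := (em.L σ (Finsupp.single 0 (Pi.single e.src w))).exists_Lo
      filter_upwards [Filter.eventually_ge_atTop (n - a - c).toNat] with N hN
      have e1 : em.L σ (up (Hat K K) _ (exN acA χ N (Finsupp.single (.inr e) w))) =
          -Hat.act K _ (opH ac σ (∑ k ∈ range N, zH K C 1 ^ k *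
            em.atA (Ring.inverse (pe (Hat K K) χ e)) ^ (k + 1)))
            (em.L σ (Finsupp.single 0 (Pi.single e.src w))) := by
        simp only [exN, Finsupp.lsum_single, LinearMap.neg_apply, LinearMap.sum_apply, map_neg,
          map_sum, LinearMap.comp_apply, Finsupp.lsingle_apply, up_single, LinearMap.single_apply,
          em.L_act, zH_nat, map_pow em.atA]
      rw [e1, exH_inr, sub_neg_eq_add, ← LinearMap.add_apply, ← map_add, ← map_add,
        geo_aux (I := PH em χ e) (em.atA_inv (h.p e))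
          (Ring.inverse_mul_cancel _ (em.at0_unit (h.p e) (hp e)))]
      refine Hat.Lo_mono ?_ (act_Lo (opH_Lo ac σ (Hat.mul_Lo (Hat.mul_Lo
        (Hat.pow_Lo (zH_Lo 1) N) (Hat.pow_Lo (em.atA_Lo (hp e)) N)) ha)) hc)
      omega

lemma pm_exH (v : Sym σ →₀ HA) : Hat.act K _ (Hat.C K (pm K _)) (exH em χ v) = 0 :=
  Hat.eq_zero_of_Lo fun n => by
    obtain ⟨N, hN⟩ := (exH_approx em h hp v n).exists
    have := Hat.map_Lo (pm K _) hN
    rwa [← Hat.act_C, map_sub, ← em_pm em, pm_up, map_zero, sub_zero] at this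

lemma pp_exH (v : Sym σ →₀ HA) : Hat.act K _ (Hat.C K (pp K _)) (exH em χ v) = exH em χ v := by
  have := pm_exH em h hp v
  rw [pm, map_sub, map_sub, map_one, map_one, LinearMap.sub_apply, sub_eq_zero] at this
  exact this.symm

lemma Oh_exH (y : LL (σ → HA)) (v : Sym σ →₀ HA) {c : Hat K K}
    (hc : ∀ᶠ N in Filter.atTop, (frA.pi σ).Ω y (up (Hat K K) _ (exN acA χ N v)) = c) :
    Oh (fr.pi σ) (em.L σ y) (exH em χ v) = c :=
  sub_eq_zero.mp <| Hat.eq_zero_of_Lo fun n => by
    obtain ⟨a, ha⟩ := (em.L σ y).exists_Lo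
    obtain ⟨N, h1, h2⟩ := (hc.and (exH_approx em h hp v (n - a))).exists
    have := Oh_Lo (fr := fr.pi σ) ha h2
    rwa [map_sub, em.Oh_L, h1, add_sub_cancel] at this

omit hp [Fintype σ] [DecidableEq σ] in
lemma ev_rev (e : Edge σ) (n : ℕ) : h.ev e.rev (LaurentPolynomial.T (-(n : ℤ) - 1)) =
    (-1) ^ (n + 1) * Ring.inverse (pe (Hat K K) χ e) ^ (n + 1) := by
  have e1 : h.ev e.rev (LaurentPolynomial.T (-1)) * -pe (Hat K K) χ e = 1 := by
    rw [← pe_rev, ← PFP.ev_T h, ← map_mul, ← LaurentPolynomial.T_add]; simp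
  have e2 : h.ev e.rev (LaurentPolynomial.T (-1)) = -1 * Ring.inverse (pe (Hat K K) χ e) := by
    linear_combination (-Ring.inverse (pe (Hat K K) χ e)) * e1 -
      h.ev e.rev (LaurentPolynomial.T (-1)) * Ring.mul_inverse_cancel _ (h.p e)
  rw [← mul_pow, ← e2, ← map_pow, LaurentPolynomial.T_pow]
  congr 2
  push_cast; ring

omit hp in
lemma ph0_ev (u : (Hat K K)ˣ) (y : LL (σ → HA)) (v : Sym σ →₀ HA) : ∀ᶠ N in Filter.atTop,
    (frA.pi σ).Ω (cst (actM acA.act (Matrix.diagonal fun i =>
      ((u⁻¹ : (Hat K K)ˣ) : Hat K K) • Ring.inverse (eu χ i))) (pm (Hat K K) _ y))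
      (up (Hat K K) _ (exN acA χ N v)) = ph0 acA h u y v := by
  induction y using Finsupp.induction_linear with
  | zero => simp
  | add a b ha hb =>
    filter_upwards [ha, hb] with N h1 h2
    simp only [map_add, LinearMap.add_apply, h1, h2]
  | single m a =>
    induction v using Finsupp.induction_linear with
    | zero => simp
    | add a b ha hb =>
      filter_upwards [ha, hb] with N h1 h2
      simp only [map_add, h1, h2]
    | single s w =>
      rcases lt_or_ge m 0 with hm | hm
      · obtain ⟨n, rfl⟩ : ∃ n : ℕ, m = -(n : ℤ) - 1 := ⟨(-m - 1).toNat, by omega⟩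
        have e : ∀ i x, (frA.pi σ).η (actM acA.act (Matrix.diagonal fun i =>
            ((u⁻¹ : (Hat K K)ˣ) : Hat K K) • Ring.inverse (eu χ i)) a) (Pi.single i x) =
            ((u⁻¹ : (Hat K K)ˣ) : Hat K K) * frA.η (acA.act (Ring.inverse (eu χ i)) (a i)) x := by
          intro i x
          rw [Frame.pi_η, sum_eq_single i (fun k _ hk => by simp [hk]) (by simp), actM_apply,
            sum_eq_single i (fun k _ hk => by simp [Matrix.diagonal_apply_ne _ hk.symm]) (by simp)]
          simp
        filter_upwards [Filter.eventually_gt_atTop n] with N hN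
        rw [pm_of_neg (pos_single_neg hm _), cst_single, ← Frame.neg_apply, Frame.neg_single,
          ph0_single, kap.eq_def, if_pos hm]
        rcases s with x | E
        · simp only [exN, Finsupp.lsum_single, LinearMap.comp_apply, Finsupp.lsingle_apply,
            LinearMap.single_apply, Sym.cmp]
          by_cases hn : n = x.2
          · subst hn
            rw [Finsupp.single_eq_same, e, if_pos rfl]
            rcases Nat.even_or_odd x.2 with h1 | h1 <;> simp [h1.neg_one_pow]
          · rw [Finsupp.single_eq_of_ne hn, if_neg (by omega)]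
            simp
        · simp only [exN, Finsupp.lsum_single, LinearMap.comp_apply, Finsupp.lsingle_apply,
            LinearMap.single_apply, Sym.cmp, LinearMap.neg_apply, LinearMap.sum_apply,
            Finsupp.neg_apply, Finsupp.finsetSum_apply, Finsupp.single_apply, sum_ite_eq',
            mem_range, hN, if_true, map_neg, e, ev_rev]
          rw [← acA.adj, ← Module.End.mul_apply, ← map_mul, mul_comm (_ ^ (n + 1)), pow_succ (-1)]
          rcases Nat.even_or_odd n with h1 | h1 <;> simp [h1.neg_one_pow, -map_mul]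
      · obtain ⟨n, rfl⟩ := Int.eq_ofNat_of_zero_le hm
        refine Filter.Eventually.of_forall fun N => ?_
        rw [← up_single (K := Hat K K), pm_up, up_single, ph0_single, kap.eq_def, if_neg (by omega)]
        simp

omit hp in
lemma ph0_σ (u : (Hat K K)ˣ) (y : LL (σ → HA)) :
    ph0 acA h u y ∘ₗ (pA.fs (Sym σ)).σ = ph0 acA h u (((pA.pi σ).fs ℤ).σ y) := by
  refine LinearMap.ext fun v => ?_
  induction y using Finsupp.induction_linear with
  | zero => simp
  | add a b ha hb => simp only [map_add, LinearMap.add_comp, LinearMap.add_apply, ha, hb]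
  | single m a =>
    induction v using Finsupp.induction_linear with
    | zero => simp
    | add a b ha hb => simp only [map_add, ha, hb]
    | single s w =>
      rw [LinearMap.comp_apply, Par.fs_σ_single, Par.fs_σ_single, ph0_single, ph0_single, frA.η_σ,
        acA.ev, Par.pi_σ]

theorem exists_Ex {u : (Hat K K)ˣ} {b b' : σ → Hat K C} (hbb : ∀ i, b i * b' i = 1)
    (hb : ∀ i, b i ∈ Hat.Lo _ _ 0) (hb' : ∀ i, b' i ∈ Hat.Lo _ _ 0)
    (he : ∀ i, (u : Hat K K) • em.c (eu χ i) = b' i) :
    ∃ Ex, IsEx em χ (dH ac b) Ex ∧ ∀ v y x, Ex (hD _ (dilR frA σ) (v, ph0 acA h u y) x) =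
      hA (fr.pi σ) (dH ac b) (exH em χ v + em.L σ (pm (Hat K K) _ y)) (Ex x) := by
  have tw : Tw (fr.pi σ) (dH ac b) (dH ac b') := tw_diagonal ac hbb hb hb'
  have eb : b = fun i => em.c (((u⁻¹ : (Hat K K)ˣ) : Hat K K) • Ring.inverse (eu χ i)) := by
    funext i
    have : b' i * em.c (((u⁻¹ : (Hat K K)ˣ) : Hat K K) • Ring.inverse (eu χ i)) = 1 := by
      rw [← he, map_smul, smul_mul_smul_comm, ← map_mul, Ring.mul_inverse_cancel _ (h.eu i)]
      simp
    rw [← mul_one (b i), ← this, ← mul_assoc, hbb, one_mul]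
  have h0 : ∀ v w, Oh (fr.pi σ) (Hat.act K _ (dH ac b) (exH em χ v)) (exH em χ w) = 0 := by
    intro v w
    rw [← pp_exH em h hp v, ← Module.End.mul_apply, ← map_mul, tw.pp, map_mul,
      Module.End.mul_apply, adjH_C (adj_pp _), pm_exH em h hp, map_zero]
  have hφ : ∀ y v, ph0 acA h u y v = Oh (fr.pi σ)
      (Hat.act K _ (dH ac b) ((em.L σ ∘ₗ pm (Hat K K) _) y)) (exH em χ v) := fun y v => by
    rw [LinearMap.comp_apply, eb, ← em_dH em, Oh_exH em h hp _ _ (ph0_ev h u y v)]
  have hd : (pA.fs (Sym σ)).σ (dilR frA σ) = dilR frA σ := by simp [dilR, map_sum, frA.hone]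
  have hΩ : ∀ y, hA (fr.pi σ) (dH ac b) ((em.L σ ∘ₗ pm (Hat K K) _) y) (Hat.single K 0 1) =
      -(ph0 acA h u y (dilR frA σ) • Hat.single K 0 1) := fun y => by
    have e1 : bt (dH ac b) * Hat.C K (pm K _) = Hat.C K (pm K _) * dH ac b := by
      rw [bt, add_mul, mul_assoc, tw.pm, ← mul_assoc, ← map_mul, ← map_mul, pp_pm, pm_pm]
      simp
    rw [hφ, exH_dil, LinearMap.comp_apply, em_pm, hA_apply, ← Module.End.mul_apply,
      ← Module.End.mul_apply (Hat.act K _ (dH ac b)), ← map_mul, ← map_mul, e1, tw.pm, map_mul,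
      Module.End.mul_apply, Hat.act_C, hatR_apply, Oh, Hat.hat2_cst_right]
    ext n
    rw [Hat.co_act_single, Hat.co_neg, Hat.co_smul_single, Hat.co_map, Hat.co_map,
      Frame.h_of_pos_eq_zero _ (pos_pm _)]
    simp [Frame.neg_apply, -neg_pm]
  refine ⟨orb (tw.ccr.sc (isEv_exH em) h0) (Hat.single K 0 1), ⟨orb_one _ _, orb_ι_mul _ _⟩,
    fun v y x => ?_⟩
  rw [hD_apply, map_add, orb_ι_mul, tw.ccr.orb_hm (isEv_exH em) h0
    ((isEv_embL em).comp (isEv_pm _)) hφ (ph0_σ h u) hd hΩ, map_add]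
  rfl

theorem IsEx.approx {b b' : Hat K (Module.End K (LL (σ → H)))} (hb : Tw (fr.pi σ) b b') {Ex}
    (hE : IsEx em χ b Ex) (x : S (pA.fs (Sym σ))) (n : ℤ) : ∀ᶠ N in Filter.atTop,
    Ex x - Ex (Fock.map _ (isEv_inc pA) (Fock.map _ (isEv_exN acA χ N) x)) ∈ Hat.Lo _ _ n := by
  induction x using Fock.induction generalizing n with
  | h1 => simp
  | hι v x ih =>
    obtain ⟨a, ha⟩ := (exH em χ v).exists_Lo
    obtain ⟨c, hc⟩ := (Ex x).exists_Lo
    filter_upwards [exH_approx em h hp v (n - c), exH_approx em h hp v a, ih (n - a)]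
      with N h1 h2 h3
    have h4 := sub_mem ha h2
    rw [sub_sub_cancel] at h4
    have := add_mem (Hat.Lo_mono (L' := n) (by omega) (act_Lo (hb.hA_Lo h1) hc))
      (Hat.Lo_mono (L' := n) (by omega) (act_Lo (hb.hA_Lo h4) h3))
    rw [← hatR_apply, ← hatR_apply, ← hA_apply, ← hA_apply, map_sub, map_sub, LinearMap.sub_apply,
      sub_add_sub_cancel] at this
    rwa [hE.mul, map_mul, map_mul, map_ι, map_ι, hE.mul, exH_inc]
  | hadd x y hx hy =>
    filter_upwards [hx n, hy n] with N h1 h2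
    simp only [map_add]
    rw [add_sub_add_comm]
    exact add_mem h1 h2
  | hsmul c x hx =>
    obtain ⟨a, ha⟩ := c.exists_Lo
    filter_upwards [hx (n - a)] with N h1
    simp only [map_smul]
    rw [← smul_sub]
    exact Hat.Lo_mono (by omega) (Hat.smul_Lo ha h1)

omit h hp in
lemma IsEx.inc_mul {b b' : Hat K (Module.End K (LL (σ → H)))} (hb : Tw (fr.pi σ) b b') {Ex}
    (hE : IsEx em χ b Ex) {v : VV (σ → HA)} {w : VV (σ → H)}
    (e : em.L σ (up (Hat K K) _ v) = Hat.single K 0 (up K _ w)) (x : S (pA.fs (Sym σ))) :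
    Ex (Fock.ι _ (inc (Hat K K) HA σ v) * x) = Hat.map (ml _ w) (Ex x) := by
  have e1 : Hat.act K _ (bt b) (Hat.single K 0 (up K _ w)) = Hat.single K 0 (up K _ w) := by
    rw [bt, ← hb.pm, map_add, map_mul, LinearMap.add_apply, Module.End.mul_apply, Hat.act_C,
      Hat.act_C, Hat.map_single, Hat.map_single, pp_up, pm_up]
    simp
  rw [hE.mul, exH_inc, e, hA_apply, e1, hatR_single]
  ext n
  simp

omit [Algebra ℚ K] h hp in
lemma Emb.matH_single (M : Matrix σ σ (RH K C)) (k : σ) (v : HA) :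
    Hat.act K _ (matH ac σ M) (em.L σ (Finsupp.single 0 (Pi.single k v))) =
      ∑ i, Hat.act K _ (opH ac σ (M i k)) (em.L σ (Finsupp.single 0 (Pi.single i v))) := by
  rw [matH_apply, map_sum, LinearMap.sum_apply]
  refine sum_congr rfl fun i _ => ?_
  have e : ∀ j, Hat.act K _ (EH K H i j * opH ac σ (M i j))
      (em.L σ (Finsupp.single 0 (Pi.single k v))) = Hat.act K _ (opH ac σ (M i j))
      (em.L σ (Finsupp.single 0 (Pi.single i ((Pi.single k v : σ → HA) j)))) := fun j => by
    have := (unitsH ac σ).comm i j (M i j)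
    rw [show EH K H i j * opH ac σ (M i j) = opH ac σ (M i j) * EH K H i j from this.symm, map_mul,
      Module.End.mul_apply, ← em_EU em, cst_single, EU_apply]
  rw [map_sum, LinearMap.sum_apply, sum_congr rfl fun j _ => e j,
    sum_eq_single k (fun j _ hj => by simp [hj]) (by simp), Pi.single_eq_same]

end

theorem exH_gE {r : ℕ} {χ : Fin (r + 1) → A} (h : Gen (Hat K K) χ)
    (hp : ∀ e, em.c (Ring.inverse (pe (Hat K K) χ e)) ∈ Hat.Lo _ _ 1) {D : ℕ} {Q : A}
    (u : (Hat K K)ˣ) {L : Fin (r + 1) → Fin (r + 1) → ℤ → LaurentPolynomial A}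
    (hL : ∀ i k : Fin (r + 1), ∀ m, PFc h D Q i k m (L i k m)) (f : LL (Fin (r + 1) → HA)) :
    exH em χ (gE acA h D Q u L f).1 + em.L _ (pm (Hat K K) _ (LP acA L f)) =
      Hat.act K _ (matH ac _ (nH em χ D Q)) (em.L _ f) := by
  have e0 : exH em χ (gE acA h D Q u L f).1 + em.L _ (pm (Hat K K) _ (LP acA L f)) =
      (em.L _ ∘ₗ LP acA L + ∑ e ∈ edges (Fin (r + 1)) D,
        exH em χ ∘ₗ Finsupp.lsingle (Sum.inr e) ∘ₗ rhoE acA h D Q e) f := by
    simp only [gE, LinearMap.prod_apply, Function.prod, LinearMap.add_apply, LinearMap.comp_apply,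
      LinearMap.sum_apply, map_add, map_sum, exH_inc]
    rw [add_right_comm, ← map_add, ← pp_apply, ← LinearMap.add_apply, pp_add_pm]
    rfl
  rw [e0]
  refine LinearMap.congr_fun (LLP_ext (g := Hat.act K _ (matH ac _ (nH em χ D Q)) ∘ₗ em.L _)
    fun m k v => ?_) f
  have e1 : em.L _ (Finsupp.single m (Pi.single k v)) =
      Hat.act K _ (opH ac _ (zH K C m)) (em.L _ (Finsupp.single 0 (Pi.single k v))) := by
    simpa using em.L_act m k 1 v
  have e2 : ∀ e, rhoE acA h D Q e (Finsupp.single m (Pi.single k v)) =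
      acA.act (rc h D Q e k m) v := fun e => by
    rw [rhoE_single, sum_eq_single k (fun j _ hj => by simp [hj]) (by simp), Pi.single_eq_same]
  simp only [LinearMap.add_apply, LinearMap.comp_apply, LinearMap.sum_apply, Finsupp.lsingle_apply,
    e2, exH_inr, em.L_act]
  rw [LP_single, em_opM em, e1, ← Module.End.mul_apply, ← map_mul, ← opH_comm, map_mul,
    Module.End.mul_apply, em.matH_single, em.matH_single, map_sum,
    ← sum_fiberwise (edges _ D) Edge.src, ← sum_add_distrib]
  refine sum_congr rfl fun i _ => ?_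
  have := hL i k m (RH K C) em.at0 fun e _ _ => by
    rw [map_sub, em.at0_T, em.at0_C]; exact em.at0_unit (h.p e) (hp e)
  simp only [map_sub, em.at0_T, em.at0_C] at this
  rw [← Module.End.mul_apply, ← map_mul, ← map_mul, mul_comm, nH, Matrix.of_apply, this, map_add,
    map_add, LinearMap.add_apply, map_sum, map_sum, LinearMap.sum_apply]
  refine congrArg₂ _ rfl (sum_congr rfl fun e he => ?_)
  rw [← Module.End.mul_apply, ← map_mul, ← map_mul, (mem_filter.1 he).2, zH_zero, one_mul, mul_comm,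
    PH]

end Vale.Agent.P269.B
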