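import Vale.Agent.P269.B.EgA
import Vale.Agent.P269.B.EgB

/-! Naturality of the operators that attach edges; the recursion for the coefficients. -/

namespace Vale.Agent.P269.B.CoefA

open Fock Finset TensorProduct EgP

section bc

variable {K K' K'' : Type*} [CommRing K] [CommRing K'] [CommRing K''] {φ : K →+* K'}
  {V V' W W' : Type*} [AddCommGroup V] [Module K V] [AddCommGroup V'] [Module K' V']
  [AddCommGroup W'] {q : Par K V} {q' : Par K' V'} {a : V →ₛₗ[φ] V'} (ha : IsEvS q q' a)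

lemma map_bcS [AddCommGroup W] [Module K W] [Module K' W'] {s : Par K W} {s' : Par K' W'}
    {b : W →ₛₗ[φ] W'} (hb : IsEvS s s' b) {f : V →ₗ[K] W} {f' : V' →ₗ[K'] W'} (hf : IsEv q s f)
    (hf' : IsEv q' s' f') (e : ∀ v, f' (a v) = b (f v)) (x : S q) :
    Fock.map f' hf' (bcS a ha x) = bcS b hb (Fock.map f hf x) := by
  induction x using Fock.induction with
  | h1 => simp
  | hι v x hx => simp [hx, e]
  | hadd x y hx hy => simp [hx, hy]
  | hsmul c x hx => simp [hx]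

lemma bcS_bcS [Module K'' W'] {φ' : K' →+* K''} {φ'' : K →+* K''} {s : Par K'' W'}
    {b : V' →ₛₗ[φ'] W'} (hb : IsEvS q' s b) {c : V →ₛₗ[φ''] W'} (hc : IsEvS q s c)
    (e : ∀ v, b (a v) = c v) (e' : ∀ k, φ' (φ k) = φ'' k) (x : S q) :
    bcS b hb (bcS a ha x) = bcS c hc x := by
  induction x using Fock.induction with
  | h1 => simp
  | hι v x hx => simp [hx, e]
  | hadd x y hx hy => simp [hx, hy]
  | hsmul c x hx => simp [hx, e']

end bc

section nat

variable {K K' : Type*} [CommRing K] [CommRing K'] {φ : K →+* K'}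
  {H H' : Type*} [AddCommGroup H] [Module K H] [AddCommGroup H'] [Module K' H'] {p : Par K H}
  {p' : Par K' H'} {ι : Type*} [Fintype ι] {fr : Frame p ι} {fr' : Frame p' ι} {C C' : Type}
  [CommRing C] [CommRing C'] [Algebra K C] [Algebra K' C'] {ac : Act fr C} {ac' : Act fr' C'}
  {j : H →ₛₗ[φ] H'} {ψ : C →+* C'} {σ : Type} [Fintype σ] [DecidableEq σ] {χ : σ → C}
  {χ' : σ → C'}

omit [DecidableEq σ] in
lemma inc_nat (v : VV (σ → H)) :
    inc K' H' σ (fsS (piS j σ) ℕ v) = fsS j _ (inc K H σ v) := by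
  induction v using Finsupp.induction_linear with
  | zero => simp
  | add a b ha hb => simp only [map_add, ha, hb]
  | single n v => simp [inc_single, map_sum]

variable (M : Mor ac ac' j ψ) (hχ : χ' = fun i => ψ (χ i))
include M

omit [DecidableEq σ] in
lemma dilR_nat : dilR fr' σ = fsS j _ (dilR fr σ) := by simp [dilR, map_sum, M.cmp.one]

include hχ

omit [DecidableEq σ] in
lemma res_nat {r : ℕ} (v : VV (Fin (r + 1) → H)) :
    res ac' χ' (fsS (piS j _) ℕ v) = fsS j _ (res ac χ v) := by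
  subst hχ
  induction v using Finsupp.induction_linear with
  | zero => simp
  | add a b ha hb => simp only [map_add, ha, hb]
  | single n v =>
    simp only [fsS_single, res, Finsupp.lsum_single, LinearMap.sum_apply, LinearMap.comp_apply,
      LinearMap.proj_apply, piS_apply, Finsupp.lsingle_apply, map_sum, ← map_neg ψ, ← map_pow ψ,
      M.act _ _]

variable [Algebra ℚ K] [Algebra ℚ K'] (h : Gen K χ)
include h

omit [Fintype σ] in
lemma exN_nat (N : ℕ) (v : Sym σ →₀ H) :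
    exN ac' χ' N (fsS j _ v) = fsS (piS j σ) ℕ (exN ac χ N v) := by
  subst hχ
  induction v using Finsupp.induction_linear with
  | zero => simp
  | add a b ha hb => simp only [map_add, ha, hb]
  | single s v =>
    rcases s with x | e
    · simp [exN, piS_single]
    · simp only [fsS_single, exN, Finsupp.lsum_single, LinearMap.neg_apply, LinearMap.sum_apply,
        LinearMap.comp_apply, Finsupp.lsingle_apply, map_neg, map_sum, LinearMap.single_apply,
        piS_single, ← map_pe (K := K) (K' := K') ψ, ← map_inv ψ (h.p e), ← map_pow ψ, M.act _ _]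

omit [Fintype σ] in
lemma evp_nat (e : Edge σ) (v : Sym σ →₀ H) : evp ac' χ' e (fsS j _ v) = j (evp ac χ e v) := by
  subst hχ
  induction v using Finsupp.induction_linear with
  | zero => simp
  | add a b ha hb => simp only [map_add, ha, hb]
  | single s v => rw [fsS_single, evp_single, evp_single, ← h.map_sv ψ, M.act]

omit M h [Algebra ℚ K] [Algebra ℚ K'] in
lemma eu_nat (i : σ) : eu χ' i = ψ (eu χ i) := by simp [hχ, B.eu]

omit M in
lemma ee_nat (e : Edge σ) : ee K' χ' e = ψ (ee K χ e) := by rw [hχ, h.map_ee (K' := K')]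

lemma Ae_nat (e : Edge σ) (v : Sym σ →₀ H) : Ae ac' χ' e (fsS j _ v) = fsS j _ (Ae ac χ e v) := by
  simp only [Ae, LinearMap.comp_apply, Finsupp.lsingle_apply, fsS_single, evp_nat M hχ h,
    eu_nat hχ, ee_nat hχ h, ← map_mul ψ, ← map_neg ψ, M.act _ _]

lemma We_nat (e : Edge σ) (v w : Sym σ →₀ H) :
    (We ac' χ' e).1 (fsS j _ v) (fsS j _ w) = 1 * φ ((We ac χ e).1 v w) := by
  simp only [We_apply, evp_nat M hχ h, ee_nat hχ h, M.act _ _, M.cmp.η, map_add, one_mul]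

lemma X0_nat (e : Edge σ) (x : S (p.fs (Sym σ))) :
    X0 ac' χ' e (bcS _ (M.cmp.ev.fs _) x) = bcS _ (M.cmp.ev.fs _) (X0 ac χ e x) := by
  rw [X0, X0, dilR_nat M]
  exact Q0_bcS ((isEv_Ae ac χ e).add (isEv_Ae ac χ e.rev))
    ((isEv_Ae ac' χ' e).add (isEv_Ae ac' χ' e.rev))
    (fun v => by simp only [LinearMap.add_apply, Ae_nat M hχ h, map_add]) _ x

lemma Xm_nat (e : Edge σ) (x : S (p.fs (Sym σ))) :
    Xm ac' χ' e (bcS _ (M.cmp.ev.fs _) x) = bcS _ (M.cmp.ev.fs _) (Xm ac χ e x) := by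
  rw [Xm, Xm, dilR_nat M, LinearMap.add_apply, LinearMap.add_apply, Qm_bcS (We_nat M hχ h e),
    We_nat M hχ h]
  simp [map_hf]

lemma X1_nat (e : Edge σ) (x : S (p.fs (Sym σ))) :
    X1 ac' χ' e (bcS _ (M.cmp.ev.fs _) x) = bcS _ (M.cmp.ev.fs _) (X1 ac χ e x) := by
  rw [X1, X1, LinearMap.mul_apply', LinearMap.mul_apply', map_mul (bcS _ _)]
  simp only [Ce, map_mul (bcS _ _), map_sum, bcS_ι, fsS_single,
    eu_nat hχ, ee_nat hχ h, ← map_mul ψ, M.cmp.e, M.cmp.f, one_smul, M.act _ _]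

end nat

section emb

variable {K : Type} [CommRing K] [Algebra ℂ K] {H : Type} [AddCommGroup H]
  [Module ℂ H] {p : Par ℂ H} {ι : Type} [Fintype ι] {fr : Frame p ι} {C : Type} [CommRing C]
  [Algebra ℂ C] (ac : Act fr C) {σ : Type} [Fintype σ] [DecidableEq σ]

lemma L_jV (v : VV (σ → H)) : (emT K ac).L σ (up (Hat K K) _ (jV H σ (Hat K K) v)) =
    Hat.single K 0 (up K _ (jV H σ K v)) := by
  ext n m i
  rw [Emb.L_co, jV_eq, jV_eq, up_fsS, up_fsS, Hat.co_single]
  refine (congrArg (·.co n) ((embV_tmul K 1 (up ℂ _ v m i)).trans (one_smul _ _))).trans ?_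
  simp only [Hat.co_single]
  split_ifs <;> rfl

variable [Algebra ℚ K]

lemma Ex_jV {χ : σ → Hat K K ⊗[ℂ] C} {b b' : Hat K (Module.End K (LL (σ → K ⊗[ℂ] H)))}
    (hb : Tw ((fr.bc K).pi σ) b b') {Ex} (hE : IsEx (emT K ac) χ b Ex) (x : S ((p.pi σ).fs ℕ)) :
    Ex (Fock.map _ (isEv_inc (p.bc (Hat K K))) (bcS _ (isEvS_jV p (Hat K K)) x)) =
      Hat.single K 0 (bcS _ (isEvS_jV p K) x) := by
  induction x using Fock.induction with
  | h1 => rw [map_one, map_one (bcS _ _), map_one, hE.one]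
  | hι v x hx =>
    rw [map_mul, map_mul (bcS _ _), map_mul, bcS_ι, bcS_ι, map_ι, hE.inc_mul _ hb (L_jV ac v), hx,
      Hat.map_single, ml_apply]
  | hadd x y hx hy => simp only [map_add, hx, hy]
  | hsmul c x hx =>
    rw [bcS_smul, bcS_smul, map_smul, map_smul, hx, Hat.algebraMap_co, Hat.C_smul]
    ext n
    simp [Hat.co_single]

omit [Fintype σ] [DecidableEq σ] in
lemma inv_pe {a : σ → ℂ} (ha : Function.Injective a) {c : σ → C}
    (h : Gen (Hat K K) (chiK (Hat.single K (-1) (1 : K)) a c)) (e : Edge σ) :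
    (emT K ac).c (Ring.inverse (pe (Hat K K) (chiK (Hat.single K (-1) (1 : K)) a c) e)) ∈
      Hat.Lo _ _ 1 := by
  have e1 : ∀ i, embC K C (chiK (Hat.single K (-1) (1 : K)) a c i) =
      Hat.single K (-1) (algebraMap ℂ _ (a i)) + Hat.single K 0 (1 ⊗ₜ c i) := fun i => by
    rw [chiK, map_add, embC_tmul, embC_tmul, one_smul, Hat.C_apply, Hat.C_apply]
    congr 1
    ext n
    rw [Hat.co_smul_single, Hat.co_smul, sub_zero, Hat.co_single, Hat.co_single]
    split_ifs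
    · rw [Algebra.algebraMap_eq_smul_one, smul_one_smul, Algebra.TensorProduct.one_def]
    · simp
  have e2 := congrArg (embC K C) (congrArg
    (· * Ring.inverse (pe (Hat K K) (chiK (Hat.single K (-1) (1 : K)) a c) e)) (PFP.mul_pe (Hat K K) (chiK (Hat.single K (-1) (1 : K)) a c) e))
  simp only [mul_assoc, Ring.mul_inverse_cancel _ (h.p e), mul_one, map_mul, map_sub, e1, map_add,
    map_natCast, map_one] at e2
  have a0 : a e.tgt - a e.src ≠ 0 := sub_ne_zero.2 (ha.ne e.ne.symm)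
  obtain ⟨y, h1, -, h2, -⟩ := Hat.exists_inv (K := K) (A := K ⊗[ℂ] C)
    (x := Hat.single K 1 (algebraMap ℂ _ (a e.tgt - a e.src)⁻¹) *
      (Hat.single K (-1) (algebraMap ℂ _ (a e.tgt)) + Hat.single K 0 (1 ⊗ₜ c e.tgt) -
        (Hat.single K (-1) (algebraMap ℂ _ (a e.src)) + Hat.single K 0 (1 ⊗ₜ c e.src)))) (by
      rw [add_sub_add_comm, ← map_sub, ← map_sub, ← map_sub, mul_add, Hat.single_mul,
        Hat.single_mul, ← map_mul, inv_mul_cancel₀ a0, map_one, add_neg_cancel, ← Hat.one_def,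
        add_sub_cancel_left]
      exact Hat.single_Lo _ _) ⊤ fun _ => trivial
  have h3 : y ∈ Hat.Lo _ _ 0 := by
    simpa using add_mem (Hat.Lo_mono zero_le_one h2) (Hat.one_Lo (K := K) (A := K ⊗[ℂ] C))
  have h4 : ((e.deg : Hat K (K ⊗[ℂ] C)) + 1) ∈ Hat.Lo _ _ 0 :=
    add_mem (map_natCast (Hat.C K (A := K ⊗[ℂ] C)) e.deg ▸ Hat.single_Lo _ _) Hat.one_Lo
  have := Hat.mul_Lo (Hat.mul_Lo h3 (Hat.single_Lo 1 (algebraMap ℂ _ (a e.tgt - a e.src)⁻¹))) h4
  rwa [e2, ← mul_assoc, mul_assoc y, mul_comm y, h1, one_mul] at this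

end emb

section step

/-- Coordinates with respect to the powers of `Q` and `u`. -/
structure Cd {K K' : Type*} [CommRing K] [CommRing K'] (φ : K →+* K') (co : ℤ → ℤ → K' →+ K) (D : ℕ)
    (Q : K') (u : K'ˣ) : Prop where
  ne : ∀ (n : ℕ) (x : K), n ≠ 0 → n * x = 0 → x = 0
  mul : ∀ e j c w, co e j (φ c * w) = c * co e j w
  pow : ∀ e ≤ (D : ℤ), ∀ j (m : ℕ) w, co e j (Q ^ m * w) = co (e - m) j w
  val : ∀ e j w, co e j (u * w) = co e (j - 1) w
  inv : ∀ e j w, co e j ((u⁻¹ : K'ˣ) * w) = co e (j + 1) w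
  neg : ∀ e < 0, ∀ j w, co e j w = 0
  nil : Q ^ (D + 1) = 0

lemma cd (r D : ℕ) : Cd (phF D) (coord r D) D (Qe r D) (uH r D) where
  ne n _ hn h := (mul_eq_zero.1 h).resolve_left
    ((map_natCast (algebraMap ℂ F) n) ▸ (map_ne_zero _).2 (Nat.cast_ne_zero.2 hn))
  mul := coord_phF_mul
  pow _ := coord_Qe_pow_mul
  val e j := coord_hb_mul e j 1
  inv e j w := (coord_hb_mul e j (-1) w).trans (by rw [sub_neg_eq_add])
  neg _ := coord_neg
  nil := Qe_pow

variable {K K' : Type*} [CommRing K] [CommRing K'] [Algebra ℚ K] [Algebra ℚ K'] {φ : K →+* K'}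
  {H H' : Type*} [AddCommGroup H] [Module K H] [AddCommGroup H'] [Module K' H'] {p : Par K H}
  {p' : Par K' H'} {ι : Type*} [Fintype ι] {fr : Frame p ι} {fr' : Frame p' ι} {C C' : Type}
  [CommRing C] [CommRing C'] [Algebra K C] [Algebra K' C'] {ac : Act fr C} {ac' : Act fr' C'}
  {j : H →ₛₗ[φ] H'} {ψ : C →+* C'} {σ : Type} [Fintype σ] [DecidableEq σ] {χ : σ → C}
  {χ' : σ → C'} (M : Mor ac ac' j ψ) (hχ : χ' = fun i => ψ (χ i)) (h : Gen K χ)
  {co : ℤ → ℤ → K' →+ K} {D : ℕ} {Q : K'} {u : K'ˣ} (hc : Cd φ co D Q u)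
  {W : S (p'.fs (Sym σ)) →ₗ[K'] K'} {ZZ : ℕ → ℤ → ℤ → S (p.fs (Sym σ)) → K}
  (base : ∀ e j x, co e j (W (bcS _ (M.cmp.ev.fs _) x)) = ZZ 0 e j x)
  (rc : ∀ (m : ℕ) e j x, (2 * ((m : K) + 1)) * ZZ (m + 1) e j x = ∑ᶠ E : Edge σ,
    (ZZ m (e - (E.deg + 1)) j (X0 ac χ E x) + ZZ m (e - (E.deg + 1)) (j + 1) (Xm ac χ E x) +
      ZZ m (e - (E.deg + 1)) (j - 1) (X1 ac χ E x)))
include hχ h hc base rc

lemma step (m : ℕ) : ∀ e : ℤ, e ≤ D → ∀ j x, co e j (W ((XE ac' χ' D Q u ^ m)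
    (bcS _ (M.cmp.ev.fs _) x))) = m.factorial * ZZ m e j x := by
  induction m with
  | zero => exact fun e _ j x => by simpa using base e j x
  | succ m ih =>
    intro e he j x
    have z : ∀ e' < 0, ∀ j x, ZZ m e' j x = 0 := fun e' a j x =>
      hc.ne _ _ m.factorial_ne_zero ((ih e' (by omega) j x).symm.trans (hc.neg _ a _ _))
    have k := rc m e j x
    rw [finsum_eq_sum_of_support_subset (s := edges σ D) _ fun E hE => by_contra fun a => hE (by
      have : e - (E.deg + 1) < 0 := by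
        have : ¬E.deg < D := fun b => a (mem_edges.2 b)
        omega
      simp only [z _ this, add_zero])] at k
    rw [pow_succ (XE ac' χ' D Q u), Module.End.mul_apply]
    generalize XE ac' χ' D Q u ^ m = Y at ih ⊢
    rw [XE, LinearMap.smul_apply, LinearMap.sum_apply, map_smul, map_smul, smul_eq_mul, ← map_hf φ,
      hc.mul, map_sum, map_sum, map_sum,
      sum_congr rfl (g := fun E => (m.factorial : K) * (ZZ m (e - (E.deg + 1)) j (X0 ac χ E x) +
        ZZ m (e - (E.deg + 1)) (j + 1) (Xm ac χ E x) +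
          ZZ m (e - (E.deg + 1)) (j - 1) (X1 ac χ E x))) fun E _ => ?_, ← mul_sum, ← k,
      Nat.factorial_succ]
    · push_cast
      linear_combination (m.factorial * (m + 1) * ZZ (m + 1) e j x) * hf_add K
    · have a : e - (E.deg + 1) ≤ D := by omega
      simp only [LinearMap.smul_apply, LinearMap.add_apply, map_smul, map_add, smul_eq_mul,
        X0_nat M hχ h, Xm_nat M hχ h, X1_nat M hχ h]
      rw [hc.pow _ he, map_add, map_add, hc.val, hc.inv, Nat.cast_succ, ih _ a,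
        ih _ a, ih _ a, mul_add, mul_add]

lemma expo {e : ℤ} (he : e ≤ D) (j : ℤ) (x : S (p.fs (Sym σ))) :
    co e j (W (nexp K' (XE ac' χ' D Q u) (bcS _ (M.cmp.ev.fs _) x))) = ∑ᶠ m, ZZ m e j x := by
  have s := step M hχ h hc base rc
  have hn := XE_pow ac' χ' hc.nil u
  rw [finsum_eq_sum_of_support_subset (s := range (D + 1)) _ fun m hm => by_contra fun a => hm (by
      have := s m e he j x
      rw [pow_eq_zero_of_le (by simpa using a) hn, LinearMap.zero_apply, map_zero, map_zero] at this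
      exact hc.ne _ _ m.factorial_ne_zero this.symm),
    nexp_eq_sum hn, LinearMap.sum_apply, map_sum, map_sum]
  refine sum_congr rfl fun m _ => ?_
  rw [LinearMap.smul_apply, map_smul, smul_eq_mul, ifac, ← φ.map_rat_algebraMap,
    hc.mul, s m e he, ← mul_assoc, ← map_natCast (algebraMap ℚ K), ← map_mul,
    inv_mul_cancel₀ (Nat.cast_ne_zero.2 m.factorial_ne_zero), map_one, one_mul]

lemma expo_one (j : ℤ) : co 0 j (W (nexp K' (XE ac' χ' D Q u) 1)) = co 0 j (W 1) := by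
  have a := expo M hχ h hc base rc (Nat.cast_nonneg D) j 1
  have b := base 0 j 1
  rw [map_one] at a b
  rw [a, b]
  refine finsum_eq_single _ 0 fun m hm0 => ?_
  obtain ⟨m, rfl⟩ := Nat.exists_eq_succ_of_ne_zero hm0
  have z : ∀ e' < 0, ∀ j x, ZZ m e' j x = 0 := fun e' a j x => hc.ne _ _ m.factorial_ne_zero
    ((step M hχ h hc base rc m e' (by omega) j x).symm.trans (hc.neg _ a _ _))
  have k := rc m 0 j 1
  rw [finsum_eq_zero_of_forall_eq_zero fun E => by
    have : (0 : ℤ) - (E.deg + 1) < 0 := by omega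
    simp only [z _ this, add_zero]] at k
  exact hc.ne (2 * (m + 1)) _ (by omega) (by exact_mod_cast k)

end step

section lin

variable {σ : Type} [Fintype σ] {R M : Type*} [CommRing R] [AddCommGroup M] [Module R M]
  (Z : (σ → ℤ) → M →ₗ[R] R)

/-- The support is bounded below. -/
def Bl (J : ℤ) (y : M) : Prop := ∀ jv, Z jv y ≠ 0 → ∀ i, J ≤ jv i

variable {Z} {J J' : ℤ} {y y' : M}

omit [Fintype σ] in
lemma Bl.mono (h : Bl Z J y) (a : J' ≤ J) : Bl Z J' y := fun jv b i => a.trans (h jv b i)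

omit [Fintype σ] in
lemma Bl.add (h : Bl Z J y) (h' : Bl Z J y') : Bl Z J (y + y') := fun jv b => by
  by_cases a : Z jv y = 0
  · exact h' jv (by rwa [map_add, a, zero_add] at b)
  · exact h jv a

omit [Fintype σ] in
lemma Bl.smul (h : Bl Z J y) (c : R) : Bl Z J (c • y) := fun jv b =>
  h jv fun a => b (by rw [map_smul, a, smul_eq_mul, mul_zero])

lemma Bl.sum (h : Bl Z J y) (w : (σ → ℤ) → R) (j : ℤ) :
    ∑ᶠ (jv) (_ : ∑ i, jv i = j), w jv * Z jv y =
      ∑ jv ∈ (finite_level J j).toFinset, w jv * Z jv y :=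
  finsum_level (fun jv a => h jv (right_ne_zero_of_mul a)) j

lemma exists_T (h : ∀ y, ∃ J, Bl Z J y) (w : (σ → ℤ) → R) (j : ℤ) :
    ∃ T : M →ₗ[R] R, ∀ y, T y = ∑ᶠ (jv) (_ : ∑ i, jv i = j), w jv * Z jv y := by
  refine ⟨⟨⟨fun y => ∑ᶠ (jv) (_ : ∑ i, jv i = j), w jv * Z jv y, fun y y' => ?_⟩, fun c y => ?_⟩,
    fun _ => rfl⟩
  · obtain ⟨J, a⟩ := h y
    obtain ⟨J', b⟩ := h y'
    have a' := a.mono (min_le_left J J')
    have b' := b.mono (min_le_right J J')
    rw [(a'.add b').sum, a'.sum, b'.sum, ← sum_add_distrib]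
    simp only [map_add, mul_add]
  · obtain ⟨J, a⟩ := h y
    simp only [RingHom.id_apply]
    rw [(a.smul c).sum, a.sum, smul_eq_mul, mul_sum]
    simp only [map_smul, smul_eq_mul, mul_left_comm]

lemma eq_of_approx {r D : ℕ} {e j : ℤ} {w : F1 D} {u : ℕ → F1 D} {l z : F}
    (h : ∀ n, ∀ᶠ N in Filter.atTop, w - u N ∈ Hat.Lo _ _ n)
    (h' : ∀ᶠ N in Filter.atTop, z = l * coord r D e j (u N)) :
    coord r D e j (phF D l * w) = z := by
  obtain ⟨a, ha⟩ := l.exists_Lo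
  refine sub_eq_zero.1 (Hat.eq_zero_of_Lo fun L => ?_)
  obtain ⟨N, h1, h2⟩ := ((h (L - a + r * j - (r + 1) * e)).and h').exists
  rw [coord_phF_mul, h2, ← mul_sub, ← map_sub]
  exact Hat.Lo_mono (by omega) (Hat.mul_Lo ha (coord_Lo h1 e j))

lemma prod_wt {r : ℕ} (a : Fin (r + 1) → ℂ) (i : Fin (r + 1)) :
    ∏ l ∈ univ.erase i, (a l - a i) • tt = wt a i • tt ^ r := by
  rw [prod_smul, prod_const, card_erase_of_mem (mem_univ i), card_univ, Fintype.card_fin,
    Nat.add_sub_cancel, wt]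

lemma wt_ne {r : ℕ} {a : Fin (r + 1) → ℂ} (ha : Function.Injective a) (i : Fin (r + 1)) :
    wt a i ≠ 0 := prod_ne_zero_iff.2 fun _ h => sub_ne_zero.2 (ha.ne (ne_of_mem_erase h))

lemma gen_one {D : ℕ} {w : σ → ℂ} {z : (σ → ℤ) → ℂ} {y : K1 D} (h : IsGen D w z y)
    (hz : ∀ jv, z jv ≠ 0 → ∀ i, 0 ≤ jv i) : y ∈ Hat.Lo _ _ 0 ∧ y.co 0 = algebraMap ℂ _ (z 0) := by
  have k := fun j => (h j).trans (congrArg _
    (finsum_level (J := 0) (fun jv a => hz jv (right_ne_zero_of_mul a)) j))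
  refine ⟨fun j hj => ?_, ?_⟩
  · rw [k, sum_eq_zero, map_zero]
    intro jv a
    obtain ⟨b, c⟩ := (Set.Finite.mem_toFinset _).1 a
    exact absurd (c ▸ sum_nonneg fun i _ => b i) hj.not_ge
  · rw [k, sum_eq_single 0]
    · simp
    · intro jv a b
      obtain ⟨c, d⟩ := (Set.Finite.mem_toFinset _).1 a
      exact (b (funext fun i => (sum_eq_zero_iff_of_nonneg fun i _ => c i).1 d i (mem_univ i))).elim
    · exact fun a => (a ((Set.Finite.mem_toFinset _).2 ⟨fun _ => le_rfl, by simp⟩)).elim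

end lin

/-- A multiple of a series of forms composed with a map. -/
noncomputable def zW {K E M : Type*} [CommRing K] [AddCommGroup E] [Module K E] [AddCommGroup M]
    [Module (Hat K K) M] (l : Hat K K) (Z : Hat K (E →ₗ[K] K)) (G : M →ₗ[Hat K K] Hat K E) :
    M →ₗ[Hat K K] Hat K K := l • (zA Z ∘ₗ G)

lemma zW_apply {K E M : Type*} [CommRing K] [AddCommGroup E] [Module K E] [AddCommGroup M]
    [Module (Hat K K) M] (l : Hat K K) (Z : Hat K (E →ₗ[K] K)) (G : M →ₗ[Hat K K] Hat K E) (x : M) :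
    zW l Z G x = l * zA Z (G x) := rfl

lemma zW_mul {K E M M' M'' : Type*} [CommRing K] [AddCommGroup E] [Module K E] [AddCommGroup M]
    [Module (Hat K K) M] [AddCommGroup M'] [Module (Hat K K) M'] [AddCommGroup M'']
    [Module (Hat K K) M''] (l l' : Hat K K) (Z : Hat K (E →ₗ[K] K)) (G : M →ₗ[Hat K K] Hat K E)
    (A : M' →ₗ[Hat K K] M) (B : M'' →ₗ[Hat K K] M') (x : M'') :
    l * l' * zA Z ((G ∘ₗ A ∘ₗ B) x) = l' * zW l Z G (A (B x)) := by
  rw [zW_apply, mul_comm l, mul_assoc]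
  rfl

lemma zW_one {K E M : Type*} [CommRing K] [AddCommGroup E] [Module K E] [AddCommGroup M]
    [Module (Hat K K) M] {l : Hat K K} {Z : Hat K (E →ₗ[K] K)} {G : M →ₗ[Hat K K] Hat K E} {x : M}
    {y : Hat K E} (hl : l = 1) (h : G x = y) : zW l Z G x = zA Z y := by
  rw [zW_apply, hl, h, one_mul]

lemma map_one' {K V W : Type*} [CommRing K] [AddCommGroup V] [Module K V] [AddCommGroup W]
    [Module K W] {q : Par K V} {s : Par K W} {f : V →ₗ[K] W} (hf : IsEv q s f) :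
    Fock.map f hf 1 = 1 := map_one _

section base

variable {K R : Type} [CommRing K] [Algebra ℂ K] [Algebra ℚ K] [CommRing R] [Algebra ℂ R]
  {H : Type} [AddCommGroup H]
  [Module ℂ H] {p : Par ℂ H} {ι : Type} [Fintype ι] {fr : Frame p ι} {C : Type} [CommRing C]
  [Algebra ℂ C] (ac : Act fr C) {σ : Type} [Fintype σ] [DecidableEq σ] (f : R →ₐ[ℂ] Hat K K)

omit [Algebra ℚ K] [Fintype σ] [DecidableEq σ] in
lemma bc_jV (x : S ((p.pi σ).fs ℕ)) :
    bcS _ ((isEvS_pi (mor_jT ac f).cmp.ev σ).fs ℕ) (bcS _ (isEvS_jV p R) x) =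
      bcS _ (isEvS_jV p (Hat K K)) x :=
  bcS_bcS _ _ (isEvS_jV p (Hat K K)) (fun v => Finsupp.ext fun n => funext fun i =>
    congrArg (· ⊗ₜ[ℂ] v n i) (map_one f)) f.commutes x

variable {χ : σ → Hat K K ⊗[ℂ] C} {b b' : Hat K (Module.End K (LL (σ → K ⊗[ℂ] H)))}
  (hb : Tw ((fr.bc K).pi σ) b b')
  {Ex : S ((p.bc (Hat K K)).fs (Sym σ)) →ₗ[Hat K K] Hat K (S (((p.bc K).pi σ).fs ℕ))}
  (hE : IsEx (emT K ac) χ b Ex) {co : Hat K K →+ R} (hco : ∀ c w, co (f c * w) = c * co w)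
  (Z : Hat K (S (((p.bc K).pi σ).fs ℕ) →ₗ[K] K))
include hb hE hco

lemma base1 {ZF : (σ → ℤ) → S (((p.bc R).pi σ).fs ℕ) →ₗ[R] R} {w : (σ → ℤ) → R} {j : ℤ}
    {A : Prop} [Decidable A]
    (low : ∀ x, ∃ J, ∀ jv, ZF jv (bcS _ (isEvS_jV p R) x) ≠ 0 → ∀ i, J ≤ jv i)
    (h : ∀ x, co (zA Z (Hat.single K 0 (bcS _ (isEvS_jV p K) x))) = if A then
      ∑ᶠ (jv) (_ : ∑ i, jv i = j), w jv * ZF jv (bcS _ (isEvS_jV p R) x) else 0)
    (y : S (((p.bc R).pi σ).fs ℕ)) :
    co (zA Z (Ex (Fock.map _ (isEv_inc (p.bc (Hat K K)))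
      (bcS _ ((isEvS_pi (mor_jT ac f).cmp.ev σ).fs ℕ) y)))) =
      if A then ∑ᶠ (jv) (_ : ∑ i, jv i = j), w jv * ZF jv y else 0 := by
  have sp : Submodule.span R (Set.range (jV (K := ℂ) H σ R)) = ⊤ := by
    rw [jV_eq]
    exact span_fsS (span_piS span_j1 _) ℕ
  obtain ⟨T, hT⟩ := exists_T (Z := ZF) (fun y => by
    induction y using bcS_induction (hj := isEvS_jV p R) sp with
    | h x => exact low x
    | hadd x y hx hy =>
      obtain ⟨J, a⟩ := hx
      obtain ⟨J', b⟩ := hy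
      exact ⟨_, (a.mono (min_le_left J J')).add (b.mono (min_le_right J J'))⟩
    | hsmul a x hx => exact hx.imp fun J h => h.smul a) w j
  rw [← hT]
  induction y using bcS_induction (hj := isEvS_jV p R) sp with
  | h x => rw [bc_jV ac f, Ex_jV ac hb hE, hT, h]
  | hadd x y hx hy =>
    rw [map_add, map_add, map_add, map_add, map_add, hx, hy, map_add]
    split_ifs
    exacts [rfl, add_zero _]
  | hsmul a x hx =>
    rw [bcS_smul, map_smul, map_smul, map_smul, map_smul T, smul_eq_mul, smul_eq_mul]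
    refine (hco a _).trans ?_
    rw [hx]
    split_ifs
    exacts [rfl, mul_zero _]

end base

end Vale.Agent.P269.B.CoefA
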