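import Vale.Agent.P269.B.GDef
import Vale.Agent.P269.B.CoefA

/-! The coefficients of the sum over graphs are the equivariant invariants. -/

namespace Vale.Agent.P269.B

open Fock Finset TensorProduct CoefA

lemma CoefA.one_aux {r D : ℕ} {w : F1 D} (lo : w ∈ Hat.Lo _ _ 0)
    (h : ∀ m : ℕ, w.co m ∈ Hat.Lo _ _ 0 ∧ (w.co m).co 0 = if m = 0 then 1 else 0) :
    (∀ j < 0, coord r D 0 j w = 0) ∧ coord r D 0 0 w = 1 ∧
      ∀ j, coord r D 0 j w ∈ Hat.Lo ℂ ℂ (-(r * j)) := by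
  refine ⟨fun j hj => Hat.ext (funext fun n => ?_), Hat.ext (funext fun n => ?_), fun j => ?_⟩
  · rw [co_coord, Hat.co_zero]
    rcases lt_or_ge (n + r * j - (r + 1) * 0) 0 with h0 | h0
    · rw [lo _ h0, Hat.co_zero, map_zero]
    · obtain ⟨m, hm⟩ := Int.eq_ofNat_of_zero_le h0
      rw [hm, (h m).1 j hj, map_zero]
  · rw [co_coord, mul_zero, mul_zero, add_zero, sub_zero, Hat.one_def (A := ℂ), Hat.co_single]
    rcases lt_or_ge n 0 with h0 | h0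
    · rw [lo _ h0, Hat.co_zero, map_zero, if_neg h0.ne]
    · obtain ⟨m, rfl⟩ := Int.eq_ofNat_of_zero_le h0
      rw [(h m).2]
      by_cases a : m = 0
      · rw [if_pos a, cq_one, if_pos rfl, if_pos (by omega)]
      · rw [if_neg a, map_zero, if_neg (by omega)]
  · simpa using coord_Lo (r := r) lo 0 j

variable {H : Type} [AddCommGroup H] [Module ℂ H] {p : Par ℂ H} {ι : Type} [Fintype ι]
  {fr : Frame p ι} {d : VD fr} {C : Type} [CommRing C] [Algebra ℂ C] {ac : Act fr C} {r : ℕ}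
  {c : Fin (r + 1) → C} {Γ : Type}
  {ZT : Γ → ℤ → ℤ → S ((p.pi (Fin (r + 1))).fs ℕ) →ₗ[ℂ] Polynomial ℂ} (I : BIn d ac c Γ ZT)

lemma BIn.gen (D : ℕ) : Gen (F1 D) (chiK (t1 D) I.a c) :=
  gen_chiK (IsUnit.of_mul_eq_one (Hat.single _ 1 1) (by
    rw [t1, Hat.single_mul, one_mul, neg_add_cancel]; rfl)) I.ha I.nil

lemma BIn.inv_pe (D : ℕ) (e : Edge (Fin (r + 1))) :
    (emT (K1 D) ac).c (Ring.inverse (pe (F1 D) (chiK (t1 D) I.a c) e)) ∈ Hat.Lo _ _ 1 :=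
  CoefA.inv_pe ac I.ha.injective (I.gen D) e

lemma BIn.genF : Gen F (chi I.a c) :=
  gen_chiK (t := tt) (IsUnit.of_mul_eq_one (Hat.single _ 1 1) (by
    rw [tt, Hat.single_mul, one_mul, neg_add_cancel, Hat.one_def])) I.ha I.nil

lemma BIn.chi_eq (D : ℕ) : chiK (t1 D) I.a c = fun i =>
    RingHomClass.toRingHom (Algebra.TensorProduct.map (phA D) (AlgHom.id ℂ C)) (chi I.a c i) := by
  funext i
  rw [chi, RingHom.coe_coe, map_add, Algebra.TensorProduct.map_tmul, Algebra.TensorProduct.map_tmul,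
    map_smul, map_one, map_one, chiK, ← phF_tt]
  rfl

variable {D : ℕ} {Z : I.Γv → Hat (K1 D) (S (((p.bc (K1 D)).pi (Fin (r + 1))).fs ℕ) →ₗ[K1 D] K1 D)}
  (hZ : IsZt I.a D I.ZB Z)
include hZ

lemma BIn.zt_one (m : ℕ) : (zA (Z I.ov) (Hat.single _ 0 1)).co m ∈ Hat.Lo _ _ 0 ∧
    ((zA (Z I.ov) (Hat.single _ 0 1)).co m).co 0 = if m = 0 then 1 else 0 := by
  have a := gen_one ((hZ I.ov).2 m 1) fun jv => I.norm_neg jv m
  rw [map_one, I.norm_zero, ← co_zA_single] at a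
  refine ⟨a.1, a.2.trans ?_⟩
  split_ifs
  exacts [map_one _, map_zero _]

lemma BIn.norm_Zt : (zA (Z I.ov) (Hat.single _ 0 1)).co 0 - 1 ∈ Hat.Lo _ _ 1 := fun n hn => by
  obtain ⟨a, b⟩ := I.zt_one hZ 0
  rw [Nat.cast_zero] at a b
  rw [Hat.co_sub, Hat.one_def, Hat.co_single]
  split_ifs with h
  · rw [h, b, if_pos rfl, sub_self]
  · rw [a n (by omega), sub_self]

variable {b b' : Hat (K1 D) (Module.End (K1 D) (LL (Fin (r + 1) → K1 D ⊗[ℂ] H)))}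
  (hb : Tw ((fr.bc (K1 D)).pi _) b b')
  {Ex : S ((p.bc (F1 D)).fs (Sym (Fin (r + 1)))) →ₗ[F1 D]
    Hat (K1 D) (S (((p.bc (K1 D)).pi (Fin (r + 1))).fs ℕ))}
  (hE : IsEx (emT (K1 D) ac) (chiK (t1 D) I.a c) b Ex)
include hb hE

lemma BIn.base1 (β : I.Γv) (e j : ℤ) (y : S (((p.bc F).pi (Fin (r + 1))).fs ℕ)) :
    coord r D e j (zA (Z β) (Ex (Fock.map _ (isEv_inc (p.bc (F1 D)))
      (bcS _ ((isEvS_pi (mor_jT ac (phA D)).cmp.ev _).fs ℕ) y)))) =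
      if e = 0 then ∑ᶠ (jv) (_ : ∑ i, jv i = j),
        (∏ i, (wt I.a i • tt ^ r) ^ jv i) * I.ZF β jv y else 0 := by
  refine CoefA.base1 ac (phA D) hb hE (coord_phF_mul e j) (Z β) (fun x => ?_) (fun x => ?_) y
  · obtain ⟨J, hJ⟩ := I.low β x
    refine ⟨J, fun jv a => by_contra fun b => a ((I.ZF_bc β jv x).trans ?_)⟩
    rw [show (PowerSeries.mk fun m => I.ZB β jv m x) = 0 from PowerSeries.ext fun m => by
      rw [PowerSeries.coeff_mk, map_zero]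
      exact by_contra fun h0 => b (hJ m jv h0), map_zero]
  · obtain ⟨J, hJ⟩ := I.low β x
    refine (coord_gen (wt_ne I.ha.injective) hJ
      (fun n a => zA_Lo (hZ β).1 (Hat.single_Lo 0 _) n (by omega)) (fun m => by
        rw [co_zA_single]
        exact (hZ β).2 m x) e j).trans ?_
    exact if_congr Iff.rfl (finsum_congr fun jv => finsum_congr fun _ =>
      congrArg _ (I.ZF_bc β jv x).symm) rfl

lemma BIn.base2 (β : I.Γv) (e j : ℤ) (x : S ((p.bc F).fs (Sym (Fin (r + 1))))) :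
    coord r D e j (zW (phF D (I.lam β)) (Z β) Ex
      (bcS _ ((mor_jT ac (phA D)).cmp.ev.fs _) x)) = I.ZZ 0 β e j x := by
  rw [zW_apply]
  refine eq_of_approx (u := fun N => zA (Z β) (Ex (Fock.map _ (isEv_inc _) (Fock.map _
    (isEv_exN (ac.bc (F1 D)) (chiK (t1 D) I.a c) N) (bcS _ ((mor_jT ac (phA D)).cmp.ev.fs _) x)))))
    (fun n => (hE.approx _ (I.gen D) (I.inv_pe D) hb
      (bcS _ ((mor_jT ac (phA D)).cmp.ev.fs _) x) n).mono fun N h => ?_) ?_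
  · rw [← map_sub]
    exact fun m a => zA_Lo (hZ β).1 h m (by omega)
  · refine (I.loc2 β j x).mono fun N h => ?_
    rw [map_bcS _ ((isEvS_pi (mor_jT ac (phA D)).cmp.ev _).fs ℕ) (isEv_exN (ac.bc F) (chi I.a c) N) _
      (exN_nat (mor_jT ac (phA D)) (I.chi_eq D) I.genF N), I.base1 hZ hb hE]
    split_ifs with h0
    · simpa only [h0, prod_wt] using h
    · rw [I.loc2' β e j h0, mul_zero, LinearMap.zero_apply]

omit hZ hb hE in
lemma BIn.ZTh_apply (s0 : ℤ) (β : Γ) (y : S (((p.bc (F1 D)).pi (Fin (r + 1))).fs ℕ)) :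
    I.ZTh Z Ex s0 β y = ∑ βv ∈ I.tup β, Qe r D ^ (I.sh βv - s0).toNat *
      zW (phF D (I.lam βv)) (Z βv) Ex (nexp (F1 D)
        (XE (ac.bc (F1 D)) (chiK (t1 D) I.a c) D (Qe r D) (uH r D))
        (Fock.map _ (isEv_res (ac.bc (F1 D)) (chiK (t1 D) I.a c)) y)) :=
  (zS_apply _ _ _ _ _).trans (sum_congr rfl fun _ _ => zW_mul _ _ _ _ _ _ _)

theorem BIn.coef {s0 : ℤ} {β : Γ} (hs : ∀ βv ∈ I.tup β, s0 ≤ I.sh βv)
    (x : S ((p.pi (Fin (r + 1))).fs ℕ)) {e : ℤ} (he : e ≤ D) (j : ℤ) :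
    coord r D e j (I.ZTh Z Ex s0 β (bcS _ (isEvS_jV p (F1 D)) x)) =
      Polynomial.aeval tt (ZT β (e + s0) j x) := by
  rw [I.loc1, I.ZTh_apply, map_sum]
  refine sum_congr rfl fun βv a => ?_
  have := hs βv a
  rw [coord_Qe_pow_mul he, ← bc_jV ac (phA D),
    map_bcS _ ((mor_jT ac (phA D)).cmp.ev.fs _) (isEv_res (ac.bc F) (chi I.a c)) _
      (res_nat (mor_jT ac (phA D)) (I.chi_eq D)),
    show e - ((I.sh βv - s0).toNat : ℤ) = e + s0 - I.sh βv by omega]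
  exact expo (ZZ := fun m e j x => I.ZZ m βv e j x) (mor_jT ac (phA D)) (I.chi_eq D) I.genF (cd r D)
    (I.base2 hZ hb hE βv) (I.loc3 · βv) (by omega) j _

omit hZ hb hE in
lemma BIn.ZTh_one : I.ZTh Z Ex 0 I.o 1 = zW (phF D (I.lam I.ov)) (Z I.ov) Ex (nexp (F1 D)
    (XE (ac.bc (F1 D)) (chiK (t1 D) I.a c) D (Qe r D) (uH r D)) 1) := by
  rw [I.ZTh_apply, I.tup_o, sum_singleton, I.sh_o, sub_zero, Int.toNat_zero, pow_zero,
    map_one' (isEv_res _ _)]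
  exact one_mul _

lemma BIn.coord_one (j : ℤ) : coord r D 0 j (I.ZTh Z Ex 0 I.o 1) =
    coord r D 0 j (zA (Z I.ov) (Hat.single _ 0 1)) :=
  (congrArg _ I.ZTh_one).trans ((expo_one (ZZ := fun m e j x => I.ZZ m I.ov e j x)
    (mor_jT ac (phA D)) (I.chi_eq D) I.genF (cd r D) (I.base2 hZ hb hE I.ov) (I.loc3 · I.ov)
    j).trans (congrArg _ (zW_one ((congrArg _ I.lam_o).trans (map_one (phF D))) hE.one)))

theorem BIn.coef_one : (∀ j < 0, coord r D 0 j (I.ZTh Z Ex 0 I.o 1) = 0) ∧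
    coord r D 0 0 (I.ZTh Z Ex 0 I.o 1) = 1 ∧
    ∀ j, coord r D 0 j (I.ZTh Z Ex 0 I.o 1) ∈ Hat.Lo ℂ ℂ (-(r * j)) := by
  simp only [I.coord_one hZ hb hE]
  exact one_aux (fun n a => zA_Lo (hZ _).1 (Hat.single_Lo 0 _) n (by omega)) (I.zt_one hZ)

end Vale.Agent.P269.B
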