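import Vale.Agent.P269.B.Nat
import Mathlib.RingTheory.AdjoinRoot

/-! The expansion at `z = ∞` of the hypergeometric series of the projective bundle. -/

namespace Vale.Agent.P269.B

open Fock Finset

variable {K : Type*} [CommRing K] {H : Type*} [AddCommGroup H] [Module K H]
  {p : Par K H} {ι : Type*} [Fintype ι] {fr : Frame p ι} {C : Type*} [CommRing C] [Algebra K C]
  {r : ℕ}

/-- The series `(ξ - z Q ∂_Q)^k I` expanded in `w = 1 / z`. -/
noncomputable def nI {A : Type*} [CommRing A] {σ : Type} [Fintype σ] (D : ℕ) (Q ξ : A) (χ : σ → A)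
    (k : ℕ) : Hat A A :=
  nS D (Hat.C A Q) (Hat.C A ξ) (fun j => Hat.C A (χ j)) (Hat.single A (-1) 1) k

lemma monic_fE {σ : Type} [Fintype σ] (χ : σ → C) : (fE χ).Monic :=
  Polynomial.monic_prod_of_monic _ _ fun _ _ => Polynomial.monic_X_add_C _

/-- The matrix of the coefficient of `z^(-n)`. -/
noncomputable def SM (D : ℕ) (Q : C) (χ : Fin (r + 1) → C) (n : ℤ) :
    Matrix (Fin (r + 1)) (Fin (r + 1)) C := Matrix.of fun k' k =>
  (AdjoinRoot.modByMonicHom (monic_fE χ) ((nI D (AdjoinRoot.of _ Q) (AdjoinRoot.root _)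
    (fun j => AdjoinRoot.of _ (χ j)) k).co n)).coeff k'

variable (ac : Act fr C) (D : ℕ) (Q : C) (χ : Fin (r + 1) → C) {ι' : Type*} [Fintype ι']
  (frT : Frame (p.pi (Fin (r + 1))) ι')

/-- A frame for the pairing of the projective bundle, divided by `u`. -/
structure IsT (u : Kˣ) : Prop where
  η : ∀ v w, frT.η v w = (u⁻¹ : Kˣ) *
    ∑ k : Fin (r + 1), ∑ l : Fin (r + 1), fr.η (ac.act (xc χ (k + l) r) (v k)) (w l)
  one : frT.one = Pi.single 0 fr.one

/-- The positive part of `S f`. -/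
noncomputable def posI : LL (Fin (r + 1) → H) →ₗ[K] VV (Fin (r + 1) → H) :=
  Finsupp.lsum K fun m => ∑ n ∈ range (m + 1).toNat,
    Finsupp.lsingle n ∘ₗ actM ac.act (SM D Q χ (m - n))

/-- The negative part of `S f` as a linear form. -/
noncomputable def negI : LL (Fin (r + 1) → H) →ₗ[K] Module.Dual K (VV (Fin (r + 1) → H)) :=
  Finsupp.lsum K fun m => (Finsupp.lsum K fun n : ℕ =>
    ((-1 : K) ^ n • (frT.η ∘ₗ actM ac.act (SM D Q χ (m + n + 1)))).flip).flip

lemma posI_single (m : ℤ) (v : Fin (r + 1) → H) : posI ac D Q χ (Finsupp.single m v) =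
    ∑ n ∈ range (m + 1).toNat, Finsupp.single n (actM ac.act (SM D Q χ (m - n)) v) := by
  simp [posI, LinearMap.sum_apply]

lemma negI_single (m : ℤ) (n : ℕ) (v w : Fin (r + 1) → H) :
    negI ac D Q χ frT (Finsupp.single m v) (Finsupp.single n w) =
      (-1) ^ n * frT.η (actM ac.act (SM D Q χ (m + n + 1)) v) w := by
  simp [negI]

/-- The expansion at infinity as a map to the canonical Heisenberg space. -/
noncomputable def sI : LL (Fin (r + 1) → H) →ₗ[K]
    VV (Fin (r + 1) → H) × Module.Dual K (VV (Fin (r + 1) → H)) :=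
  (posI ac D Q χ).prod (negI ac D Q χ frT)

variable [Algebra ℚ K]

/-- The intertwiner of the expansion at infinity. -/
def IsGS (G : Module.End K (S ((p.pi (Fin (r + 1))).fs ℕ))) : Prop :=
  G 1 = 1 ∧ Itw frT.h (hD _ frT.dil) (sI ac D Q χ frT) G

variable (K) in
/-- The matrix of `z (k - r/2) + ∑ c + (r + 1) ξ ⋆`. -/
noncomputable def mainG (c : Fin (r + 1) → C) :
    Matrix (Fin (r + 1)) (Fin (r + 1)) (LaurentPolynomial C) := Matrix.of fun k' k =>
  (if k' = k then ((((k : ℕ) : K) - r * hf K) • LaurentPolynomial.T 1 +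
      LaurentPolynomial.C (∑ l, c l)) else 0) +
    ((r : K) + 1) • LaurentPolynomial.C (xc c (k + 1) k') +
    if (k' : ℕ) = 0 ∧ (k : ℕ) = r then ((r : K) + 1) • LaurentPolynomial.C Q else 0

/-- The conjugate of the operator `D` of the projective bundle. -/
noncomputable def Dt (d : VD fr) (c : Fin (r + 1) → C) : Module.End K (LL (Fin (r + 1) → H)) :=
  (vdPi _ d).D + opM ac.act (mainG K Q c)

/-- The Virasoro data of the projective bundle over a general ground ring. -/
structure IsE (d : VD fr) (c : Fin (r + 1) → C) (dE : VD frT) : Prop where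
  μ_c : ∀ l, d.μ * ac.act (c l) = ac.act (c l) * d.μ + ac.act (c l)
  ρ_c : ∀ l, d.ρ * ac.act (c l) = ac.act (c l) * d.ρ
  μ : ∀ v k, dE.μ v k = d.μ (v k) + (((k : ℕ) : K) - r * hf K) • v k
  ρ : ∀ v k, dE.ρ v k = d.ρ (v k) + ac.act (∑ l, c l) (v k) +
    ((r : K) + 1) • ∑ l : Fin (r + 1), ac.act (xc c (l + 1) k) (v l)

end Vale.Agent.P269.B
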