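import Vale.Agent.P269.B.ESb

/-! The end of the argument at `t = 0`. -/

namespace Vale.Agent.P269.B

open Fock Finset
open LaurentPolynomial (T)

namespace ES

section ring

variable {B : Type*} [CommRing B]

/-- The expansion of a Laurent polynomial at infinity. -/
noncomputable def toH (B : Type*) [CommRing B] : LaurentPolynomial B →+* Hat B B :=
  AddMonoidAlgebra.liftNCRingHom (Hat.C B) ⟨⟨fun n => Hat.single B (-n.toAdd) 1, rfl⟩,
    fun a b => by simp [Hat.single_mul, add_comm]⟩ fun _ _ => Commute.all _ _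

lemma toH_C (x : B) : toH B (LaurentPolynomial.C x) = Hat.C B x :=
  (AddMonoidAlgebra.liftNCRingHom_single _ _ (fun _ _ => Commute.all _ _) 0 x).trans (mul_one _)

lemma toH_T (n : ℤ) : toH B (T n) = Hat.single B (-n) 1 :=
  (AddMonoidAlgebra.liftNCRingHom_single _ _ (fun _ _ => Commute.all _ _) n 1).trans (by simp)

variable {r : ℕ}

lemma nil_root {c : Fin (r + 1) → B} (hc : ∀ l, IsNilpotent (c l)) :
    IsNilpotent (AdjoinRoot.root (fE c)) := by
  refine IsNilpotent.of_pow (m := r + 1) (mem_nilradical.1 (Ideal.Quotient.eq_zero_iff_mem.1 ?_))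
  have h := congrArg (Ideal.Quotient.mk (nilradical (DD c))) (prod_root c)
  have e : ∀ j, Ideal.Quotient.mk (nilradical (DD c)) (AdjoinRoot.of _ (c j)) = 0 := fun j =>
    Ideal.Quotient.eq_zero_iff_mem.2 (mem_nilradical.2 ((hc j).map _))
  simpa [e] using h

lemma isUnit_dnL [Algebra ℚ B] {σ : Type} [Fintype σ] {ξ : B} {χ : σ → B} (hξ : IsNilpotent ξ)
    (hχ : ∀ j, IsNilpotent (χ j)) (d : ℕ) :
    IsUnit (dn (LaurentPolynomial.C ξ) (fun j => LaurentPolynomial.C (χ j)) (T 1) d) := by
  refine IsUnit.prod_univ_iff.2 fun j => IsUnit.prod_iff.2 fun m _ => ?_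
  rw [sub_eq_add_neg]
  exact ((Commute.all _ _).isNilpotent_add (hξ.map _) ((hχ j).map _)).isUnit_add_right_of_commute
    ((PFP.unit_succ ℚ _ m).mul (LaurentPolynomial.isUnit_T 1)).neg (Commute.all _ _)

lemma nS_succ {D : ℕ} {Q ξ z : B} {χ : Fin (r + 1) → B} (hQ : Q ^ (D + 1) = 0)
    (hp : ∏ j, (ξ + χ j) = 0) (hu : ∀ d, IsUnit (dn ξ χ z d)) (k : Fin (r + 1)) :
    nS D Q ξ χ z (k + 1) = ∑ l : Fin (r + 1), xc χ (k + 1) l * nS D Q ξ χ z l +
      if (k : ℕ) = r then Q * nS D Q ξ χ z 0 else 0 := by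
  split_ifs with h
  · have e : Q * nS D Q ξ χ z 0 = ∑ d ∈ range D, Q ^ (d + 1) * nn ξ χ z 0 d := by
      rw [nS, mul_sum, sum_range_succ, ← mul_assoc, ← pow_succ', hQ, zero_mul, add_zero]
      exact sum_congr rfl fun d _ => by rw [← mul_assoc, ← pow_succ']
    rw [e, h]
    simp only [nS, sum_range_succ', nn_top (hu _), nn_zero, mul_add, mul_sum, sum_add_distrib,
      pow_zero, one_mul]
    rw [pow_top hp (r + 1), sum_comm, add_right_comm]
    simp only [mul_left_comm (xc χ _ _)]
  · have hk : (k : ℕ) + 1 ≤ r := by have := k.2; omega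
    rw [add_zero, sum_eq_single ⟨k + 1, by omega⟩ (fun l _ hl => ?_) (by simp), xc_of_le χ hk,
      if_pos rfl, one_mul]
    rw [xc_of_le χ hk, if_neg fun e => hl (Fin.ext e), zero_mul]

/-- The matrix of the multiplication. -/
noncomputable def lm (c : Fin (r + 1) → B) : DD c →+* Matrix (Fin (r + 1)) (Fin (r + 1)) B where
  toFun x := Matrix.of fun k l => cf c k (x * AdjoinRoot.root (fE c) ^ (l : ℕ))
  map_zero' := by ext; simp
  map_add' x y := by ext; simp [add_mul]
  map_one' := by
    ext k l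
    rw [Matrix.of_apply, one_mul, cf_pow, xc_of_le c (Nat.lt_succ_iff.1 l.2), Matrix.one_apply]
    simp only [Fin.val_inj]
  map_mul' x y := by
    ext k l
    simp only [Matrix.mul_apply, Matrix.of_apply]
    conv_lhs => rw [mul_assoc, ← sum_cf c (y * _), mul_sum, map_sum]
    exact sum_congr rfl fun j _ => by rw [mul_left_comm, cf_of_mul, mul_comm]

lemma lm_apply (c : Fin (r + 1) → B) (x : DD c) (k l : Fin (r + 1)) :
    lm c x k l = cf c k (x * AdjoinRoot.root (fE c) ^ (l : ℕ)) := rfl

lemma lm_of (c : Fin (r + 1) → B) (a : B) :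
    lm c (AdjoinRoot.of _ a) = Matrix.diagonal fun _ => a := by
  ext k l
  rw [lm_apply, cf_of_mul, cf_pow, xc_of_le c (Nat.lt_succ_iff.1 l.2), Matrix.diagonal_apply]
  simp only [Fin.val_inj, mul_ite, mul_one, mul_zero]

end ring

variable {K : Type*} [CommRing K] {H : Type*} [AddCommGroup H] [Module K H]
  {C : Type*} [CommRing C] [Algebra K C]

lemma opL_single (act : C →ₐ[K] Module.End K H) (x : LaurentPolynomial C) (m j : ℤ) (a : H) :
    opL act x (Finsupp.single m a) j = act ((toH C x).co (m - j)) a := by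
  induction x using LaurentPolynomial.induction_on' with
  | add x y hx hy => simp only [map_add, LinearMap.add_apply, Finsupp.add_apply, hx, hy, Hat.co_add]
  | C_mul_T n b =>
    rw [map_mul, map_mul, opL_C, opL_T, toH_C, toH_T, co_C_mul, Hat.co_single, Module.End.mul_apply,
      zp_single, cst_apply, Finsupp.single_apply]
    by_cases h : m + n = j
    · rw [if_pos h, if_pos (by omega), mul_one]
    · rw [if_neg h, if_neg (by omega), mul_zero, map_zero, map_zero, LinearMap.zero_apply]

section hm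

variable {E L : Type*} [Ring E] [Algebra K E] [CommRing L] [Algebra K L] (φ : L →ₐ[K] E) (X : E)
  (z : L)

/-- Homogeneous elements. -/
def Hm (n : ℤ) (x : L) : Prop := X * φ x = φ x * X + φ (n * z * x)

variable {φ X z} {n m : ℤ} {x y : L}

lemma Hm.mul (hx : Hm φ X z n x) (hy : Hm φ X z m y) : Hm φ X z (n + m) (x * y) := by
  unfold Hm at *
  rw [map_mul, ← mul_assoc, hx, add_mul, mul_assoc, hy, mul_add, ← mul_assoc, ← map_mul, ← map_mul,
    ← map_mul, add_assoc, ← map_add]
  congr 2
  push_cast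
  ring

lemma Hm.add (hx : Hm φ X z n x) (hy : Hm φ X z n y) : Hm φ X z n (x + y) := by
  unfold Hm at *
  simp only [map_add, mul_add, add_mul, hx, hy]
  abel

lemma Hm.sub (hx : Hm φ X z n x) (hy : Hm φ X z n y) : Hm φ X z n (x - y) := by
  unfold Hm at *
  simp only [map_sub, mul_sub, sub_mul, hx, hy]
  abel

lemma Hm.alg (k : K) : Hm φ X z 0 (algebraMap K L k) := by
  simp [Hm, Algebra.commutes]

lemma Hm.one : Hm φ X z 0 1 := by simpa using Hm.alg (φ := φ) (X := X) (z := z) 1

lemma Hm.nat (hx : Hm φ X z n x) (k : ℕ) : Hm φ X z n (k * x) := by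
  simpa using (Hm.alg (k : K)).mul hx

lemma Hm.prod {α : Type*} (s : Finset α) {f : α → L} (h : ∀ a ∈ s, Hm φ X z n (f a)) :
    Hm φ X z (s.card * n) (∏ a ∈ s, f a) := by
  classical
  induction s using Finset.induction_on with
  | empty => simpa using Hm.one
  | insert a s ha ih =>
    rw [prod_insert ha, card_insert_of_notMem ha, Nat.cast_add_one, add_mul, one_mul, add_comm]
    exact (h a (mem_insert_self _ _)).mul (ih fun b hb => h b (mem_insert_of_mem hb))

lemma Hm.pow (hx : Hm φ X z n x) (k : ℕ) : Hm φ X z (k * n) (x ^ k) := by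
  simpa using Hm.prod (range k) (f := fun _ => x) fun _ _ => hx

lemma Hm.inv (hx : Hm φ X z n x) (hu : IsUnit x) : Hm φ X z (-n) (Ring.inverse x) := by
  have e := Ring.mul_inverse_cancel x hu
  generalize Ring.inverse x = y at e ⊢
  unfold Hm at *
  have a := congrArg (fun t => φ y * t * φ y) hx
  simp only [mul_add, add_mul, ← mul_assoc, ← map_mul, mul_comm y x, e, map_one, one_mul] at a
  rw [mul_assoc _ (φ x), ← map_mul, e, map_one, mul_one] at a
  rw [a, add_assoc, ← map_add, left_eq_add, ← map_zero φ]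
  congr 1
  push_cast
  linear_combination (n * z * y) * e

lemma Hm.nn {σ : Type} [Fintype σ] {ξ : L} {χ : σ → L} (hξ : Hm φ X z 1 ξ)
    (hχ : ∀ j, Hm φ X z 1 (χ j)) (hz : Hm φ X z 1 z) {d : ℕ} (hu : IsUnit (dn ξ χ z d)) (k : ℕ) :
    Hm φ X z (k - Fintype.card σ * d) (nn ξ χ z k d) := by
  have a := Hm.prod univ (n := d) fun j _ => by
    simpa using Hm.prod (range d) fun m _ => (hξ.add (hχ j)).sub (hz.nat (m + 1))
  simpa [sub_eq_add_neg, B.nn, dn] using ((hξ.sub (hz.nat d)).pow k).mul (a.inv hu)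

end hm

section act

variable {r : ℕ} (act : C →ₐ[K] Module.End K H) (c : Fin (r + 1) → C)

/-- The action of the cohomology of the projective bundle. -/
noncomputable def actD : DD c →ₐ[K] Module.End K (Fin (r + 1) → H) where
  __ := (actM act).comp (lm c)
  commutes' k := by
    change actM act (lm c (AdjoinRoot.of _ (algebraMap K C k))) = _
    rw [lm_of]
    exact ((units_dg act).hom_scalar _).trans (AlgHom.commutes _ k)

lemma actD_of (a : C) : actD act c (AdjoinRoot.of _ a) = dg _ (act a) :=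
  (congrArg (actM act) (lm_of c a)).trans ((units_dg act).hom_scalar _)

lemma actD_apply (x : DD c) (v : Fin (r + 1) → H) (k : Fin (r + 1)) : actD act c x v k =
    ∑ l : Fin (r + 1), act (cf c k (x * AdjoinRoot.root (fE c) ^ (l : ℕ))) (v l) :=
  actM_apply act (lm c x) v k

lemma actD_single (x : DD c) (v : H) (k : Fin (r + 1)) :
    actD act c x (Pi.single 0 v) k = act (cf c k x) v := by
  rw [actD_apply, sum_eq_single 0 (fun l _ hl => by simp [hl]) (by simp)]
  simp

lemma actD_root (v : Fin (r + 1) → H) (k : Fin (r + 1)) :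
    actD act c (AdjoinRoot.root _) v k = ∑ l : Fin (r + 1), act (xc c (l + 1) k) (v l) := by
  simp only [actD_apply, ← pow_succ', cf_pow]

lemma sum_actD : ∑ k : Fin (r + 1), actD act c (AdjoinRoot.root _ ^ (k : ℕ)) * EU K H 0 k = 1 := by
  refine LinearMap.ext fun v => funext fun l => ?_
  simp only [LinearMap.sum_apply, Finset.sum_apply, Module.End.mul_apply, EU_apply, actD_single,
    cf_pow, fun k : Fin (r + 1) => xc_of_le c (Nat.lt_succ_iff.1 k.2), Fin.val_inj]
  rw [sum_eq_single l (fun k _ hk => by simp [hk.symm]) (by simp)]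
  simp

lemma opL_mapL (x : LaurentPolynomial C) :
    opL (actD act c) (mapL (AdjoinRoot.of _) x) = opL ((dg _).comp act) x := by
  induction x using LaurentPolynomial.induction_on' with
  | add x y hx hy => simp only [map_add, hx, hy]
  | C_mul_T n b => simp [actD_of]

lemma comm_root {a : Module.End K H} (h : ∀ l, a * act (c l) = act (c l) * a) :
    dg _ a * actD act c (AdjoinRoot.root _) = actD act c (AdjoinRoot.root _) * dg _ a := by
  let R : Subring C := (Subring.centralizer {a}).comap act.toRingHom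
  have e : ∀ m k, a * act (xc c m k) = act (xc c m k) * a := fun m k => by
    have := (xc (fun l => (⟨c l, fun b hb => hb ▸ h l⟩ : R)) m k).2 a rfl
    rwa [← R.subtype_apply, map_xc] at this
  refine LinearMap.ext fun v => funext fun k => ?_
  simp only [Module.End.mul_apply, dg_apply, actD_root, map_sum]
  exact sum_congr rfl fun l _ => LinearMap.congr_fun (e _ _) _

/-- The term of degree `d`. -/
noncomputable abbrev nL (k d : ℕ) : LaurentPolynomial (DD c) :=
  nn (LaurentPolynomial.C (AdjoinRoot.root (fE c)))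
    (fun j => LaurentPolynomial.C (AdjoinRoot.of _ (c j))) (T 1) k d

/-- The truncated series. -/
noncomputable abbrev nLS (D : ℕ) (Q : C) (k : ℕ) : LaurentPolynomial (DD c) :=
  nS D (LaurentPolynomial.C (AdjoinRoot.of _ Q)) (LaurentPolynomial.C (AdjoinRoot.root (fE c)))
    (fun j => LaurentPolynomial.C (AdjoinRoot.of _ (c j))) (T 1) k

/-- The fundamental solution as an operator on the loop space. -/
noncomputable def S0 (D : ℕ) (Q : C) : Module.End K (LL (Fin (r + 1) → H)) :=
  ∑ k : Fin (r + 1), opL (actD act c) (nLS c D Q k) * cst (EU K H 0 k)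

lemma op_alg (q : K) :
    LaurentPolynomial.C (AdjoinRoot.of (fE c) (algebraMap K C q)) = algebraMap K _ q := rfl

lemma nil_S0 {D : ℕ} {q : K} (hq : q ^ (D + 1) = 0) :
    (1 - S0 act c D (algebraMap K C q)) ^ (D + 1) = 0 := by
  have e : 1 - S0 act c D (algebraMap K C q) = q • -∑ k : Fin (r + 1), opL (actD act c)
      (∑ d ∈ range D, algebraMap K _ q ^ d * nL c k (d + 1)) * cst (EU K H 0 k) := by
    have e1 := congrArg cst (sum_actD act c)
    simp only [map_sum, map_mul, map_one, ← opL_C, map_pow] at e1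
    rw [S0, smul_neg, smul_sum, ← e1, sub_eq_iff_eq_add, neg_add_eq_sub, ← sum_sub_distrib]
    refine sum_congr rfl fun k _ => ?_
    rw [← smul_mul_assoc, ← map_smul, ← sub_mul, ← map_sub, nLS, nS, sum_range_succ', op_alg,
      Algebra.smul_def, mul_sum]
    simp [pow_succ', mul_assoc]
  rw [e, smul_pow, hq, zero_smul]

lemma S0_zp (D : ℕ) (Q : C) (n : ℤ) : S0 act c D Q * zp K _ n = zp K _ n * S0 act c D Q := by
  refine (Commute.sum_left _ _ _ fun k _ => Commute.mul_left ?_ (cst_zp _ _)).eq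
  rw [← opL_T (actD act c)]
  exact (Commute.all _ _).map _

variable {c}

lemma S0_single [Algebra ℚ C] (hc : ∀ l, IsNilpotent (c l)) (D : ℕ) (Q : C) (m j : ℤ)
    (w : Fin (r + 1) → H) :
    S0 act c D Q (Finsupp.single m w) j = actM act (SM D Q c (m - j)) w := by
  have e : ∀ k, toH _ (nLS c D Q k) = nI D (AdjoinRoot.of _ Q) (AdjoinRoot.root (fE c))
      (fun j => AdjoinRoot.of _ (c j)) k := fun k => by
    simp only [nI, nS, map_sum, map_mul, map_pow, toH_C, toH_T,
      map_nn _ (isUnit_dnL (nil_root hc) (fun j => (hc j).map (AdjoinRoot.of _)) _)]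
  funext l
  simp only [S0, LinearMap.sum_apply, Finsupp.finsetSum_apply, Finset.sum_apply,
    Module.End.mul_apply, cst_single, opL_single, EU_apply, actD_single, e, actM_apply, SM_apply]

end act

variable [Algebra ℚ K] {p : Par K H} {ι : Type*} [Fintype ι] {fr : Frame p ι} {r : ℕ}
  {ac : Act fr C} {D : ℕ} {c : Fin (r + 1) → C} {ι' : Type*} [Fintype ι']
  {fT : Frame (p.pi (Fin (r + 1))) ι'} {u : Kˣ} {d : VD fr} {dE : VD fT}

lemma hm_C {a : DD c} (h1 : dE.μ * actD ac.act c a = actD ac.act c a * dE.μ + actD ac.act c a)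
    (h2 : dE.ρ * actD ac.act c a = actD ac.act c a * dE.ρ) :
    Hm (opL (actD ac.act c)) dE.D (T 1) 1 (LaurentPolynomial.C a) := by
  refine LL_ext fun i v => ?_
  have e1 := LinearMap.congr_fun h1 v
  have e2 := LinearMap.congr_fun h2 v
  simp only [Module.End.mul_apply, LinearMap.add_apply] at e1 e2
  simp only [Int.cast_one, one_mul, map_mul, opL_C, opL_T, Module.End.mul_apply, cst_single,
    VD.D_single, LinearMap.add_apply, map_add, map_smul, zp_single, e1, e2, Finsupp.single_add]
  abel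

lemma hm_T : Hm (opL (actD ac.act c)) dE.D (T 1) 1 (T 1) := by
  refine LL_ext fun i v => ?_
  simp only [Int.cast_one, one_mul, map_mul, opL_T, Module.End.mul_apply, VD.D_single,
    LinearMap.add_apply, map_add, zp_single, Finsupp.single_add, Int.cast_add, add_smul, one_smul]
  abel

section

variable (hE : IsE ac fT d c dE)
include hE

lemma ρ_eq : dE.ρ = dg _ d.ρ + actD ac.act c
    (AdjoinRoot.of _ (∑ l, c l) + ((r : K) + 1) • AdjoinRoot.root _) := by
  refine LinearMap.ext fun v => funext fun k => ?_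
  rw [hE.ρ, map_add, map_smul, actD_of]
  simp only [LinearMap.add_apply, Pi.add_apply, dg_apply, LinearMap.smul_apply, Pi.smul_apply,
    actD_root, add_assoc]

lemma μ_dg {a : Module.End K H} (h : d.μ * a = a * d.μ + a) :
    dE.μ * dg _ a = dg _ a * dE.μ + dg _ a := by
  refine LinearMap.ext fun v => funext fun k => ?_
  have := LinearMap.congr_fun h (v k)
  simp only [Module.End.mul_apply, LinearMap.add_apply] at this
  simp only [Module.End.mul_apply, LinearMap.add_apply, Pi.add_apply, hE.μ, dg_apply, this, map_add,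
    map_smul]
  abel

lemma hm_c (j : Fin (r + 1)) :
    Hm (opL (actD ac.act c)) dE.D (T 1) 1 (LaurentPolynomial.C (AdjoinRoot.of _ (c j))) := by
  refine hm_C (by rw [actD_of]; exact μ_dg hE (hE.μ_c j)) ?_
  rw [ρ_eq hE, add_mul, mul_add, ← map_mul, ← map_mul, mul_comm (AdjoinRoot.of _ _), actD_of,
    ← map_mul, ← map_mul, hE.ρ_c]

lemma hm_root :
    Hm (opL (actD ac.act c)) dE.D (T 1) 1 (LaurentPolynomial.C (AdjoinRoot.root _)) := by
  refine hm_C ((PFP.unit_succ ℚ K r).smul_left_cancel.1 ?_) ?_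
  · have e := dE.comm
    have e1 := μ_dg hE d.comm
    have e2 := μ_dg hE (a := ac.act (∑ l, c l)) (by
      simp only [map_sum, mul_sum, sum_mul, hE.μ_c, sum_add_distrib])
    rw [ρ_eq hE, map_add, map_smul, actD_of] at e
    simp only [mul_add, add_mul, mul_smul_comm, smul_mul_assoc, e1, e2] at e
    rw [smul_add]
    linear_combination (norm := abel) e
  · rw [ρ_eq hE, add_mul, mul_add, ← map_mul, ← map_mul, mul_comm (AdjoinRoot.root _),
      comm_root _ _ hE.ρ_c]

lemma D_EU (k : Fin (r + 1)) : dE.D * cst (EU K H 0 k) = cst (EU K H 0 k) * (vdPi _ d).D +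
    opL (actD ac.act c) (-(r * hf K) • T 1 + LaurentPolynomial.C
      (AdjoinRoot.of _ (∑ l, c l) + ((r : K) + 1) • AdjoinRoot.root _)) * cst (EU K H 0 k) := by
  refine LL_ext fun i v => ?_
  have e : ∀ w : H, dE.μ (Pi.single 0 w) =
      Pi.single 0 (d.μ w) + -(r * hf K) • Pi.single (M := fun _ => H) 0 w := by
    intro w
    funext l
    rw [hE.μ]
    by_cases h : l = 0
    · subst h; simp
    · simp [h]
  have e1 : (vdPi (Fin (r + 1)) d).μ = dg _ d.μ := rfl
  have e2 : (vdPi (Fin (r + 1)) d).ρ = dg _ d.ρ := rfl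
  rw [map_add, map_smul, opL_C, opL_T]
  simp only [Module.End.mul_apply, cst_single, VD.D_single, LinearMap.add_apply,
    map_add (cst _), EU_apply, e, ρ_eq hE, dg_single, e1, e2, LinearMap.smul_apply, zp_single,
    Finsupp.single_add, Pi.smul_apply, dg_apply, Pi.single_smul,
    Finsupp.smul_single]
  abel

theorem D_S0 {q : K} (hq : q ^ (D + 1) = 0) (hc : ∀ l, IsNilpotent (c l)) :
    dE.D * S0 ac.act c D (algebraMap K C q) =
      S0 ac.act c D (algebraMap K C q) * Dt ac (algebraMap K C q) d c := by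
  let _ : Algebra ℚ C := ((algebraMap K C).comp (algebraMap ℚ K)).toAlgebra
  have hu := isUnit_dnL (nil_root hc) (fun j => (hc j).map (AdjoinRoot.of (fE c)))
  have hp : ∏ j, (LaurentPolynomial.C (AdjoinRoot.root (fE c)) +
      LaurentPolynomial.C (AdjoinRoot.of _ (c j))) = 0 := by
    simpa only [map_prod, map_add, map_zero] using congrArg LaurentPolynomial.C (prod_root c)
  have hQ : LaurentPolynomial.C (AdjoinRoot.of (fE c) (algebraMap K C q)) ^ (D + 1) = 0 := by
    rw [op_alg, ← map_pow, hq, map_zero]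
  have h1 : ∀ k : ℕ, dE.D * opL (actD ac.act c) (nLS c D (algebraMap K C q) k) =
      opL (actD ac.act c) (nLS c D (algebraMap K C q) k) * dE.D + opL (actD ac.act c)
        ((k : LaurentPolynomial (DD c)) * T 1 * nLS c D (algebraMap K C q) k +
          (r + 1 : LaurentPolynomial (DD c)) * (nLS c D (algebraMap K C q) (k + 1) -
            LaurentPolynomial.C (AdjoinRoot.root _) * nLS c D (algebraMap K C q) k)) := fun k => by
    simp only [nS, mul_sum, ← sum_sub_distrib, ← sum_add_distrib, map_sum, sum_mul]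
    refine sum_congr rfl fun e _ => ?_
    rw [op_alg, ((Hm.alg q).pow e).mul (Hm.nn (hm_root hE) (hm_c hE) hm_T (hu e) k), nn_succ,
      Fintype.card_fin]
    congr 2
    push_cast
    ring
  have h2 : ∀ k : Fin (r + 1), ∑ l : Fin (r + 1), nLS c D (algebraMap K C q) l *
      mapL (AdjoinRoot.of _) (mainG K (algebraMap K C q) c l k) =
      nLS c D (algebraMap K C q) k * (-(r * hf K) • T 1 + LaurentPolynomial.C
        (AdjoinRoot.of _ (∑ l, c l) + ((r : K) + 1) • AdjoinRoot.root _)) +
      (((k : ℕ) : LaurentPolynomial (DD c)) * T 1 * nLS c D (algebraMap K C q) k +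
        (r + 1 : LaurentPolynomial (DD c)) * (nLS c D (algebraMap K C q) (k + 1) -
          LaurentPolynomial.C (AdjoinRoot.root _) * nLS c D (algebraMap K C q) k)) := fun k => by
    have e0 : ∀ a : K, mapL (AdjoinRoot.of (fE c)) (algebraMap K _ a) = algebraMap K _ a :=
      fun a => by rw [LaurentPolynomial.algebraMap_apply, mapL_C, op_alg]
    have e1 : ∀ x y z : LaurentPolynomial (DD c), x * ((z + 1) * y) = (z + 1) * (y * x) :=
      fun x y z => by ring
    simp only [nLS]
    rw [nS_succ hQ hp hu k]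
    simp only [mainG, Matrix.of_apply, map_add, apply_ite (mapL _), e0, e1, mapL_C, mapL_T,
      map_zero, map_sub, map_mul, map_natCast, map_one, ← map_xc, mul_add, sum_add_distrib, mul_ite,
      mul_zero, sum_ite_eq', mem_univ, if_true, Fin.val_eq_zero_iff, ite_and, Algebra.smul_def,
      map_neg, mul_sub, mul_sum, Fin.val_zero]
    split_ifs <;> ring
  have h3 : ∀ (l i k : Fin (r + 1)) (x : LaurentPolynomial (DD c)) (y : LaurentPolynomial C),
      opL (actD ac.act c) x * cst (EU K H 0 l) * (cst (EU K H i k) * opL ((dg _).comp ac.act) y) =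
      if l = i then opL (actD ac.act c) (x * mapL (AdjoinRoot.of _) y) * cst (EU K H 0 k)
        else 0 := fun l i k x y => by
    rw [mul_assoc, ← mul_assoc (cst _), ← map_mul, EU_mul]
    split_ifs
    · rw [map_mul, opL_mapL, mul_assoc]
      exact congrArg _ ((units_opL ac.act).comm 0 k y).symm
    · simp
  rw [Dt, mul_add, opM_apply, S0, sum_mul, sum_mul, mul_sum]
  simp only [mul_sum, h3, sum_comm (γ := Fin (r + 1)) (f := fun i k => ite (_ = i) _ _),
    sum_ite_eq, mem_univ, if_true]
  rw [sum_comm, ← sum_add_distrib]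
  refine sum_congr rfl fun k _ => ?_
  rw [← sum_mul, ← map_sum, h2, ← mul_assoc, h1, add_mul, mul_assoc, D_EU hE,
    map_add _ (nLS c D _ _ * _), map_mul, mul_add, add_mul (_ * _) _ (cst _), add_assoc]
  simp only [mul_assoc]

end

variable {q : K} (hq : q ^ (D + 1) = 0) (hc : ∀ l, IsNilpotent (c l)) (hT : IsT ac c fT u)
include hq hc hT

/-- The fundamental solution and its inverse. -/
theorem exists_S : ∃ S S' : Module.End K (LL (Fin (r + 1) → H)),
    S * S' = 1 ∧ S' * S = 1 ∧ IsEv ((p.pi _).fs ℤ) ((p.pi _).fs ℤ) S ∧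
    IsEv ((p.pi _).fs ℤ) ((p.pi _).fs ℤ) S' ∧ Up 0 S ∧ Up 0 S' ∧
    (∀ y, sI ac D (algebraMap K C q) c fT y = (pos K _ (S y), fT.neg (S y))) ∧
    (∀ x y, fT.Ω (S x) (S y) = fT.Ω x y) ∧ ∀ {d : VD fr} {dE : VD fT}, IsE ac fT d c dE → ∀ m,
      dE.ell m * S = S * (zp K _ (-1) * Dt ac (algebraMap K C q) d c ^ m) := by
  let _ : Algebra ℚ C := ((algebraMap K C).comp (algebraMap ℚ K)).toAlgebra
  have hs := S0_single ac.act hc D (algebraMap K C q)
  have hn := nil_S0 ac.act c hq
  have hz := S0_zp ac.act c D (algebraMap K C q) (-1)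
  have hD := fun {d : VD fr} {dE : VD fT} (hE : IsE ac fT d c dE) => D_S0 hE hq hc
  generalize S0 ac.act c D (algebraMap K C q) = S at *
  have h1 : IsEv ((p.pi _).fs ℤ) ((p.pi _).fs ℤ) S := fun y => by
    induction y using Finsupp.induction_linear with
    | zero => simp
    | add a b ha hb => simp only [map_add, ha, hb]
    | single m v =>
      ext1 j
      rw [Par.fs_σ, Par.fs_σ_single, hs, hs, isEv_actM]
  have h2 : Up 0 S := fun i y hy j hj => by
    rw [← Finsupp.sum_single y, map_finsuppSum, Finsupp.sum, Finsupp.finsetSum_apply]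
    refine sum_eq_zero fun m hm => ?_
    have : ¬i < m := fun e => Finsupp.mem_support_iff.1 hm (hy m e)
    rw [hs, SM_neg _ _ _ (by omega), map_zero, LinearMap.zero_apply]
  have h3 : ∀ y, posI ac D (algebraMap K C q) c y = pos K _ (S y) := fun y => by
    induction y using Finsupp.induction_linear with
    | zero => simp
    | add a b ha hb => simp only [map_add, ha, hb]
    | single m v =>
      ext1 n
      rw [posI_single, pos_apply, hs, Finsupp.finsetSum_apply, sum_eq_single n
        (fun l _ hl => Finsupp.single_eq_of_ne hl.symm) fun hl => ?_, Finsupp.single_eq_same]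
      rw [SM_neg _ _ _ (by rw [mem_range] at hl; omega)]
      simp
  have h4 : ∀ y, negI ac D (algebraMap K C q) c fT y = fT.neg (S y) := fun y => by
    induction y using Finsupp.induction_linear with
    | zero => simp
    | add a b ha hb => simp only [map_add, ha, hb]
    | single m v =>
      refine Finsupp.lhom_ext fun n w => ?_
      rw [negI_single, Frame.neg_apply, up_single, Frame.Ω_single_right, hs, sg_nat]
      congr 6
      ring
  refine ⟨S, ∑ i ∈ range (D + 1), (1 - S) ^ i, ?_, ?_, h1,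
    IsEv.sum _ fun i _ => (IsEv.one.sub h1).pow i, h2,
    Up.sum _ fun i _ => by simpa using (Up.one.sub h2).pow i, fun y => by rw [sI_apply, h3, h4],
    fun x y => ?_, fun hE m => ?_⟩
  · simpa [hn] using mul_neg_geom_sum (1 - S) (D + 1)
  · simpa [hn] using geom_sum_mul_neg (1 - S) (D + 1)
  · rw [fT.Ω_split, ← h3, ← h3, ← h4, ← h4]
    exact omega_sI (by rw [← map_pow, hq, map_zero]) hT x y
  · rw [VD.ell, mul_assoc, ← mul_assoc S, hz, mul_assoc]
    exact congrArg _ (SemiconjBy.pow_right (hD hE).symm m).eq.symm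

end ES

open ES

variable {K : Type*} [CommRing K] [Algebra ℚ K] {H : Type*} [AddCommGroup H] [Module K H]
  {p : Par K H} {ι : Type*} [Fintype ι] {fr : Frame p ι} {C : Type*} [CommRing C] [Algebra K C]
  {r : ℕ} (ac : Act fr C) {D : ℕ} {Q : C} {χ : Fin (r + 1) → C}

section zero

variable {ac} {c : Fin (r + 1) → C} {ι' : Type*} [Fintype ι'] {fT : Frame (p.pi (Fin (r + 1))) ι'}
  {u : Kˣ} {d : VD fr} {dE : VD fT} {q : K} (hr : 0 < r)
  (hq : q ^ (D + 1) = 0) (hc : ∀ l, IsNilpotent (c l)) (hT : IsT ac c fT u)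
  (hE : IsE ac fT d c dE)
include hr hq hc hT hE

theorem quad_Dt (m : ℕ) : fT.Quad (zp K _ (-1) * Dt ac (algebraMap K C q) d c ^ m) := by
  have _ := hr
  obtain ⟨S, S', -, i2, e1, e2, u1, u2, -, hΩ, hc⟩ := exists_S hq hc hT
  have e := hc hE m
  generalize zp K _ (-1) * Dt ac (algebraMap K C q) d c ^ m = A at e ⊢
  have e' : A = S' * (dE.ell m * S) := by rw [e, ← mul_assoc, i2, one_mul]
  refine Frame.Quad.of_up (e' ▸ e2.mul ((dE.quad_ell m).ev.mul e1)) (fun x y => ?_)
    (e' ▸ u2.mul ((dE.up_ell m).mul u1))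
  rw [← hΩ, ← hΩ x, ← Module.End.mul_apply, ← e, Module.End.mul_apply, (dE.quad_ell m).adj,
    LinearMap.neg_apply, LinearMap.neg_apply, map_neg S, ← Module.End.mul_apply, e,
    Module.End.mul_apply]

theorem endgame {G : Module.End K (S ((p.pi (Fin (r + 1))).fs ℕ))}
    (hG : IsGS ac D (algebraMap K C q) c fT G) {M : Type*} [AddCommGroup M] [Module K M]
    {Z : S ((p.pi (Fin (r + 1))).fs ℕ) →ₗ[K] M}
    (h : ∀ m x, Z (G ((fT.qz (zp K _ (-1)) *
        fT.qz (zp K _ (-1) * Dt ac (algebraMap K C q) d c ^ (m + 1)) -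
      fT.qz (zp K _ (-1) * Dt ac (algebraMap K C q) d c ^ (m + 1)) * fT.qz (zp K _ (-1))) x)) = 0)
    (k : ℕ) : Z ∘ₗ dE.L k = 0 := by
  have hQ := quad_Dt hr hq hc hT hE
  obtain ⟨S, S', i1, i2, -, e2, -, u2, hs, hΩ, hc⟩ := exists_S hq hc hT
  have j1 : ∀ y, S (S' y) = y := LinearMap.congr_fun i1
  have hG' : Itw fT.h fT.h S G := fun y => by rw [hG.2 y, hs, fT.h_eq]
  obtain ⟨G', g1, g2⟩ := fT.exists_itw (fT.ccr.comp e2 fun x y => by rw [← hΩ, j1, j1]) (Ω := 1)
    fun y hy => by
      have a : pos K _ (S' y) = 0 := Finsupp.ext fun n => u2 (-1) y (fun j hj => by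
        obtain ⟨j, rfl⟩ := Int.eq_ofNat_of_zero_le (show 0 ≤ j by omega)
        exact DFunLike.congr_fun hy j) n (by omega)
      have b := (vac_sI (D := D) (Q := algebraMap K C q) hr hT a).2
      rw [show negI ac D _ c fT (S' y) = _ from congrArg Prod.snd (hs (S' y)), j1] at b
      rw [LinearMap.comp_apply, fT.h_of_pos_eq_zero a, ← b]
      simp
  replace g2 : Itw fT.h fT.h S' G' := g2
  have hm : ∀ v, ∃ y, fT.h y = LinearMap.mulLeft K (Fock.ι _ v) := fun v => ⟨_, fT.h_up' v⟩
  have k1 : G ∘ₗ G' = LinearMap.id := Itw.ext hm (hG'.comp g2)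
    (by rw [← Module.End.mul_eq_comp, i1]; exact Itw.id) (by simp [g1, hG.1])
  have k2 : G' ∘ₗ G = LinearMap.id := Itw.ext hm (g2.comp hG')
    (by rw [← Module.End.mul_eq_comp, i2]; exact Itw.id) (by simp [g1, hG.1])
  refine dE.vir_iff.1 (fun m => ?_) k
  have e0 := hc hE 0
  have e1 := hc hE (m + 1)
  have e := hc hE m
  have q0 := hQ 0
  rw [pow_zero, mul_one] at e0 q0
  have a : Kill fT.h (Z ∘ₗ G) _ := ⟨_, q0.isQ.lie (hQ (m + 1)).isQ, LinearMap.ext (h m)⟩
  generalize zp K _ (-1) * Dt ac (algebraMap K C q) d c ^ (m + 1) = A1 at *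
  generalize zp K _ (-1) * Dt ac (algebraMap K C q) d c ^ m = A at *
  have b : zp K _ (-1) * A1 - A1 * zp K _ (-1) = ((m : K) + 1) • A := by
    have b : S * (zp K _ (-1) * A1 - A1 * zp K _ (-1)) = S * ((m : K) + 1) • A := by
      rw [mul_smul_comm, ← e, ← smul_mul_assoc, ← dE.ell_lie, sub_mul, mul_assoc, mul_assoc, e0,
        e1, ← mul_assoc _ S, ← mul_assoc _ S, e0, e1, mul_sub S, mul_assoc, mul_assoc]
    simpa only [← mul_assoc, i2, one_mul] using congrArg (S' * ·) b
  obtain ⟨w, hw⟩ := (PFP.unit_succ ℚ K m).exists_left_inv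
  have a' := a.smul w
  rw [b, smul_smul, hw, one_smul] at a'
  have := a'.conj g2 (G' := G) (LinearMap.congr_fun k1) (LinearMap.congr_fun k2) (A' := dE.ell m)
    fun y => by
      conv_lhs => rw [← j1 y, ← Module.End.mul_apply (dE.ell m), e, Module.End.mul_apply]
      exact LinearMap.congr_fun i2 _
  rwa [LinearMap.comp_assoc, k1, LinearMap.comp_id] at this

end zero

end Vale.Agent.P269.B
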