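import Vale.Agent.P269.B.EDef
import Vale.Agent.P269.B.PF

/-! Unitarity of the expansion at infinity: the scalar part. -/

namespace Vale.Agent.P269.B

open Fock Finset

namespace ES

section ring

variable {B : Type*} [CommRing B]

lemma inv_eq {x y : B} (h : x * y = 1) : Ring.inverse x = y := by
  rw [← one_mul y, ← Ring.inverse_mul_cancel x (IsUnit.of_mul_eq_one y h), mul_assoc, h, mul_one]

lemma sum_pow_eq {D D' : ℕ} {Q : B} (h : Q ^ (D + 1) = 0) (h' : Q ^ (D' + 1) = 0) (f : ℕ → B) :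
    ∑ d ∈ range (D + 1), Q ^ d * f d = ∑ d ∈ range (D' + 1), Q ^ d * f d := by
  have k : ∀ D D' : ℕ, Q ^ (D + 1) = 0 → D ≤ D' →
      ∑ d ∈ range (D + 1), Q ^ d * f d = ∑ d ∈ range (D' + 1), Q ^ d * f d := fun D D' h e =>
    sum_subset (range_subset_range.2 (by omega)) fun d _ hd => by
      rw [pow_eq_zero_of_le (by simpa using hd) h, zero_mul]
  rcases le_total D D' with e | e
  · exact k _ _ h e
  · exact (k _ _ h' e).symm

lemma sum_mul_sum_pow {D : ℕ} {Q : B} (h : Q ^ (D + 1) = 0) (f g : ℕ → B) :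
    (∑ d ∈ range (D + 1), Q ^ d * f d) * ∑ d ∈ range (D + 1), Q ^ d * g d =
      ∑ d ∈ range (D + 1), Q ^ d * ∑ q ∈ antidiagonal d, f q.1 * g q.2 := by
  rw [sum_mul_sum, ← sum_product']
  simp only [mul_sum]
  rw [sum_sigma', ← sum_filter_of_ne (p := fun x : ℕ × ℕ => x.1 + x.2 < D + 1)]
  · refine sum_nbij' (fun x => ⟨x.1 + x.2, x⟩) (fun x => x.2) ?_ ?_ ?_ ?_ ?_
    · intro x hx
      simpa using (mem_filter.1 hx).2
    · rintro ⟨d, a, b⟩ hx
      simp only [mem_sigma, mem_range, mem_antidiagonal, mem_filter, mem_product] at hx ⊢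
      omega
    · intro x _
      rfl
    · rintro ⟨d, a, b⟩ hx
      simp only [mem_sigma, mem_antidiagonal] at hx
      rw [← hx.2]
    · intro x _
      rw [pow_add]
      ring
  · intro x _ hx
    by_contra e
    refine hx ?_
    rw [mul_mul_mul_comm, ← pow_add, pow_eq_zero_of_le (by omega) h, zero_mul]

variable {r : ℕ} (χ : Fin (r + 1) → B)

/-- The cohomology of the projective bundle. -/
abbrev DD : Type _ := AdjoinRoot (fE χ)

/-- The coefficients in the basis `ξ^k`. -/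
noncomputable def cf (k : ℕ) : AdjoinRoot (fE χ) →ₗ[B] B :=
  Polynomial.lcoeff B k ∘ₗ AdjoinRoot.modByMonicHom (monic_fE χ)

lemma cf_pow (k m : ℕ) : cf χ k (AdjoinRoot.root (fE χ) ^ m) = xc χ m k := by
  rw [← AdjoinRoot.mk_X, ← map_pow]
  rfl

lemma cf_of_mul (k : ℕ) (a : B) (x : AdjoinRoot (fE χ)) :
    cf χ k (AdjoinRoot.of _ a * x) = a * cf χ k x := by
  rw [← AdjoinRoot.algebraMap_eq, ← Algebra.smul_def, map_smul, smul_eq_mul]

lemma sum_cf (x : AdjoinRoot (fE χ)) :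
    ∑ k : Fin (r + 1), AdjoinRoot.of _ (cf χ k x) * AdjoinRoot.root (fE χ) ^ (k : ℕ) = x := by
  have hd : (fE χ).degree ≤ (r + 1 : ℕ) := by
    rcases subsingleton_or_nontrivial B with h | h
    · rw [Subsingleton.elim (fE χ) 0, Polynomial.degree_zero]
      exact bot_le
    · exact (PFP.degree_fE χ).le
  induction x using AdjoinRoot.induction_on with
  | ih f =>
    conv_rhs => rw [← AdjoinRoot.mk_leftInverse (monic_fE χ) (AdjoinRoot.mk _ f),
      AdjoinRoot.modByMonicHom_mk, ← Polynomial.sum_modByMonic_coeff (monic_fE χ) hd, map_sum]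
    refine sum_congr rfl fun k _ => ?_
    rw [← Polynomial.C_mul_X_pow_eq_monomial, map_mul, map_pow, AdjoinRoot.mk_X, AdjoinRoot.mk_C]
    rfl

lemma cf_sum (a : Fin (r + 1) → B) (l : Fin (r + 1)) :
    cf χ l (∑ k : Fin (r + 1), AdjoinRoot.of _ (a k) * AdjoinRoot.root (fE χ) ^ (k : ℕ)) = a l := by
  rw [map_sum, sum_eq_single l (fun k _ hk => ?_) (by simp)]
  · rw [cf_of_mul, cf_pow, xc_of_le χ (Nat.lt_succ_iff.1 l.2), if_pos rfl, mul_one]
  · rw [cf_of_mul, cf_pow, xc_of_le χ (Nat.lt_succ_iff.1 k.2), if_neg fun e => hk (Fin.ext e).symm,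
      mul_zero]

lemma cf_mul (m : ℕ) (x y : AdjoinRoot (fE χ)) : cf χ m (x * y) =
    ∑ k : Fin (r + 1), ∑ l : Fin (r + 1), xc χ (k + l) m * cf χ k x * cf χ l y := by
  conv_lhs => rw [← sum_cf χ x, ← sum_cf χ y, sum_mul_sum, map_sum]
  refine sum_congr rfl fun k _ => ?_
  rw [map_sum]
  refine sum_congr rfl fun l _ => ?_
  rw [mul_mul_mul_comm, ← map_mul, ← pow_add, cf_of_mul, cf_pow]
  ring

lemma eval₂_fE {B' : Type*} [CommRing B'] (ψ : B →+* B') (y : B') :
    (fE χ).eval₂ ψ y = ∏ j, (y + ψ (χ j)) := by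
  simp [fE, Polynomial.eval₂_finsetProd]

lemma prod_root : ∏ j, (AdjoinRoot.root (fE χ) + AdjoinRoot.of _ (χ j)) = 0 := by
  rw [← eval₂_fE, AdjoinRoot.eval₂_root]

/-- Change of coefficients. -/
noncomputable def mapD {B' : Type*} [CommRing B'] (ψ : B →+* B') :
    AdjoinRoot (fE χ) →+* AdjoinRoot (fE fun j => ψ (χ j)) :=
  AdjoinRoot.lift ((AdjoinRoot.of _).comp ψ) (AdjoinRoot.root _) (by
    rw [eval₂_fE]; exact prod_root fun j => ψ (χ j))

lemma cf_mapD {B' : Type*} [CommRing B'] (ψ : B →+* B') (k : Fin (r + 1)) (x : AdjoinRoot (fE χ)) :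
    cf (fun j => ψ (χ j)) k (mapD χ ψ x) = ψ (cf χ k x) := by
  conv_lhs => rw [← sum_cf χ x, map_sum]
  simp only [map_mul, map_pow, mapD, AdjoinRoot.lift_of, AdjoinRoot.lift_root, RingHom.comp_apply]
  exact cf_sum (fun j => ψ (χ j)) (fun k => ψ (cf χ k x)) k

lemma SM_apply (D : ℕ) (Q : B) (n : ℤ) (k' k : Fin (r + 1)) : SM D Q χ n k' k =
    cf χ k' ((nI D (AdjoinRoot.of _ Q) (AdjoinRoot.root (fE χ))
      (fun j => AdjoinRoot.of _ (χ j)) k).co n) := rfl

/-- The substitution `z ↦ -z`. -/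
noncomputable def fl (B : Type*) [CommRing B] : Hat B B →+* Hat B B where
  toFun x := ⟨fun n => sg B n * x.co n, x.bdd.imp fun _ h n hn => by simp [h n hn]⟩
  map_zero' := by ext; simp
  map_add' x y := by ext; simp [mul_add]
  map_one' := by
    ext n
    simp only [Hat.one_def, Hat.co_single]
    split_ifs with h <;> simp [h]
  map_mul' x y := by
    ext n
    refine (Hat.map_co_cv (AddMonoidHom.mulLeft (sg B n)) Hat.bi_mul x y n).trans
      (finsum_congr fun i => ?_)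
    have : sg B n = sg B i * sg B (n - i) := by rw [← sg_add, add_sub_cancel]
    simp only [AddMonoidHom.coe_mulLeft, this]
    ring

@[simp] lemma co_fl (x : Hat B B) (n : ℤ) : (fl B x).co n = sg B n * x.co n := rfl

lemma fl_single (n : ℤ) (a : B) : fl B (Hat.single B n a) = Hat.single B n (sg B n * a) := by
  ext m
  simp only [co_fl, Hat.co_single]
  split_ifs with h <;> simp [h]

lemma fl_C (a : B) : fl B (Hat.C B a) = Hat.C B a := by
  rw [Hat.C_apply, fl_single, sg_zero, one_mul]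

lemma fl_z : fl B (Hat.single B (-1) 1) = -Hat.single B (-1) 1 := by
  have e : sg B (-1) = -1 := by simpa using sg_nat (K := B) 1
  rw [fl_single, e, mul_one, map_neg]

lemma co_mul_nat {x y : Hat B B} (hx : x ∈ Hat.Lo B B 0) (hy : y ∈ Hat.Lo B B 0) (n : ℕ) :
    (x * y).co n = ∑ q ∈ antidiagonal n, x.co q.1 * y.co q.2 := by
  rw [Hat.mul_def, Hat.co_cv _ hx hy, sub_zero]
  refine sum_nbij' (fun i => (i.toNat, n - i.toNat)) (fun z => (z.1 : ℤ)) ?_ ?_ ?_ ?_ ?_
  · intro i; simp only [mem_antidiagonal, mem_Icc]; omega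
  · rintro ⟨i, j⟩; simp only [mem_antidiagonal, mem_Icc]; omega
  · intro i; simp only [mem_Icc]; omega
  · rintro ⟨i, j⟩ hij
    obtain rfl := mem_antidiagonal.mp hij
    simp
  · intro i hi
    rw [mem_Icc] at hi
    congr 2 <;> simp only <;> omega

lemma co_C_mul (a : B) (x : Hat B B) (n : ℤ) : (Hat.C B a * x).co n = a * x.co n := by
  rw [Hat.C_apply, Hat.co_single_mul, sub_zero]

lemma co_z_mul (x : Hat B B) (n : ℤ) : (Hat.single B (-1) 1 * x).co n = x.co (n + 1) := by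
  rw [Hat.co_single_mul, one_mul, sub_neg_eq_add]

lemma prod_inv_Lo {α : Type*} (s : Finset α) {f : α → Hat B B} {n : ℤ}
    (h : ∀ a ∈ s, ∃ y ∈ Hat.Lo B B n, f a * y = 1) :
    ∃ y ∈ Hat.Lo B B (s.card * n), (∏ a ∈ s, f a) * y = 1 := by
  classical
  induction s using Finset.induction_on with
  | empty => exact ⟨1, by simpa using Hat.one_Lo, by simp⟩
  | insert a s ha ih =>
    obtain ⟨y, y1, y2⟩ := h a (mem_insert_self _ _)
    obtain ⟨w, w1, w2⟩ := ih fun b hb => h b (mem_insert_of_mem hb)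
    refine ⟨y * w, Hat.Lo_mono (by rw [card_insert_of_notMem ha]; push_cast; linarith)
      (Hat.mul_Lo y1 w1), ?_⟩
    rw [prod_insert ha, mul_mul_mul_comm, y2, w2, one_mul]

variable [Algebra ℚ B]

lemma fac_inv (a : B) (m : ℕ) : ∃ y ∈ Hat.Lo B B 1,
    (Hat.C B a - ((m : Hat B B) + 1) * Hat.single B (-1) 1) * y = 1 := by
  obtain ⟨u, hu⟩ := (PFP.unit_succ ℚ B m).exists_right_inv
  have e : (Hat.C B a - ((m : Hat B B) + 1) * Hat.single B (-1) 1) * Hat.single B 1 (-u) - 1 =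
      Hat.single B 1 (-(a * u)) := by
    have : ((m : Hat B B) + 1) = Hat.C B ((m : B) + 1) := by simp
    rw [this, sub_mul, Hat.C_apply, Hat.C_apply, Hat.single_mul, Hat.single_mul, Hat.single_mul,
      mul_one, mul_neg, mul_neg, hu, map_neg, map_neg, Hat.one_def]
    simp
  obtain ⟨y, y1, -, y2, -⟩ := Hat.exists_inv (x := (Hat.C B a - ((m : Hat B B) + 1) *
    Hat.single B (-1) 1) * Hat.single B 1 (-u)) (e ▸ Hat.single_Lo _ _) ⊤ fun _ => trivial
  refine ⟨Hat.single B 1 (-u) * y, ?_, by rw [← mul_assoc, y1]⟩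
  simpa using Hat.mul_Lo (Hat.single_Lo 1 (-u))
    (add_mem (Hat.Lo_mono zero_le_one y2) Hat.one_Lo)

lemma dn_inv {σ : Type} [Fintype σ] (ξ : B) (χ : σ → B) (d : ℕ) :
    ∃ y ∈ Hat.Lo B B (Fintype.card σ * d),
      dn (Hat.C B ξ) (fun j => Hat.C B (χ j)) (Hat.single B (-1) 1) d * y = 1 :=
  prod_inv_Lo univ fun j _ => by
    simpa using prod_inv_Lo (range d) (n := 1) fun m _ => fac_inv (ξ + χ j) m

lemma nn_Lo {σ : Type} [Fintype σ] (ξ : B) (χ : σ → B) (k d : ℕ) :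
    nn (Hat.C B ξ) (fun j => Hat.C B (χ j)) (Hat.single B (-1) 1) k d ∈
      Hat.Lo B B (Fintype.card σ * d - k) := by
  obtain ⟨y, y1, y2⟩ := dn_inv ξ χ d
  have : Hat.C B ξ - (d : Hat B B) * Hat.single B (-1) 1 ∈ Hat.Lo B B (-1) := by
    refine sub_mem (Hat.Lo_mono (by simp) (Hat.single_Lo 0 ξ)) ?_
    rw [← nsmul_eq_mul]
    exact nsmul_mem (Hat.single_Lo _ _) _
  rw [nn, inv_eq y2]
  exact Hat.Lo_mono (by linarith) (Hat.mul_Lo (Hat.pow_Lo this k) y1)

lemma nn_Lo_one (ξ : B) (χ : Fin (r + 1) → B) {k : ℕ} (hk : k ≤ r) (d : ℕ) :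
    nn (Hat.C B ξ) (fun j => Hat.C B (χ j)) (Hat.single B (-1) 1) k (d + 1) ∈ Hat.Lo B B 1 := by
  refine Hat.Lo_mono ?_ (nn_Lo ξ χ k (d + 1))
  rw [Fintype.card_fin]
  push_cast
  nlinarith

lemma nn_Lo_zero (ξ : B) (χ : Fin (r + 1) → B) {k : ℕ} (hk : k ≤ r) (d : ℕ) :
    nn (Hat.C B ξ) (fun j => Hat.C B (χ j)) (Hat.single B (-1) 1) k d ∈ Hat.Lo B B 0 := by
  rcases d with _ | d
  · rw [nn_zero, ← map_pow]
    exact Hat.single_Lo _ _
  · exact Hat.Lo_mono zero_le_one (nn_Lo_one ξ χ hk d)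

omit [Algebra ℚ B] in
lemma co_nI {σ : Type} [Fintype σ] (D : ℕ) (Q ξ : B) (χ : σ → B) (k : ℕ) (n : ℤ) :
    (nI D Q ξ χ k).co n = ∑ d ∈ range (D + 1),
      Q ^ d * (nn (Hat.C B ξ) (fun j => Hat.C B (χ j)) (Hat.single B (-1) 1) k d).co n := by
  rw [nI, nS, Hat.co_sum]
  exact sum_congr rfl fun d _ => by rw [← map_pow, co_C_mul]

lemma nI_Lo (D : ℕ) (Q ξ : B) (χ : Fin (r + 1) → B) {k : ℕ} (hk : k ≤ r) :
    nI D Q ξ χ k ∈ Hat.Lo B B 0 := fun n hn => by
  rw [co_nI]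
  exact sum_eq_zero fun d _ => by rw [nn_Lo_zero ξ χ hk d n hn, mul_zero]

end ring

/-- The combinatorial core of unitarity. -/
lemma vanish {A : Type*} [CommRing A] [Algebra ℚ A] {r : ℕ} {w : ℕ → ℕ → ℕ → ℤ → A}
    {x : Fin (r + 1) → A} (h0 : ∀ d k l a, k ≤ r → l ≤ r → a < 0 → w d k l a = 0)
    (h1 : ∀ d k l a, w d (k + 1) l a - w d k (l + 1) a = d * w d k l (a + 1))
    (h2 : ∀ d k a, w (d + 1) k (r + 1) a = ∑ l : Fin (r + 1), x l * w (d + 1) k l a + w d k 0 a)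
    (h3 : ∀ d l a, w (d + 1) (r + 1) l a = ∑ k : Fin (r + 1), x k * w (d + 1) k l a + w d 0 l a)
    (h4 : ∀ k l a, k ≤ r → l ≤ r →
      (if k = r then w 0 0 l a else 0) = if l = r then w 0 k 0 a else 0)
    (d k l : ℕ) (a : ℤ) (hk : k ≤ r) (hl : l ≤ r) : w (d + 1) k l a = 0 := by
  have key : ∀ d, (∀ k l a, k ≤ r → l ≤ r →
      (if k = r then w d 0 l a else 0) = if l = r then w d k 0 a else 0) →
      ∀ k l a, k ≤ r → l ≤ r → w (d + 1) k l a = 0 := by
    intro d H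
    have : ∀ (n : ℕ) (k l : ℕ) (a : ℤ), k ≤ r → l ≤ r → a < n → w (d + 1) k l a = 0 := by
      intro n
      induction n with
      | zero => exact fun k l a hk hl ha => h0 _ k l a hk hl (by simpa using ha)
      | succ n ih =>
        intro k l a hk hl ha
        have ha' : a - 1 < n := by push_cast at ha; omega
        have e1 : w (d + 1) (k + 1) l (a - 1) = if k = r then w d 0 l (a - 1) else 0 := by
          split_ifs with e
          · rw [e, h3, sum_eq_zero fun k _ => by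
              rw [ih k l _ (Nat.lt_succ_iff.1 k.2) hl ha', mul_zero], zero_add]
          · exact ih _ _ _ (by omega) hl ha'
        have e2 : w (d + 1) k (l + 1) (a - 1) = if l = r then w d k 0 (a - 1) else 0 := by
          split_ifs with e
          · rw [e, h2, sum_eq_zero fun l _ => by
              rw [ih k l _ hk (Nat.lt_succ_iff.1 l.2) ha', mul_zero], zero_add]
          · exact ih _ _ _ hk (by omega) ha'
        have e := h1 (d + 1) k l (a - 1)
        rw [e1, e2, H k l _ hk hl, sub_self, sub_add_cancel, Nat.cast_add_one] at e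
        exact (PFP.unit_succ ℚ A d).mul_right_eq_zero.1 e.symm
    exact fun k l a hk hl => this (a.toNat + 1) k l a hk hl (by push_cast; omega)
  induction d generalizing k l a with
  | zero => exact key 0 h4 k l a hk hl
  | succ d ih =>
    refine key (d + 1) (fun k l a hk hl => ?_) k l a hk hl
    rw [ih 0 l a r.zero_le hl, ih k 0 a hk r.zero_le, ite_self, ite_self]

end ES

open ES

section scalar

variable {A : Type*} [CommRing A] [Algebra ℚ A] {r : ℕ}

omit [Algebra ℚ A] in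
lemma nS_eq {σ : Type} [Fintype σ] {D D' : ℕ} {Q : A} (h : Q ^ (D + 1) = 0) (h' : Q ^ (D' + 1) = 0)
    (ξ : A) (χ : σ → A) (z : A) (k : ℕ) : nS D Q ξ χ z k = nS D' Q ξ χ z k :=
  sum_pow_eq h h' _

lemma isUnit_dn_inf {σ : Type} [Fintype σ] (ξ : A) (χ : σ → A) (d : ℕ) :
    IsUnit (dn (Hat.C A ξ) (fun j => Hat.C A (χ j)) (Hat.single A (-1) 1) d) := by
  obtain ⟨y, -, h⟩ := dn_inv ξ χ d
  exact IsUnit.of_mul_eq_one y h

lemma map_nI {A' : Type*} [CommRing A'] {σ : Type} [Fintype σ] (ψ : A →+* A') (D : ℕ) (Q ξ : A)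
    (χ : σ → A) (k : ℕ) :
    Hat.mapR ψ (nI D Q ξ χ k) = nI D (ψ Q) (ψ ξ) (fun j => ψ (χ j)) k := by
  simp only [nI, nS, map_sum, map_mul, map_pow, map_nn _ (isUnit_dn_inf ξ χ _)]
  simp only [Hat.C_apply, Hat.mapR_single, map_one]

variable (D : ℕ) (Q : A) (χ : Fin (r + 1) → A)

lemma SM_neg {n : ℤ} (h : n < 0) : SM D Q χ n = 0 := by
  ext k' k
  rw [SM_apply, nI_Lo _ _ _ _ (Nat.lt_succ_iff.1 k.2) n h, map_zero, Matrix.zero_apply]

lemma SM_zero : SM D Q χ 0 = 1 := by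
  ext k' k
  have hk := Nat.lt_succ_iff.1 k.2
  rw [SM_apply, co_nI, sum_range_succ', sum_eq_zero fun d _ => by
    rw [nn_Lo_one _ _ hk d 0 zero_lt_one, mul_zero], zero_add, pow_zero, one_mul, nn_zero,
    ← map_pow, Hat.C_apply, Hat.co_single_same, cf_pow, xc_of_le χ hk, Matrix.one_apply]
  simp only [Fin.val_inj]

/-- Restriction to a fixed component. -/
lemma SM_loc (n : ℤ) (i k : Fin (r + 1)) :
    ∑ k' : Fin (r + 1), (-χ i) ^ (k' : ℕ) * SM D Q χ n k' k = (nI D Q (-χ i) χ k).co n := by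
  let e : AdjoinRoot (fE χ) →+* A := AdjoinRoot.lift (RingHom.id A) (-χ i) (by
    rw [eval₂_fE]; exact prod_eq_zero (mem_univ i) (by simp))
  have e1 : ∀ a, e (AdjoinRoot.of _ a) = a := fun a => AdjoinRoot.lift_of _
  have e2 : e (AdjoinRoot.root _) = -χ i := AdjoinRoot.lift_root _
  have a := congrArg (·.co n) (map_nI e D (AdjoinRoot.of _ Q) (AdjoinRoot.root _)
    (fun j => AdjoinRoot.of _ (χ j)) k)
  simp only [e1, e2, Hat.co_mapR] at a
  rw [← a, ← sum_cf χ (Hat.co _ n), map_sum]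
  exact sum_congr rfl fun l _ => by rw [map_mul, map_pow, e1, e2, mul_comm, SM_apply]

lemma SM_map {A' : Type*} [CommRing A'] (ψ : A →+* A') {D' : ℕ} (h : Q ^ (D + 1) = 0)
    (h' : ψ Q ^ (D' + 1) = 0) (n : ℤ) :
    (SM D Q χ n).map ψ = SM D' (ψ Q) (fun j => ψ (χ j)) n := by
  ext k' k
  have e1 : ∀ a, mapD χ ψ (AdjoinRoot.of _ a) = AdjoinRoot.of _ (ψ a) := fun a =>
    AdjoinRoot.lift_of _
  have e2 : mapD χ ψ (AdjoinRoot.root _) = AdjoinRoot.root _ := AdjoinRoot.lift_root _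
  have a := congrArg (·.co n) (map_nI (mapD χ ψ) D (AdjoinRoot.of _ Q) (AdjoinRoot.root _)
    (fun j => AdjoinRoot.of _ (χ j)) k)
  simp only [e1, e2, Hat.co_mapR] at a
  rw [Matrix.map_apply, SM_apply, SM_apply, ← cf_mapD, a, nI, nI, nS_eq (D' := D')]
  · rw [← map_pow, ← map_pow, ← map_pow, h, map_zero, map_zero, map_zero]
  · rw [← map_pow, ← map_pow, h', map_zero, map_zero]

lemma SM_one (hr : 0 < r) (k : Fin (r + 1)) :
    ∑ k' : Fin (r + 1), xc χ k' r * SM D Q χ 1 k' k = 0 := by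
  have hk := Nat.lt_succ_iff.1 k.2
  rw [sum_eq_single (Fin.last r) (fun l _ hl => ?_) (by simp)]
  swap
  · rw [xc_of_le χ (Nat.lt_succ_iff.1 l.2), if_neg fun e => hl (Fin.ext e.symm), zero_mul]
  rw [SM_apply, co_nI, map_sum, sum_eq_zero fun d _ => ?_, mul_zero]
  rw [← map_pow, cf_of_mul]
  refine mul_eq_zero_of_right _ ?_
  rcases d with _ | d
  · rw [nn_zero, ← map_pow, Hat.C_apply, Hat.co_single, if_neg one_ne_zero, map_zero]
  by_cases e : d = 0 ∧ (k : ℕ) = r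
  · obtain ⟨rfl, e⟩ := e
    have a := congrArg (·.co 0) (nn_top (isUnit_dn_inf (AdjoinRoot.root (fE χ))
      (fun j => AdjoinRoot.of _ (χ j)) (0 + 1)))
    simp only [nn_succ _ _ _ r, ← map_xc, Hat.co_add, Hat.co_sum, co_C_mul, sub_mul, Hat.co_sub,
      zero_add, Nat.cast_one, one_mul, co_z_mul, nn_zero, pow_zero] at a
    rw [Hat.one_def, Hat.co_single_same] at a
    have b := fun (l : ℕ) (hl : l ≤ r) => nn_Lo_one (AdjoinRoot.root (fE χ))
      (fun j => AdjoinRoot.of _ (χ j)) hl 0 0 zero_lt_one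
    rw [zero_add] at b
    rw [b r le_rfl, sum_eq_zero fun l _ => by rw [b l (Nat.lt_succ_iff.1 l.2), mul_zero], mul_zero,
      zero_sub, zero_add, neg_eq_iff_eq_neg] at a
    rw [e, zero_add, a, map_neg, ← pow_zero (AdjoinRoot.root (fE χ)), cf_pow,
      xc_of_le χ r.zero_le, if_neg (by simpa using hr.ne'), neg_zero]
  · rw [nn_Lo _ _ k (d + 1) 1 ?_, map_zero]
    rw [Fintype.card_fin]
    push_cast
    rcases Nat.eq_zero_or_pos d with rfl | hd
    · have : (k : ℕ) ≠ r := fun f => e ⟨rfl, f⟩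
      omega
    · nlinarith

/-- Unitarity. -/
theorem SM_unit (h : Q ^ (D + 1) = 0) (n : ℕ) (k l : Fin (r + 1)) :
    ∑ q ∈ antidiagonal n, (-1) ^ q.1 * ∑ k' : Fin (r + 1), ∑ l' : Fin (r + 1),
      xc χ (k' + l') r * SM D Q χ q.1 k' k * SM D Q χ q.2 l' l =
      if n = 0 then xc χ (k + l) r else 0 := by
  let ξ : DD χ := AdjoinRoot.root (fE χ)
  let c : Fin (r + 1) → DD χ := fun j => AdjoinRoot.of _ (χ j)
  let N : ℕ → ℕ → Hat (DD χ) (DD χ) :=
    nn (Hat.C (DD χ) ξ) (fun j => Hat.C (DD χ) (c j)) (Hat.single (DD χ) (-1) 1)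
  let N' : ℕ → ℕ → Hat (DD χ) (DD χ) :=
    nn (Hat.C (DD χ) ξ) (fun j => Hat.C (DD χ) (c j)) (-Hat.single (DD χ) (-1) 1)
  have hu := isUnit_dn_inf ξ c
  have hf : ∀ k d, fl (DD χ) (N k d) = N' k d := fun k d => by
    simp only [N, N', map_nn _ (hu d), fl_C, fl_z]
  have hu' : ∀ d, IsUnit (dn (Hat.C (DD χ) ξ) (fun j => Hat.C (DD χ) (c j))
      (-Hat.single (DD χ) (-1) 1) d) := fun d => by
    simpa only [map_dn, fl_C, fl_z] using (hu d).map (fl (DD χ))
  have hL : ∀ k ≤ r, ∀ d, N k d ∈ Hat.Lo (DD χ) (DD χ) 0 := fun k hk d => nn_Lo_zero ξ c hk d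
  have hL' : ∀ k ≤ r, ∀ d, N' k d ∈ Hat.Lo (DD χ) (DD χ) 0 := fun k hk d a ha => by
    rw [← hf, co_fl, hL k hk d a ha, mul_zero]
  have hp : ∏ j, (Hat.C (DD χ) ξ + Hat.C (DD χ) (c j)) = 0 := by
    simpa only [map_prod, map_add, map_zero] using congrArg (Hat.C (DD χ)) (prod_root χ)
  let x : Fin (r + 1) → Hat (DD χ) (DD χ) :=
    fun k => Hat.C (DD χ) (AdjoinRoot.of _ (xc χ (r + 1) k))
  have hx : ∀ k : Fin (r + 1), xc (fun j => Hat.C (DD χ) (c j)) (r + 1) k = x k := fun k => by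
    simp only [x, c, map_xc]
  let P : ℕ → ℕ → ℕ → Hat (DD χ) (DD χ) :=
    fun d k l => ∑ q ∈ antidiagonal d, N' k q.1 * N l q.2
  have P0 : ∀ k l, P 0 k l = Hat.C (DD χ) (ξ ^ (k + l)) := fun k l => by
    simp only [P, N, N', Finset.Nat.antidiagonal_zero, sum_singleton, nn_zero, pow_add, map_mul,
      map_pow]
  have P1 : ∀ d k l, P d (k + 1) l - P d k (l + 1) = Hat.C (DD χ) (AdjoinRoot.of _ (d : A)) *
      (Hat.single (DD χ) (-1) 1 * P d k l) := fun d k l => by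
    simp only [P, N, N', ← sum_sub_distrib, mul_sum, nn_succ, map_natCast]
    refine sum_congr rfl fun q hq => ?_
    rw [← mem_antidiagonal.1 hq]
    push_cast
    ring
  have P2 : ∀ d k, P (d + 1) k (r + 1) = ∑ l : Fin (r + 1), x l * P (d + 1) k l + P d k 0 := by
    intro d k
    simp only [P, N, Finset.Nat.sum_antidiagonal_succ', nn_top (hu _), nn_zero, mul_add, mul_sum,
      sum_add_distrib, hx]
    rw [pow_top hp (r + 1), mul_sum, add_assoc, sum_comm]
    simp only [hx, mul_left_comm (x _)]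
  have P3 : ∀ d l, P (d + 1) (r + 1) l = ∑ k : Fin (r + 1), x k * P (d + 1) k l + P d 0 l := by
    intro d l
    simp only [P, N', Finset.Nat.sum_antidiagonal_succ, nn_top (hu' _), nn_zero, mul_add, add_mul,
      mul_sum, sum_mul, sum_add_distrib, hx]
    rw [pow_top hp (r + 1), sum_mul, add_assoc, sum_comm]
    simp only [hx, mul_assoc]
  have W0 : ∀ k l a, cf χ r ((P 0 k l).co a) = if a = 0 then xc χ (k + l) r else 0 :=
    fun k l a => by rw [P0, Hat.C_apply, Hat.co_single, apply_ite (cf χ r), cf_pow, map_zero]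
  have V := vanish (r := r) (w := fun d k l a => cf χ r ((P d k l).co a))
    (x := fun k => xc χ (r + 1) k)
    (fun d k l a hk hl ha => by
      rw [(sum_mem fun q _ => Hat.mul_Lo (hL' k hk q.1) (hL l hl q.2) :
        P d k l ∈ Hat.Lo (DD χ) (DD χ) (0 + 0)) a (by simpa using ha), map_zero])
    (fun d k l a => by rw [← map_sub, ← Hat.co_sub, P1, co_C_mul, co_z_mul, cf_of_mul])
    (fun d k a => by simp only [P2, x, Hat.co_add, Hat.co_sum, co_C_mul, map_add, map_sum,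
      cf_of_mul])
    (fun d k a => by simp only [P3, x, Hat.co_add, Hat.co_sum, co_C_mul, map_add, map_sum,
      cf_of_mul])
    (fun k l a hk hl => by
      simp only [W0, zero_add, add_zero, xc_of_le χ hk, xc_of_le χ hl, eq_comm (a := r)]
      split_ifs <;> rfl)
  have hk := Nat.lt_succ_iff.1 k.2
  have hl := Nat.lt_succ_iff.1 l.2
  have e : fl (DD χ) (nI D (AdjoinRoot.of _ Q) ξ c k) * nI D (AdjoinRoot.of _ Q) ξ c l =
      ∑ d ∈ range (D + 1), Hat.C (DD χ) (AdjoinRoot.of _ Q) ^ d * P d k l := by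
    rw [← sum_mul_sum_pow (by rw [← map_pow, ← map_pow, h, map_zero, map_zero])]
    simp only [nI, nS, map_sum, map_mul, map_pow, fl_C, ← hf, N]
  have e1 := congrArg (fun y => cf χ r (y.co n)) e
  simp only [← map_pow, Hat.co_sum, co_C_mul, map_sum, cf_of_mul] at e1
  rw [sum_range_succ', sum_eq_zero fun d _ => by rw [V d k l n hk hl, mul_zero], zero_add,
    pow_zero, one_mul, W0, co_mul_nat (fun a ha => by rw [co_fl, nI_Lo _ _ _ _ hk a ha, mul_zero])
      (nI_Lo _ _ _ _ hl), map_sum] at e1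
  simp only [Nat.cast_eq_zero] at e1
  rw [← e1]
  refine sum_congr rfl fun q _ => ?_
  have : ((-1 : DD χ) ^ q.1) = AdjoinRoot.of _ ((-1) ^ q.1) := by simp
  rw [co_fl, sg_nat, mul_assoc, this, cf_of_mul, cf_mul]
  rfl

end scalar

end Vale.Agent.P269.B
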