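import Vale.Agent.P269.B.ESa

/-! The standard frame, the intertwiner of the expansion at infinity and its naturality. -/

namespace Vale.Agent.P269.B

open Fock Finset

variable {K : Type*} [CommRing K] [Algebra ℚ K] {H : Type*} [AddCommGroup H] [Module K H]
  {p : Par K H} {ι : Type*} [Fintype ι] {fr : Frame p ι} {C : Type*} [CommRing C] [Algebra K C]
  {r : ℕ} (ac : Act fr C) {D : ℕ} {Q : C} {χ : Fin (r + 1) → C}

namespace ES

/-- The Gram matrix. -/
noncomputable abbrev gm (χ : Fin (r + 1) → C) : Matrix (Fin (r + 1)) (Fin (r + 1)) C :=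
  Matrix.of fun k l : Fin (r + 1) => xc χ (k + l) r

lemma gm_transpose (χ : Fin (r + 1) → C) : (gm χ).transpose = gm χ := by
  ext k l
  simp [add_comm]

lemma gm_mul (χ : Fin (r + 1) → C) :
    gm χ * (Matrix.of fun k l : Fin (r + 1) => (fE χ).coeff (k + l + 1)) = 1 := by
  ext k l
  rw [Matrix.mul_apply, Matrix.one_apply]
  exact gram_inv χ k l

lemma sum_split {A : Type*} [AddCommMonoid A] (F : ℤ → A) (m m' : ℤ) (h0 : ∀ b < 0, F b = 0)
    (h1 : ∀ b, m + m' + 1 < b → F b = 0) :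
    ∑ n ∈ range (m' + 1).toNat, F (m' - n) + ∑ n ∈ range (m + 1).toNat, F (m' + n + 1) =
      ∑ q ∈ antidiagonal (m + m' + 1).toNat, F q.2 := by
  classical
  have e1 : ∑ n ∈ range (m' + 1).toNat, F (m' - n) = ∑ b ∈ Icc 0 m', F b := by
    refine sum_nbij' (fun n => m' - n) (fun b => (m' - b).toNat) ?_ ?_ ?_ ?_ fun _ _ => rfl <;>
      simp only [mem_range, mem_Icc] <;> omega
  have e2 : ∑ n ∈ range (m + 1).toNat, F (m' + n + 1) = ∑ b ∈ Icc (m' + 1) (m + m' + 1), F b := by
    refine sum_nbij' (fun n => m' + n + 1) (fun b => (b - m' - 1).toNat) ?_ ?_ ?_ ?_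
      fun _ _ => rfl <;> simp only [mem_range, mem_Icc] <;> omega
  have e3 : ∑ q ∈ antidiagonal (m + m' + 1).toNat, F q.2 =
      ∑ b ∈ Icc (0 : ℤ) (m + m' + 1).toNat, F b := by
    refine sum_nbij' (fun q => q.2) (fun b => ((m + m' + 1).toNat - b.toNat, b.toNat)) ?_ ?_ ?_ ?_
      fun _ _ => rfl <;> simp only [mem_antidiagonal, mem_Icc, Prod.ext_iff] <;> omega
  rw [e1, e2, e3, ← sum_union (by simp only [disjoint_left, mem_Icc]; omega), ← sum_filter_ne_zero,
    ← sum_filter_ne_zero (Icc 0 _)]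
  refine sum_congr (Finset.ext fun b => ?_) fun _ _ => rfl
  simp only [mem_filter, mem_union, mem_Icc]
  refine and_congr_left fun hb => ?_
  have a0 : ¬b < 0 := fun e => hb (h0 b e)
  have a1 : ¬m + m' + 1 < b := fun e => hb (h1 b e)
  omega

end ES

open ES

/-- The standard frame. -/
noncomputable def frT (χ : Fin (r + 1) → C) (u : Kˣ) :
    Frame (p.pi (Fin (r + 1))) (Fin (r + 1) × ι) :=
  { (fr.pi (Fin (r + 1))).tw
      (((u⁻¹ : Kˣ) : K) • actM ac.act (Matrix.of fun k l : Fin (r + 1) => xc χ (k + l) r))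
      ((u : K) • actM ac.act (Matrix.of fun k l : Fin (r + 1) => (fE χ).coeff (k + l + 1)))
      ((isEv_actM ac _).smul _)
      (fun v w => by
        simp only [LinearMap.smul_apply, map_smul, adj_actM, gm_transpose])
      ((isEv_actM ac _).smul _)
      (fun v => by
        rw [← Module.End.mul_apply, smul_mul_smul_comm, ← map_mul, gm_mul, map_one, Units.inv_mul,
          one_smul, Module.End.one_apply]) with
    one := Pi.single 0 fr.one
    hone := by rw [Par.pi_σ_single, fr.hone] }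

namespace ES

omit [Algebra ℚ K]

lemma pi_η_gm (χ : Fin (r + 1) → C) (v w : Fin (r + 1) → H) :
    (fr.pi _).η (actM ac.act (gm χ) v) w =
      ∑ k : Fin (r + 1), ∑ l : Fin (r + 1), fr.η (ac.act (xc χ (k + l) r) (v k)) (w l) := by
  rw [Frame.pi_η, sum_comm]
  simp only [actM_apply, map_sum, LinearMap.sum_apply, Matrix.of_apply, add_comm]

lemma frT_η (χ : Fin (r + 1) → C) (u : Kˣ) (v w : Fin (r + 1) → H) :
    (frT ac χ u).η v w = (u⁻¹ : Kˣ) * (fr.pi _).η (actM ac.act (gm χ) v) w := by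
  change (fr.pi _).η (((u⁻¹ : Kˣ) : K) • actM ac.act (gm χ) v) w = _
  rw [map_smul, LinearMap.smul_apply, smul_eq_mul]

end ES

omit [Algebra ℚ K] in
lemma isT_frT (χ : Fin (r + 1) → C) (u : Kˣ) : IsT ac χ (frT ac χ u) u :=
  ⟨fun v w => by rw [frT_η, pi_η_gm], rfl⟩

namespace ES

variable {ι' : Type*} [Fintype ι'] {fT : Frame (p.pi (Fin (r + 1))) ι'} {u : Kˣ} {ac}

omit [Algebra ℚ K] in
lemma η_actM (hT : IsT ac χ fT u) (M N : Matrix (Fin (r + 1)) (Fin (r + 1)) C)
    (v w : Fin (r + 1) → H) : fT.η (actM ac.act M v) (actM ac.act N w) =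
      (u⁻¹ : Kˣ) * (fr.pi _).η (actM ac.act (N.transpose * gm χ * M) v) w := by
  rw [hT.η, ← pi_η_gm, map_mul, map_mul, Module.End.mul_apply, Module.End.mul_apply,
    adj_actM ac N.transpose, Matrix.transpose_transpose]

lemma unit_mat [Algebra ℚ C] (hQ : Q ^ (D + 1) = 0) (n : ℕ) :
    ∑ q ∈ antidiagonal n, (-1 : ℤ) ^ q.1 • ((SM D Q χ q.2).transpose * gm χ * SM D Q χ q.1) =
      if n = 0 then gm χ else 0 := by
  ext l k
  have := SM_unit D Q χ hQ n k l
  rw [add_comm (k : ℕ)] at this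
  refine Eq.trans ?_ (this.trans (by split_ifs <;> rfl))
  rw [Matrix.sum_apply]
  refine sum_congr rfl fun q _ => ?_
  rw [Matrix.smul_apply, zsmul_eq_mul]
  simp only [Matrix.mul_apply, Matrix.transpose_apply, Matrix.of_apply, sum_mul, Int.cast_pow,
    Int.cast_neg, Int.cast_one]
  refine congrArg _ (sum_congr rfl fun k' _ => sum_congr rfl fun l' _ => ?_)
  rw [add_comm (l' : ℕ)]
  ring

lemma unit_op (hQ : Q ^ (D + 1) = 0) (hT : IsT ac χ fT u) (n : ℕ) (v w : Fin (r + 1) → H) :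
    ∑ q ∈ antidiagonal n, (-1) ^ q.1 *
      fT.η (actM ac.act (SM D Q χ q.1) v) (actM ac.act (SM D Q χ q.2) w) =
      if n = 0 then fT.η v w else 0 := by
  let _ : Algebra ℚ C := ((algebraMap K C).comp (algebraMap ℚ K)).toAlgebra
  have := congrArg (fun M => (u⁻¹ : Kˣ) * (fr.pi _).η (actM ac.act M v) w)
    (unit_mat (χ := χ) hQ n)
  simp only [map_sum, LinearMap.sum_apply, mul_sum, map_zsmul, LinearMap.smul_apply] at this
  rw [hT.η v w, ← pi_η_gm]
  refine Eq.trans (sum_congr rfl fun q _ => ?_) (this.trans ?_)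
  · rw [η_actM hT, zsmul_eq_mul]
    push_cast
    ring
  · split_ifs <;> simp

omit [Algebra ℚ K] in
lemma sI_apply (y : LL (Fin (r + 1) → H)) :
    sI ac D Q χ fT y = (posI ac D Q χ y, negI ac D Q χ fT y) := rfl

omit [Algebra ℚ K] in
lemma isEv_sI : IsEv ((p.pi _).fs ℤ) ((p.pi _).fs ℕ).dbl (sI ac D Q χ fT) := fun y => by
  induction y using Finsupp.induction_linear with
  | zero => simp
  | add a b ha hb => simp only [map_add, ha, hb]
  | single m v =>
    rw [Par.dbl_σ, Par.fs_σ_single]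
    refine Prod.ext ?_ (Finsupp.lhom_ext fun n w => ?_)
    · simp only [sI_apply, posI_single, map_sum, Par.fs_σ_single,
        isEv_actM ac _ v]
    · simp only [sI_apply, LinearMap.comp_apply, Par.fs_σ_single,
        negI_single, fT.η_σ, isEv_actM ac _ v]

lemma omega_sI (hQ : Q ^ (D + 1) = 0) (hT : IsT ac χ fT u) (x y : LL (Fin (r + 1) → H)) :
    negI ac D Q χ fT x (posI ac D Q χ y) -
      negI ac D Q χ fT y (((p.pi _).fs ℕ).σ (posI ac D Q χ x)) = fT.Ω x y := by
  let _ : Algebra ℚ C := ((algebraMap K C).comp (algebraMap ℚ K)).toAlgebra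
  induction x using Finsupp.induction_linear with
  | zero => simp
  | add a b ha hb => simp only [map_add, LinearMap.add_apply, ← ha, ← hb]; abel
  | single m v =>
  induction y using Finsupp.induction_linear with
  | zero => simp
  | add a b ha hb => simp only [map_add, LinearMap.add_apply, ← ha, ← hb]; abel
  | single m' w =>
  have := sum_split (fun b => sg K (m' - b) * fT.η (actM ac.act (SM D Q χ (m + m' + 1 - b)) v)
    (actM ac.act (SM D Q χ b) w)) m m' (fun b hb => by simp [SM_neg D Q χ hb])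
    fun b hb => by simp [SM_neg D Q χ (sub_neg.2 hb)]
  rw [posI_single, posI_single, map_sum, map_sum, map_sum, sub_eq_add_neg, ← sum_neg_distrib,
    Frame.Ω_single]
  refine Eq.trans (congrArg₂ _ (sum_congr rfl fun n _ => ?_) (sum_congr rfl fun n _ => ?_))
    (this.trans ?_)
  · rw [negI_single, sub_sub_cancel, sg_nat, show m + m' + 1 - (m' - n) = m + n + 1 by ring]
  · rw [Par.fs_σ_single, negI_single, fT.η_σ, ← fT.η_symm, show m' - (m' + n + 1) = -n - 1 by ring,
      sg_pred, sg_neg, sg_nat, show m + m' + 1 - (m' + n + 1) = m - n by ring, neg_mul]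
  · rcases lt_or_ge (m + m' + 1) 0 with h | h
    · rw [if_neg h.ne, Int.toNat_of_nonpos h.le, Finset.Nat.antidiagonal_zero, sum_singleton,
        SM_neg D Q χ (by simpa using h)]
      simp
    · obtain ⟨N, hN⟩ := Int.eq_ofNat_of_zero_le h
      have e := congrArg (sg K (m' + N) * ·) (unit_op hQ hT N v w)
      simp only [mul_sum] at e
      rw [hN, Int.toNat_natCast]
      refine Eq.trans (sum_congr rfl fun q hq => ?_) (e.trans ?_)
      · rw [← mem_antidiagonal.1 hq, ← mul_assoc, ← sg_nat, ← sg_neg q.1, ← sg_add, Nat.cast_add,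
          add_sub_cancel_right, sub_eq_add_neg, sg_add, sg_neg, ← sg_add]
        congr 2
        ring
      · simp only [Nat.cast_eq_zero]
        split_ifs with h <;> simp [h]

lemma vac_sI (hr : 0 < r) (hT : IsT ac χ fT u) {y : LL (Fin (r + 1) → H)} (hy : pos K _ y = 0) :
    posI ac D Q χ y = 0 ∧ negI ac D Q χ fT y fT.dil = fT.neg y fT.dil := by
  let _ : Algebra ℚ C := ((algebraMap K C).comp (algebraMap ℚ K)).toAlgebra
  obtain ⟨N, hN⟩ := Frame.sum_single_neg hy
  rw [← hN N le_rfl]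
  simp only [map_sum, LinearMap.sum_apply]
  refine ⟨sum_eq_zero fun m _ => ?_, sum_congr rfl fun m _ => ?_⟩
  · rw [posI_single, Int.toNat_of_nonpos (by omega), sum_range_zero]
  · generalize y (-(m : ℤ) - 1) = v
    rw [Frame.neg_single, Frame.dil, negI_single]
    rcases m with _ | _ | m
    · have e : ∀ k, ∑ l : Fin (r + 1), xc χ (l + (0 : Fin (r + 1))) r * SM D Q χ 1 l k = 0 :=
        SM_one D Q χ hr
      rw [show -((0 : ℕ) : ℤ) - 1 + (1 : ℕ) + 1 = 1 by simp, hT.η, hT.one, sum_comm,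
        sum_eq_single 0 (fun l _ hl => by simp [hl]) (by simp)]
      simp only [actM_apply, map_sum, LinearMap.sum_apply, ← Module.End.mul_apply, ← map_mul]
      rw [sum_comm, sum_eq_zero fun k _ => ?_]
      · simp
      · simpa only [map_sum, LinearMap.sum_apply, map_zero, LinearMap.zero_apply] using
          congrArg (fun x => fr.η (ac.act x (v k)) (Pi.single (M := fun _ => H) 0 fr.one 0)) (e k)
    · rw [show -((0 + 1 : ℕ) : ℤ) - 1 + (1 : ℕ) + 1 = 0 by simp, SM_zero]
      simp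
    · rw [SM_neg D Q χ (by push_cast; omega)]
      simp

end ES

theorem exists_GS (hr : 0 < r) (hQ : Q ^ (D + 1) = 0) {ι' : Type*} [Fintype ι']
    {fT : Frame (p.pi (Fin (r + 1))) ι'} {u : Kˣ} (hT : IsT ac χ fT u) :
    ∃ G, IsGS ac D Q χ fT G :=
  fT.exists_itw ((ccr_hD fT.σ_dil).comp isEv_sI (omega_sI hQ hT)) (Ω := 1) fun y hy => by
    obtain ⟨h1, h2⟩ := vac_sI (D := D) (Q := Q) hr hT hy
    rw [← h2]
    simp [hD_apply, hm_apply, sI, h1]

section nat

variable {K' : Type*} [CommRing K'] [Algebra ℚ K'] {H' : Type*} [AddCommGroup H'] [Module K' H']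
  {p' : Par K' H'} {fr' : Frame p' ι} {C' : Type*} [CommRing C'] [Algebra K' C'] {ac}
  {ac' : Act fr' C'} {φ : K →+* K'} {j : H →ₛₗ[φ] H'} {ψ : C →+* C'} (h : Mor ac ac' j ψ)
include h

omit [Algebra ℚ K] [Algebra ℚ K'] in
lemma Mor.cmp_frT {χ' : Fin (r + 1) → C'} (hχ : ∀ i, ψ (χ i) = χ' i) {u : Kˣ} {u' : K'ˣ}
    (hu : φ u = u') : (frT ac χ u).Cmp (frT ac' χ' u') (piS j _) 1 1 := by
  obtain rfl : χ' = fun i => ψ (χ i) := funext fun i => (hχ i).symm
  have hu' : φ (u⁻¹ : Kˣ) = (u'⁻¹ : K'ˣ) := by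
    rw [eq_comm, Units.inv_eq_of_mul_eq_one_right]
    rw [← hu, ← map_mul, Units.mul_inv, map_one]
  have hc := cmp_pi h.cmp (Fin (r + 1))
  have e1 : (gm χ).map ψ = gm fun i => ψ (χ i) := by
    ext k l
    exact map_xc ψ χ _ _
  have e2 : (Matrix.of fun k l : Fin (r + 1) => (fE χ).coeff (k + l + 1)).map ψ =
      Matrix.of fun k l : Fin (r + 1) => (fE fun i => ψ (χ i)).coeff (k + l + 1) := by
    ext k l
    simp [← Polynomial.coeff_map, fE, Polynomial.map_prod]
  refine ⟨hc.ev, fun v w => ?_, hc.e, fun a => ?_, (piS_single _ _).trans ?_ |>.symm⟩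
  · rw [frT_η, frT_η, ← e1, rl_actM h.act, hc.η, map_mul, hu', one_mul, one_mul]
  · change ((u' : K') • actM ac'.act _) ((fr'.pi _).f a) =
      (1 : K') • piS j _ (((u : K) • actM ac.act _) ((fr.pi _).f a))
    rw [hc.f, one_smul, one_smul, ← e2, ← hu]
    exact ((rl_actM h.act _).smul (u : K)) _
  · rw [← h.cmp.one]
    rfl

theorem Mor.gs {χ' : Fin (r + 1) → C'} (hχ : ∀ i, ψ (χ i) = χ' i) {u : Kˣ} {u' : K'ˣ}
    (hu : φ u = u') {D' : ℕ} {Q' : C'} (hQQ : ψ Q = Q') (hQ : Q ^ (D + 1) = 0)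
    (hQ' : Q' ^ (D' + 1) = 0) {G : Module.End K (S ((p.pi (Fin (r + 1))).fs ℕ))}
    {G' : Module.End K' (S ((p'.pi (Fin (r + 1))).fs ℕ))} (hG : IsGS ac D Q χ (frT ac χ u) G)
    (hG' : IsGS ac' D' Q' χ' (frT ac' χ' u') G') (x : S ((p.pi (Fin (r + 1))).fs ℕ)) :
    G' (bcS _ ((isEvS_pi h.cmp.ev _).fs ℕ) x) = bcS _ ((isEvS_pi h.cmp.ev _).fs ℕ) (G x) := by
  let _ : Algebra ℚ C := ((algebraMap K C).comp (algebraMap ℚ K)).toAlgebra
  have hc := h.cmp_frT hχ hu
  obtain rfl : χ' = fun i => ψ (χ i) := funext fun i => (hχ i).symm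
  subst hQQ
  have hS : ∀ n, Rl (piS j _) (actM ac.act (SM D Q χ n))
      (actM ac'.act (SM D' (ψ Q) (fun i => ψ (χ i)) n)) := fun n =>
    SM_map D Q χ ψ hQ hQ' n ▸ rl_actM h.act _
  have e1 : ∀ y, posI ac' D' (ψ Q) (fun i => ψ (χ i)) (fsS (piS j _) ℤ y) =
      fsS (piS j _) ℕ (posI ac D Q χ y) := fun y => by
    induction y using Finsupp.induction_linear with
    | zero => simp
    | add a b ha hb => simp only [map_add, ha, hb]
    | single m v => simp only [fsS_single, posI_single, map_sum, hS _ v]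
  have e2 : ∀ y w, negI ac' D' (ψ Q) (fun i => ψ (χ i)) (frT ac' (fun i => ψ (χ i)) u')
      (fsS (piS j _) ℤ y) (fsS (piS j _) ℕ w) = φ (negI ac D Q χ (frT ac χ u) y w) := fun y w => by
    induction y using Finsupp.induction_linear with
    | zero => simp
    | add a b ha hb => simp only [map_add, LinearMap.add_apply, ha, hb]
    | single m v =>
      induction w using Finsupp.induction_linear with
      | zero => simp
      | add a b ha hb => simp only [map_add, ha, hb]
      | single n w =>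
        simp only [fsS_single, negI_single, hS _ v, hc.η, map_mul, map_pow, map_neg, map_one,
          one_mul]
  induction x using induction with
  | h1 => rw [map_one, hG.1, hG'.1, map_one]
  | hι v x hx =>
    rw [map_mul, bcS_ι, ← (frT ac' (fun i => ψ (χ i)) u').h_up, ← (frT ac χ u).h_up, hG.2.apply,
      hG'.2.apply, hx, up_fsS, hc.dil]
    simp only [sI_apply, e1]
    exact hD_bcS _ _ (e2 _) _
  | hadd x y hx hy => simp only [map_add, hx, hy]
  | hsmul c x hx => simp only [bcS_smul, map_smul, hx]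

lemma Mor.rl_Dt {d : VD fr} {d' : VD fr'} (hμ : Rl j d.μ d'.μ) (hρ : Rl j d.ρ d'.ρ)
    (c : Fin (r + 1) → C) (Q : C) :
    Rl (fsS (piS j _) ℤ) (Dt ac Q d c) (Dt ac' (ψ Q) d' fun i => ψ (c i)) := by
  have e0 : ∀ (a : K) (x : LaurentPolynomial C), mapL ψ (a • x) = φ a • mapL ψ x := fun a x => by
    rw [Algebra.smul_def, Algebra.smul_def, map_mul, LaurentPolynomial.algebraMap_apply,
      LaurentPolynomial.algebraMap_apply, mapL_C, h.alg]
  have e : (mainG K Q c).map (mapL ψ) = mainG K' (ψ Q) fun i => ψ (c i) := by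
    refine Matrix.ext fun k' k => ?_
    simp only [mainG, Matrix.map_apply, Matrix.of_apply, map_add, apply_ite (mapL ψ), e0, mapL_C,
      mapL_T, map_zero, map_sub, map_mul, map_natCast, map_one, map_hf, map_xc, map_sum]
  exact (rl_D (d := vdPi _ d) (d' := vdPi _ d') hμ.dg hρ.dg).add (e ▸ rl_opM h.act _)

end nat

end Vale.Agent.P269.B
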