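import Vale.Agent.P269.B.EgDef
import Vale.Agent.P269.B.ES

/-! Attaching edges: the algebraic part. -/

namespace Vale.Agent.P269.B

open Fock Finset

namespace EgP

section gen

variable {K : Type*} [CommRing K] {H : Type*} [AddCommGroup H] [Module K H]
  {p : Par K H} {ι : Type*} [Fintype ι] (fr : Frame p ι)

/-- The vector dual to a linear form. -/
noncomputable def shp : Module.Dual K H →ₗ[K] H :=
  ∑ a, (LinearMap.applyₗ (fr.e a)).smulRight (fr.f a)

lemma shp_apply (φ : Module.Dual K H) : shp fr φ = ∑ a, φ (fr.e a) • fr.f a := by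
  simp [shp, LinearMap.sum_apply]

lemma η_shp (φ : Module.Dual K H) (w : H) : fr.η (shp fr φ) w = φ w := by
  conv_rhs => rw [← fr.left w]
  simp [shp_apply, map_sum, mul_comm]

variable {fr} in
lemma shp_eq {φ : Module.Dual K H} {v : H} (h : ∀ w, φ w = fr.η v w) : shp fr φ = v :=
  fr.ext_left fun w => by rw [η_shp, h]

lemma shp_eq' (φ : Module.Dual K H) :
    shp fr φ = ∑ a, ((-1) ^ fr.π a * φ (fr.f a)) • fr.e a := by
  refine shp_eq fun w => ?_
  conv_lhs => rw [← fr.right w]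
  simp only [map_sum, map_smul, LinearMap.sum_apply, LinearMap.smul_apply, smul_eq_mul,
    fr.η_symm w, fr.he]
  exact sum_congr rfl fun a _ => by ring

lemma map_con [Algebra ℚ K] {V : Type*} [AddCommGroup V] [Module K V] {q : Par K V}
    {f : H →ₗ[K] V} (hf : IsEv p q f) (φ : Module.Dual K V) (x : S p) :
    Fock.map f hf (con p (φ ∘ₗ f) x) = con q φ (Fock.map f hf x) := by
  induction x using induction' generalizing φ with
  | h1 => simp
  | hev v x hv hx =>
    rw [con_ι_mul_ev _ hv, map_mul, map_ι, con_ι_mul_ev _ (by rw [hf, hv]), map_add, map_smul,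
      map_mul, map_ι, hx, LinearMap.comp_apply]
  | hod v x hv hx =>
    have e : (φ ∘ₗ f) ∘ₗ p.σ = (φ ∘ₗ q.σ) ∘ₗ f := LinearMap.ext fun w => congrArg φ (hf w).symm
    rw [con_ι_mul_od _ hv, map_mul, map_ι, con_ι_mul_od _ (by rw [hf, hv, map_neg]), map_add,
      map_smul, map_mul, map_ι, e, hx, LinearMap.comp_apply]
  | hadd x y hx hy => simp only [map_add, hx, hy]
  | hsmul c x hx => simp only [map_smul, hx]

lemma map_hD [Algebra ℚ K] {V : Type*} [AddCommGroup V] [Module K V] {q : Par K V}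
    {f : H →ₗ[K] V} (hf : IsEv p q f) (d v : H) (φ : Module.Dual K V) (x : S p) :
    Fock.map f hf (hD p d (v, φ ∘ₗ f) x) = hD q (f d) (f v, φ) (Fock.map f hf x) := by
  simp only [hD_apply, hm_apply, map_add, map_sub, map_mul, map_ι, map_con, map_smul,
    LinearMap.comp_apply]

end gen

section edge

variable {K : Type*} [CommRing K] [Algebra ℚ K] {H : Type*} [AddCommGroup H] [Module K H]
  {p : Par K H} {ι : Type*} [Fintype ι] {fr : Frame p ι} {C : Type} [CommRing C] [Algebra K C]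
  (ac : Act fr C) {σ : Type} [Fintype σ] [DecidableEq σ] (χ : σ → C) (u : Kˣ)

omit [Algebra ℚ K] in
lemma act_act (x y : C) (v : H) : ac.act x (ac.act y v) = ac.act (x * y) v := by
  rw [map_mul, Module.End.mul_apply]

variable (fr) in
/-- The component of a linear form as a vector. -/
noncomputable def cv (e : Edge σ) : Module.Dual K (Sym σ →₀ H) →ₗ[K] H :=
  shp fr ∘ₗ LinearMap.lcomp K K (Finsupp.lsingle (Sum.inr e))

omit [Algebra ℚ K] [Fintype σ] [DecidableEq σ] in
lemma η_cv (e : Edge σ) (φ : Module.Dual K (Sym σ →₀ H)) (w : H) :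
    fr.η (cv fr e φ) w = φ (Finsupp.single (.inr e) w) := η_shp fr _ w

omit [Algebra ℚ K] [Fintype σ] [DecidableEq σ] in
lemma cv_eq {e : Edge σ} {φ : Module.Dual K (Sym σ →₀ H)} {v : H}
    (h : ∀ w, φ (Finsupp.single (.inr e) w) = fr.η v w) : cv fr e φ = v := shp_eq h

lemma par_Ce (e : Edge σ) : par _ (Ce ac χ e) = Ce ac χ e := by
  rw [Ce, map_sum]
  refine sum_congr rfl fun a _ => ?_
  rw [map_mul, par_ι, par_ι, Par.fs_σ_single, Par.fs_σ_single, ac.ev, fr.he, fr.hf, map_smul,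
    ← Finsupp.smul_single, ← Finsupp.smul_single, map_smul, map_smul, smul_mul_smul_comm,
    neg_one_pow_mul_self, one_smul]

lemma con_Ce (e : Edge σ) (φ : Module.Dual K (Sym σ →₀ H)) : con _ φ (Ce ac χ e) = Fock.ι _
    (Finsupp.single (.inr e) (ac.act (eu χ e.src * eu χ e.tgt * ee K χ e) (cv fr e.rev φ)) +
      Finsupp.single (.inr e.rev) (ac.act (eu χ e.src * eu χ e.tgt * ee K χ e) (cv fr e φ))) := by
  generalize hc : eu χ e.src * eu χ e.tgt * ee K χ e = c
  have e1 : ac.act c (cv fr e φ) = ∑ a, φ (Finsupp.single (.inr e) (ac.act c (fr.e a))) • fr.f a := by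
    refine (shp_eq (φ := (φ ∘ₗ Finsupp.lsingle (Sum.inr e)) ∘ₗ ac.act c) fun w => ?_).symm.trans
      (shp_apply fr _)
    rw [ac.adj, η_cv]
    rfl
  have e2 : cv fr e.rev φ =
      ∑ a, ((-1) ^ fr.π a * φ (Finsupp.single (.inr e.rev) (fr.f a))) • fr.e a := shp_eq' fr _
  rw [Ce, hc, map_sum, e1, e2, map_sum, Finsupp.single_finsetSum, Finsupp.single_finsetSum,
    ← sum_add_distrib, map_sum]
  refine sum_congr rfl fun a _ => ?_
  rw [Frame.con_ι_ι (n := fr.π a) _
    (by rw [Par.fs_σ_single, ac.ev, fr.he, map_smul, Finsupp.smul_single])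
    (by rw [Par.fs_σ_single, fr.hf, Finsupp.smul_single]), map_smul, ← Finsupp.smul_single,
    ← Finsupp.smul_single, map_add, map_smul, map_smul, add_comm]

/-- The value at the end of an edge. -/
noncomputable def vE (e : Edge σ) : (Sym σ →₀ H) × Module.Dual K (Sym σ →₀ H) →ₗ[K] H :=
  (evp ac χ e).coprod ((u : K) • ac.act (eu χ e.tgt) ∘ₗ cv fr e.rev)

lemma vE_apply (e : Edge σ) (v : Sym σ →₀ H) (φ : Module.Dual K (Sym σ →₀ H)) :
    vE ac χ u e (v, φ) = evp ac χ e v + (u : K) • ac.act (eu χ e.tgt) (cv fr e.rev φ) := rfl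

/-- The pole along an edge. -/
noncomputable def NE (e : Edge σ) : H →ₗ[K] (Sym σ →₀ H) × Module.Dual K (Sym σ →₀ H) :=
  (Finsupp.lsingle (Sum.inr e)).prod (-(((u⁻¹ : Kˣ) : K) •
    fr.η.compl₁₂ (ac.act (Ring.inverse (eu χ e.src))) (evp ac χ e.rev)))

lemma NE_fst (e : Edge σ) (w : H) : (NE ac χ u e w).1 = Finsupp.single (.inr e) w := rfl

lemma NE_snd (e : Edge σ) (w : H) (v : Sym σ →₀ H) : (NE ac χ u e w).2 v = -(((u⁻¹ : Kˣ) : K) *
    fr.η (ac.act (Ring.inverse (eu χ e.src)) w) (evp ac χ e.rev v)) := rfl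

omit [Fintype σ] in
lemma evp_single (e : Edge σ) (s : Sym σ) (w : H) :
    evp ac χ e (Finsupp.single s w) = ac.act (sv K χ e s) w := by simp [evp]

omit [Fintype σ] in
lemma sv_inl (e : Edge σ) (i : σ) (n : ℕ) :
    sv K χ e (.inl (i, n)) = if i = e.tgt then pe K χ e ^ n else 0 := rfl

omit [Fintype σ] in
lemma sv_inr (e e' : Edge σ) : sv K χ e (.inr e') =
    if e'.src = e.tgt then Ring.inverse (pe K χ e - pe K χ e') else 0 := rfl

lemma We_apply (e : Edge σ) (v w : Sym σ →₀ H) : (We ac χ e).1 v w =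
    fr.η (ac.act (ee K χ e) (evp ac χ e.rev v)) (evp ac χ e w) +
      fr.η (ac.act (ee K χ e) (evp ac χ e v)) (evp ac χ e.rev w) := rfl

/-- The symbol of one oriented edge. -/
noncomputable def NR (e : Edge σ) : Module.End K ((Sym σ →₀ H) × Module.Dual K (Sym σ →₀ H)) :=
  NE ac χ u e ∘ₗ ac.act (-(eu χ e.src * ee K χ e)) ∘ₗ vE ac χ u e

variable {χ} (h : Gen K χ)
include h

lemma vE_NE (e e' : Edge σ) (w : H) : vE ac χ u e (NE ac χ u e' w) = 0 := by
  have e1 : cv fr e.rev (NE ac χ u e' w).2 = -(((u⁻¹ : Kˣ) : K) •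
      ac.act (sv K χ e'.rev (.inr e.rev) * Ring.inverse (eu χ e'.src)) w) := cv_eq fun x => by
    rw [NE_snd, evp_single, ← ac.adj, act_act]
    simp
  rw [← Prod.mk.eta (p := NE ac χ u e' w), vE_apply, e1, NE_fst, evp_single, map_neg, map_smul,
    smul_neg, smul_smul, Units.mul_inv, one_smul, act_act, ← sub_eq_add_neg, sub_eq_zero]
  refine congrArg (ac.act · w) ?_
  rw [sv_inr, sv_inr, pe_rev, pe_rev, Edge.rev_src, Edge.rev_tgt]
  by_cases a : e'.src = e.tgt
  · rw [if_pos a, if_pos a.symm, a, mul_left_comm, Ring.mul_inverse_cancel _ (h.eu _), mul_one,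
      neg_sub_neg]
  · rw [if_neg a, if_neg (Ne.symm a), zero_mul, mul_zero]

lemma NR_fst (e : Edge σ) (v : Sym σ →₀ H) (φ : Module.Dual K (Sym σ →₀ H)) :
    (NR ac χ u e (v, φ)).1 = Ae ac χ e v - (u : K) • Finsupp.single (.inr e)
      (ac.act (eu χ e.src * eu χ e.tgt * ee K χ e) (cv fr e.rev φ)) := by
  have _ := h
  rw [NR, LinearMap.comp_apply, NE_fst, LinearMap.comp_apply, vE_apply, map_add, map_smul, act_act,
    Finsupp.single_add, Finsupp.smul_single, sub_eq_add_neg, ← Finsupp.single_neg, ← smul_neg,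
    ← LinearMap.neg_apply, ← map_neg, neg_mul, mul_right_comm]
  rfl

lemma NR_snd (e : Edge σ) (v : Sym σ →₀ H) (φ : Module.Dual K (Sym σ →₀ H)) (w : Sym σ →₀ H) :
    (NR ac χ u e (v, φ)).2 w = ((u⁻¹ : Kˣ) : K) *
      fr.η (ac.act (ee K χ e) (evp ac χ e v)) (evp ac χ e.rev w) - φ (Ae ac χ e.rev w) := by
  have e1 : Ring.inverse (eu χ e.src) * -(eu χ e.src * ee K χ e) = -ee K χ e := by
    rw [mul_neg, ← mul_assoc, Ring.inverse_mul_cancel _ (h.eu _), one_mul]
  have e2 : φ (Ae ac χ e.rev w) =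
      -fr.η (ac.act (ee K χ e * eu χ e.tgt) (cv fr e.rev φ)) (evp ac χ e.rev w) := by
    rw [ac.adj, η_cv, ← map_neg, ← Finsupp.single_neg, ← LinearMap.neg_apply, ← map_neg, mul_comm,
      ← ee_rev]
    rfl
  rw [NR, LinearMap.comp_apply, NE_snd, LinearMap.comp_apply, act_act, e1, vE_apply, e2, map_add,
    map_smul, act_act]
  simp only [map_neg, neg_mul, LinearMap.neg_apply, map_add, map_smul, LinearMap.add_apply,
    LinearMap.smul_apply, smul_eq_mul]
  linear_combination
    fr.η (ac.act (ee K χ e * eu χ e.tgt) (cv fr e.rev φ)) (evp ac χ e.rev w) * u.inv_mul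

variable (χ) in
omit h in
lemma isEv_Ae (e : Edge σ) : IsEv (p.fs _) (p.fs _) (Ae ac χ e) :=
  IsEv.comp (q := p) (fun _ => Par.fs_σ_single _ _ _) ((ac.ev _).comp (isEv_evp ac χ e))

omit h [Algebra ℚ K] [DecidableEq σ] in
lemma σ_dilR : (p.fs _).σ (dilR fr σ) = dilR fr σ := by simp [dilR, map_sum, fr.hone]

lemma isQ_edge (e : Edge σ) : IsQ (hD _ (dilR fr σ))
    (X0 ac χ e + ((u⁻¹ : Kˣ) : K) • Xm ac χ e + (u : K) • X1 ac χ e)
    (NR ac χ u e + NR ac χ u e.rev) := by
  have := (isQ_hD (d0 := dilR fr σ) σ_dilR ((isEv_Ae ac χ e).add (isEv_Ae ac χ e.rev))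
    (((u⁻¹ : Kˣ) : K) • We ac χ e)
    (C := (u : K) • Ce ac χ e) (by rw [map_smul, par_Ce])
    (fun φ => by rw [map_smul, con_Ce, ← map_smul]) (T := NR ac χ u e + NR ac χ u e.rev)
    fun v φ => Prod.ext ?_ (LinearMap.ext fun w => ?_)).add_const
      (((u⁻¹ : Kˣ) : K) * (hf K * (We ac χ e).1 (dilR fr σ) (dilR fr σ)))
  · rw [X0, Xm, X1, smul_add, smul_smul, ← map_smul, ← map_smul, ← add_assoc, add_right_comm]
    exact this
  · rw [LinearMap.add_apply, Prod.fst_add, NR_fst ac u h, NR_fst ac u h, ee_rev]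
    simp only [Edge.rev_src, Edge.rev_tgt, Edge.rev_rev, mul_comm (eu χ e.tgt), smul_add,
      LinearMap.add_apply]
    abel
  · rw [LinearMap.add_apply, Prod.snd_add, LinearMap.add_apply, NR_snd ac u h, NR_snd ac u h,
      ee_rev]
    simp only [We_apply, Edge.rev_rev, LinearMap.sub_apply, SetLike.val_smul, LinearMap.smul_apply,
      LinearMap.add_apply, LinearMap.comp_apply, map_add, smul_eq_mul]
    ring

variable (χ) in
omit h in
/-- The symbol of the operator that attaches one edge. -/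
noncomputable def TE (D : ℕ) (Q : K) : Module.End K ((Sym σ →₀ H) × Module.Dual K (Sym σ →₀ H)) :=
  ∑ e ∈ edges σ D, Q ^ (e.deg + 1) • NR ac χ u e

lemma isQ_XE (D : ℕ) (Q : K) : IsQ (hD _ (dilR fr σ)) (XE ac χ D Q u) (TE ac χ u D Q) := by
  have e : ∑ e ∈ edges σ D, Q ^ (e.deg + 1) • NR ac χ u e.rev = TE ac χ u D Q :=
    sum_nbij' Edge.rev Edge.rev (by simp) (by simp) (by simp) (by simp) fun _ _ => rfl
  have := (IsQ.sum (edges σ D) fun e _ => (isQ_edge ac u h e).smul (Q ^ (e.deg + 1))).smul (hf K)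
  simp only [smul_add (Q ^ _) (NR ac χ u _), sum_add_distrib, e] at this
  rwa [← TE, smul_add, ← add_smul, hf_add, one_smul] at this

lemma nexp_TE (D : ℕ) (Q : K) : TE ac χ u D Q ^ 2 = 0 ∧
    nexp K (TE ac χ u D Q) = 1 + TE ac χ u D Q := by
  have e : TE ac χ u D Q ^ 2 = 0 := by
    rw [pow_two, TE, sum_mul_sum]
    refine sum_eq_zero fun e _ => sum_eq_zero fun e' _ => LinearMap.ext fun x => ?_
    simp [NR, vE_NE ac u h]
  refine ⟨e, ?_⟩
  rw [nexp_eq_sum e]
  simp [sum_range_succ, ifac]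

omit h in
lemma XE_eq (χ : σ → C) (D : ℕ) (Q : K) : ∃ Y, XE ac χ D Q u = Q • Y :=
  ⟨hf K • ∑ e ∈ edges σ D, Q ^ e.deg •
    (X0 ac χ e + ((u⁻¹ : Kˣ) : K) • Xm ac χ e + (u : K) • X1 ac χ e), by
    rw [XE, smul_comm Q, smul_sum (r := Q)]
    simp only [smul_smul Q, pow_succ']⟩

end edge

section scalar

variable {C : Type} [CommRing C]

open ES LaurentPolynomial

/-- The expansion of `1 / (z - p)` at infinity. -/
noncomputable def gp (a : C) : Hat C C :=
  ⟨fun n => if 1 ≤ n then a ^ (n - 1).toNat else 0, 1, fun _ hn => if_neg hn.not_ge⟩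

lemma mul_gp (a : C) : toH C (T 1 - LaurentPolynomial.C a) * gp a = 1 := by
  ext n
  rw [map_sub, toH_T, toH_C, sub_mul, Hat.co_sub, co_z_mul, co_C_mul, Hat.one_def, Hat.co_single]
  simp only [gp, add_sub_cancel_right]
  rcases lt_trichotomy n 0 with a | rfl | a
  · rw [if_neg (by omega), if_neg (by omega), if_neg a.ne, mul_zero, sub_zero]
  · simp
  · rw [if_pos (by omega), if_pos (by omega), if_neg a.ne', ← pow_succ', sub_eq_zero]
    congr 1
    omega

variable {K : Type*} [CommRing K] [Algebra ℚ K] [Algebra K C] {σ : Type} [Fintype σ]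
  [DecidableEq σ] {χ : σ → C} {h : Gen K χ} {D : ℕ} {Q : C} {i : σ} {k : ℕ} {m : ℤ}
  {L : LaurentPolynomial C}

lemma pf_inf (hL : PFc h D Q i k m L) (n : ℤ) : (nI D Q (-χ i) χ k).co (n + m) =
    (toH C L).co n + ∑ e ∈ edges σ D with e.src = i, rc h D Q e k m * (gp (pe K χ e)).co n := by
  have := congrArg (·.co n) (hL _ (toH C) fun e _ _ => IsUnit.of_mul_eq_one _ (mul_gp _))
  simp only [inv_eq (mul_gp _), toH_C, toH_T, Hat.co_mul_single, Hat.co_add, Hat.co_sum, co_C_mul,
    mul_one, sub_neg_eq_add] at this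
  exact this

lemma pf_pos (hL : PFc h D Q i k m L) (n : ℕ) :
    (nI D Q (-χ i) χ k).co (m - n) = (toH C L).co (0 - n) := by
  rw [show m - n = 0 - n + m by ring, pf_inf hL, sum_eq_zero fun e _ => ?_, add_zero]
  simp only [gp]
  rw [if_neg (by omega), mul_zero]

lemma pf_neg (hL : PFc h D Q i k m L) (n : ℕ) :
    (nI D Q (-χ i) χ k).co (m + n + 1) = (toH C L).co (0 - (-(n : ℤ) - 1)) +
      ∑ e ∈ edges σ D with e.src = i, pe K χ e ^ n * rc h D Q e k m := by
  rw [show m + n + 1 = 0 - (-(n : ℤ) - 1) + m by ring, pf_inf hL]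
  refine congrArg _ (sum_congr rfl fun e _ => ?_)
  simp only [gp]
  rw [if_pos (by omega), mul_comm]
  congr 2
  omega

lemma pf_ev (e : Edge σ) (hL : PFc h D Q e.tgt k m L) :
    nS D Q (-χ e.tgt) χ (pe K χ e) k * h.ev e (T m) =
      h.ev e L + ∑ e' ∈ edges σ D, sv K χ e (.inr e') * rc h D Q e' k m := by
  have := hL _ (h.ev e) fun e' a _ => by
    rw [map_sub, PFP.ev_T, PFP.ev_C]
    exact h.tgt e e' a
  simp only [map_sub, PFP.ev_T, PFP.ev_C] at this
  rw [this, sum_filter]
  refine congrArg _ (sum_congr rfl fun e' _ => ?_)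
  rw [sv_inr, ite_mul, zero_mul, mul_comm]

end scalar

section fin

open ES

variable {K : Type*} [CommRing K] [Algebra ℚ K] {H : Type*} [AddCommGroup H] [Module K H]
  {p : Par K H} {ι : Type*} [Fintype ι] {fr : Frame p ι} {C : Type} [CommRing C] [Algebra K C]
  (ac : Act fr C) {r : ℕ} {χ : Fin (r + 1) → C} (h : Gen K χ) (u : Kˣ)

variable (χ) in
/-- The restriction matrix. -/
noncomputable def vm : Matrix (Fin (r + 1)) (Fin (r + 1)) C := Matrix.of fun i k => (-χ i) ^ (k : ℕ)

omit [Algebra ℚ K] in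
lemma res_single (n : ℕ) (v : Fin (r + 1) → H) : res ac χ (Finsupp.single n v) =
    ∑ i, Finsupp.single (.inl (i, n)) (actM ac.act (vm χ) v i) := by
  simp [res, actM_apply, vm, Finsupp.single_finsetSum, -map_pow]

omit [Algebra ℚ K] in
lemma LP_apply (L : Fin (r + 1) → Fin (r + 1) → ℤ → LaurentPolynomial C) (m j : ℤ)
    (v : Fin (r + 1) → H) (i : Fin (r + 1)) : LP ac L (Finsupp.single m v) j i =
      ∑ k, ac.act ((toH C (L i k m)).co (0 - j)) (v k) := by
  rw [LP_single, opM_apply]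
  simp only [LinearMap.sum_apply, Finsupp.finsetSum_apply, Finset.sum_apply, Module.End.mul_apply,
    cst_apply, opL_single, EU_apply, Matrix.of_apply]
  rw [sum_eq_single i (fun l _ hl => by simp [hl.symm]) (by simp)]
  simp

lemma vm_SM (D : ℕ) (Q : C) (n : ℤ) (v : Fin (r + 1) → H) (i : Fin (r + 1)) :
    actM ac.act (vm χ) (actM ac.act (SM D Q χ n) v) i =
      ∑ k : Fin (r + 1), ac.act ((nI D Q (-χ i) χ k).co n) (v k) := by
  let _ : Algebra ℚ C := ((algebraMap K C).comp (algebraMap ℚ K)).toAlgebra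
  rw [← Module.End.mul_apply, ← map_mul, actM_apply]
  exact sum_congr rfl fun k _ => by rw [← SM_loc]; rfl

include h in
lemma η_loc {ι' : Type*} [Fintype ι'] {fT : Frame (p.pi (Fin (r + 1))) ι'} (hT : IsT ac χ fT u)
    (v w : Fin (r + 1) → H) : fT.η v w = ∑ i, ((u⁻¹ : Kˣ) : K) * fr.η
      (ac.act (Ring.inverse (eu χ i)) (actM ac.act (vm χ) v i)) (actM ac.act (vm χ) w i) := by
  have e : gm χ = (vm χ).transpose * (Matrix.diagonal (fun i => Ring.inverse (eu χ i)) * vm χ) := by
    ext k l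
    rw [Matrix.mul_apply]
    refine (h.xc_eq _).trans (sum_congr rfl fun i _ => ?_)
    rw [Matrix.diagonal_mul, pow_add]
    simp only [vm, Matrix.transpose_apply, Matrix.of_apply]
    ring
  rw [hT.η, ← pi_η_gm, e, map_mul, Module.End.mul_apply, adj_actM, Matrix.transpose_transpose,
    map_mul, Module.End.mul_apply, Frame.pi_η, mul_sum]
  refine sum_congr rfl fun i _ => ?_
  rw [actM_apply _ (Matrix.diagonal _), sum_eq_single i
    (fun l _ hl => by simp [Matrix.diagonal_apply_ne _ hl.symm]) (by simp), Matrix.diagonal_apply_eq]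

lemma ph0_inl (y : LL (Fin (r + 1) → H)) (i : Fin (r + 1)) (n : ℕ) (w : H) :
    ph0 ac h u y (Finsupp.single (.inl (i, n)) w) = (-1) ^ n * (((u⁻¹ : Kˣ) : K) *
      fr.η (ac.act (Ring.inverse (eu χ i)) (y (-(n : ℤ) - 1) i)) w) := by
  induction y using Finsupp.induction_linear with
  | zero => simp
  | add a b ha hb =>
    simp only [map_add, LinearMap.add_apply, ha, hb, Finsupp.add_apply, Pi.add_apply, mul_add]
  | single m v =>
    rw [ph0_single]
    by_cases a : m = -(n : ℤ) - 1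
    · have e : kap h (.inl (i, n)) m = algebraMap K C ((-1) ^ n) := by
        simp only [kap]
        rw [if_pos (by omega), if_pos a]
        simp
      rw [e, mul_comm (Ring.inverse _), ← Algebra.smul_def, map_smul, a, Finsupp.single_eq_same]
      simp only [LinearMap.smul_apply, map_smul, smul_eq_mul, Sym.cmp]
      ring
    · have e : kap h (.inl (i, n)) m = 0 := by simp [kap, a]
      rw [e, Finsupp.single_eq_of_ne (Ne.symm a)]
      simp

/-- The value of a loop at `z = p_e`. -/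
noncomputable def evL (e : Edge (Fin (r + 1))) : LL (Fin (r + 1) → H) →ₗ[K] H :=
  Finsupp.lsum K fun m => ac.act (h.ev e (LaurentPolynomial.T m)) ∘ₗ LinearMap.proj e.tgt

lemma evL_single (e : Edge (Fin (r + 1))) (m : ℤ) (v : Fin (r + 1) → H) :
    evL ac h e (Finsupp.single m v) = ac.act (h.ev e (LaurentPolynomial.T m)) (v e.tgt) := by
  simp [evL]

lemma vE_loop (e : Edge (Fin (r + 1))) (y : LL (Fin (r + 1) → H)) :
    vE ac χ u e (inc K H _ (pos K _ y), ph0 ac h u y) = evL ac h e y := by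
  induction y using Finsupp.induction_linear with
  | zero => simp [vE_apply]
  | add a b ha hb => simp only [map_add, ← Prod.mk_add_mk, ha, hb]
  | single m v =>
    have e1 : cv fr e.rev (ph0 ac h u (Finsupp.single m v)) = ((u⁻¹ : Kˣ) : K) •
        ac.act (Ring.inverse (eu χ e.tgt) * kap h (.inr e.rev) m) (v e.tgt) := cv_eq fun w => by
      rw [ph0_single, map_smul]
      rfl
    rw [vE_apply, e1, map_smul, smul_smul, Units.mul_inv, one_smul, act_act, ← mul_assoc,
      Ring.mul_inverse_cancel _ (h.eu _), one_mul, evL_single]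
    rcases lt_or_ge m 0 with a | a
    · rw [pos_single_neg a, map_zero, map_zero, zero_add, kap, if_pos a]
      rfl
    · obtain ⟨n, rfl⟩ := Int.eq_ofNat_of_zero_le a
      have e2 : h.ev e (LaurentPolynomial.T n) = pe K χ e ^ n := by
        rw [← PFP.ev_T h, ← map_pow, LaurentPolynomial.T_pow, mul_one]
      rw [pos_single_nat, inc_single, map_sum, kap, if_neg a.not_gt, map_zero, LinearMap.zero_apply,
        add_zero, e2, sum_eq_single e.tgt (fun l _ hl => by simp [evp_single, sv_inl, hl])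
        (by simp), evp_single, sv_inl, if_pos rfl]

lemma evL_LP (L : Fin (r + 1) → Fin (r + 1) → ℤ → LaurentPolynomial C) (e : Edge (Fin (r + 1)))
    (m : ℤ) (v : Fin (r + 1) → H) :
    evL ac h e (LP ac L (Finsupp.single m v)) = ∑ k, ac.act (h.ev e (L e.tgt k m)) (v k) := by
  have e1 : ∀ i k x, evL ac h e (cst (EU K H i k) (opL ((dg _).comp ac.act) x
      (Finsupp.single 0 v))) = if e.tgt = i then ac.act (h.ev e x) (v k) else 0 := fun i k x => by
    induction x using LaurentPolynomial.induction_on' with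
    | add x y hx hy =>
      simp only [map_add, LinearMap.add_apply, hx, hy]
      split_ifs <;> simp
    | C_mul_T n a =>
      rw [map_mul, opL_C, opL_T, Module.End.mul_apply, zp_single, cst_single, cst_single,
        evL_single, EU_apply, map_mul, PFP.ev_C, mul_comm, ← act_act, zero_add]
      split_ifs with b
      · rw [b, Pi.single_eq_same]
        rfl
      · rw [Pi.single_eq_of_ne b, map_zero]
  rw [LP_single, opM_apply]
  simp only [LinearMap.sum_apply, map_sum, Module.End.mul_apply, e1, Matrix.of_apply]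
  rw [sum_comm]
  simp

variable {h} {D : ℕ} {Q : C} {L : Fin (r + 1) → Fin (r + 1) → ℤ → LaurentPolynomial C}
  (hL : ∀ i k : Fin (r + 1), ∀ m, PFc h D Q i k m (L i k m))

lemma gE_eq (f : LL (Fin (r + 1) → H)) : gE ac h D Q u L f =
    (inc K H _ (pos K _ (LP ac L f)), ph0 ac h u (LP ac L f)) +
      ∑ e ∈ edges (Fin (r + 1)) D, (Finsupp.single (.inr e) (rhoE ac h D Q e f), 0) := by
  refine Prod.ext ?_ ?_ <;> simp [gE, Prod.fst_sum, Prod.snd_sum, LinearMap.sum_apply]

include hL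

lemma res_posI (f : LL (Fin (r + 1) → H)) :
    res ac χ (posI ac D Q χ f) = inc K H _ (pos K _ (LP ac L f)) := by
  let _ : Algebra ℚ C := ((algebraMap K C).comp (algebraMap ℚ K)).toAlgebra
  induction f using Finsupp.induction_linear with
  | zero => simp
  | add a b ha hb => simp only [map_add, ha, hb]
  | single m v =>
    rw [posI_single, map_sum, sum_congr rfl fun n _ =>
      (res_single ac n _).trans (inc_single (K := K) n _).symm, ← map_sum]
    refine congrArg _ (Finsupp.ext fun n => ?_)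
    rw [Finsupp.finsetSum_apply, sum_eq_single n
      (fun l _ hl => Finsupp.single_eq_of_ne hl.symm) fun hl => ?_, Finsupp.single_eq_same]
    · funext i
      rw [vm_SM, pos_apply, LP_apply]
      simp only [pf_pos (hL _ _ _)]
    · rw [SM_neg _ _ _ (by rw [mem_range] at hl; omega)]
      simp

lemma neg_res {ι' : Type*} [Fintype ι'] {fT : Frame (p.pi (Fin (r + 1))) ι'} (hT : IsT ac χ fT u)
    (f : LL (Fin (r + 1) → H)) : negI ac D Q χ fT f = (ph0 ac h u (LP ac L f) -
      ∑ e ∈ edges (Fin (r + 1)) D, (NE ac χ u e (rhoE ac h D Q e f)).2) ∘ₗ res ac χ := by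
  induction f using Finsupp.induction_linear with
  | zero => simp
  | add a b ha hb =>
    simp only [map_add, ha, hb, Prod.snd_add, sum_add_distrib, ← LinearMap.add_comp]
    congr 1
    abel
  | single m v =>
    refine Finsupp.lhom_ext fun n w => ?_
    rw [negI_single, η_loc ac h u hT, LinearMap.comp_apply, res_single, map_sum, mul_sum]
    refine sum_congr rfl fun i _ => ?_
    generalize actM ac.act (vm χ) w i = w'
    rw [LinearMap.sub_apply, ph0_inl, vm_SM, LP_apply, LinearMap.sum_apply]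
    simp only [pf_neg (hL _ _ _), map_add, LinearMap.add_apply, sum_add_distrib, mul_add]
    rw [sub_eq_add_neg (_ * _), ← sum_neg_distrib]
    congr 1
    simp only [map_sum, LinearMap.sum_apply, mul_sum]
    rw [sum_comm, sum_filter]
    refine sum_congr rfl fun e _ => ?_
    rw [NE_snd, neg_neg, evp_single, sv_inl, Edge.rev_tgt, pe_rev, rhoE_single]
    by_cases a : e.src = i
    · have e1 : (-pe K χ e) ^ n = (-1 : K) ^ n • pe K χ e ^ n := by
        rw [neg_pow, Algebra.smul_def]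
        simp
      rw [if_pos a, if_pos a.symm, a, ← ac.adj, e1, map_smul]
      simp only [map_sum, LinearMap.sum_apply, LinearMap.smul_apply, map_smul, act_act, mul_sum,
        smul_eq_mul, mul_left_comm (pe K χ e ^ n), mul_left_comm ((-1 : K) ^ n)]
    · rw [if_neg a, if_neg (Ne.symm a)]
      simp

lemma vE_gE (e : Edge (Fin (r + 1))) (f : LL (Fin (r + 1) → H)) :
    ac.act (Q ^ (e.deg + 1) * -(eu χ e.src * ee K χ e)) (vE ac χ u e (gE ac h D Q u L f)) =
      rhoE ac h D Q e f := by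
  induction f using Finsupp.induction_linear with
  | zero => simp
  | add a b ha hb => simp only [map_add, ha, hb]
  | single m v =>
    rw [gE_eq, map_add, vE_loop, evL_LP, map_sum]
    simp only [vE_apply, map_zero, smul_zero, add_zero, evp_single, rhoE_single, map_sum, act_act]
    rw [sum_comm, ← sum_add_distrib, map_sum]
    refine sum_congr rfl fun k _ => ?_
    rw [rc, pf_ev e (hL _ _ _), ← act_act _ (_ * _), map_add ac.act, map_sum ac.act,
      LinearMap.add_apply, LinearMap.sum_apply]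

end fin

end EgP

open EgP

variable {K : Type*} [CommRing K] [Algebra ℚ K] {H : Type*} [AddCommGroup H] [Module K H]
  {p : Par K H} {ι : Type*} [Fintype ι] {fr : Frame p ι} {C : Type} [CommRing C] [Algebra K C]
  (ac : Act fr C)

lemma XE_pow {σ : Type} [Fintype σ] [DecidableEq σ] (χ : σ → C) {D : ℕ} {Q : K}
    (hQ : Q ^ (D + 1) = 0) (u : Kˣ) : XE ac χ D Q u ^ (D + 1) = 0 := by
  obtain ⟨Y, hY⟩ := XE_eq ac u χ D Q
  rw [hY, smul_pow, hQ, zero_smul]

lemma nexp_XE {σ : Type} [Fintype σ] [DecidableEq σ] (χ : σ → C) {D : ℕ} {Q : K}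
    (hQ : Q ^ (D + 1) = 0) (u : Kˣ) : ∃ Y, nexp K (XE ac χ D Q u) = 1 + Q • Y := by
  rw [nexp_eq_sum (XE_pow ac χ hQ u)]
  obtain ⟨Y, hY⟩ := XE_eq ac u χ D Q
  refine ⟨∑ i ∈ range D, ifac K (i + 1) • (Y * (Q • Y) ^ i), ?_⟩
  rw [hY, sum_range_succ', add_comm, ifac_zero, pow_zero, one_smul, smul_sum]
  simp only [pow_succ', smul_mul_assoc, smul_comm Q]

theorem edge_alg {r : ℕ} {χ : Fin (r + 1) → C} (h : Gen K χ) {D : ℕ} {Q : K} (hQ : Q ^ (D + 1) = 0)
    {u : Kˣ} {L : Fin (r + 1) → Fin (r + 1) → ℤ → LaurentPolynomial C}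
    (hL : ∀ i k : Fin (r + 1), ∀ m, PFc h D (algebraMap K C Q) i k m (L i k m))
    {ι' : Type*} [Fintype ι'] {fT : Frame (p.pi (Fin (r + 1))) ι'} (hT : IsT ac χ fT u)
    {G : Module.End K (S ((p.pi (Fin (r + 1))).fs ℕ))}
    (hG : IsGS ac D (algebraMap K C Q) χ fT G) :
    Itw fT.h (hD _ (dilR fr (Fin (r + 1)))) (gE ac h D (algebraMap K C Q) u L)
      (nexp K (XE ac χ D Q u) ∘ₗ (Fock.map _ (isEv_res ac χ)).toLinearMap ∘ₗ G) := by
  intro f
  ext x
  obtain ⟨t1, t2⟩ := nexp_TE ac u h D Q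
  have a := (isQ_XE ac u h D Q).itw_nexp ⟨_, XE_pow ac χ hQ u⟩ ⟨_, t1⟩
  have e0 : res ac χ fT.dil = dilR fr _ := by
    rw [Frame.dil, hT.one, res_single, dilR]
    refine sum_congr rfl fun i _ => ?_
    rw [actM_apply, sum_eq_single 0 (fun l _ hl => by simp [hl]) (by simp)]
    simp [vm]
  set g := gE ac h D (algebraMap K C Q) u L f with hg
  set y := g - ∑ e ∈ edges _ D, NE ac χ u e (rhoE ac h D (algebraMap K C Q) e f) with hy
  have e1 : nexp K (TE ac χ u D Q) y = g := by
    rw [t2, LinearMap.add_apply, Module.End.one_apply, TE, LinearMap.sum_apply, ← eq_sub_iff_add_eq',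
      hy, sub_sub_cancel]
    refine sum_congr rfl fun e _ => ?_
    rw [LinearMap.smul_apply, NR, LinearMap.comp_apply, LinearMap.comp_apply, map_sub, map_sum,
      sum_eq_zero fun e' _ => vE_NE ac u h e e' _, sub_zero, ← map_smul, ← vE_gE ac u hL e f,
      ← map_pow, ← Algebra.smul_def, map_smul ac.act, LinearMap.smul_apply]
  have e2 : y = (res ac χ (posI ac D (algebraMap K C Q) χ f), ph0 ac h u (LP ac L f) -
      ∑ e ∈ edges _ D, (NE ac χ u e (rhoE ac h D (algebraMap K C Q) e f)).2) := by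
    rw [hy, hg, gE_eq, res_posI ac hL]
    refine Prod.ext ?_ ?_ <;> simp [Prod.fst_sum, Prod.snd_sum, NE_fst]
  simp only [LinearMap.comp_apply, AlgHom.toLinearMap_apply]
  rw [hG.2.apply, ES.sI_apply, neg_res ac u hL hT, map_hD, e0, ← e2, a.apply, e1]

end Vale.Agent.P269.B
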