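import Vale.Agent.P269.B.Inst
import Vale.Agent.P269.B.EDef

/-! The operator that attaches edges; expansion of the insertion symbols at `z = 0`. -/

namespace Vale.Agent.P269.B

open Fock Finset

section alg

variable {K : Type*} [CommRing K] {H : Type*} [AddCommGroup H] [Module K H]
  {p : Par K H} {ι : Type*} [Fintype ι] {fr : Frame p ι} {C : Type} [CommRing C] [Algebra K C]
  {σ : Type} [Fintype σ] [DecidableEq σ]

variable (K H σ) in
/-- Descendant insertions as symbols. -/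
noncomputable def inc : VV (σ → H) →ₗ[K] (Sym σ →₀ H) :=
  Finsupp.lsum K fun n => ∑ i, Finsupp.lsingle (.inl (i, n)) ∘ₗ LinearMap.proj i

omit [DecidableEq σ] in
lemma inc_single (n : ℕ) (v : σ → H) :
    inc K H σ (Finsupp.single n v) = ∑ i, Finsupp.single (.inl (i, n)) (v i) := by
  simp [inc, LinearMap.sum_apply]

omit [DecidableEq σ] in
lemma isEv_inc (p : Par K H) : IsEv ((p.pi σ).fs ℕ) (p.fs _) (inc K H σ) := fun v => by
  induction v using Finsupp.induction_linear with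
  | zero => simp
  | add a b ha hb => simp only [map_add, ha, hb]
  | single s v => simp [inc_single, map_sum]

variable [Algebra ℚ K] (ac : Act fr C) {χ : σ → C}

variable (χ) in
/-- The operator that attaches one edge. -/
noncomputable def XE (D : ℕ) (Q : K) (u : Kˣ) : Module.End K (S (p.fs (Sym σ))) :=
  hf K • ∑ e ∈ edges σ D, Q ^ (e.deg + 1) •
    (X0 ac χ e + ((u⁻¹ : Kˣ) : K) • Xm ac χ e + (u : K) • X1 ac χ e)

/-- The pairing of `z^m`, `m < 0`, with a symbol. -/
noncomputable def kap (h : Gen K χ) (s : Sym σ) (m : ℤ) : C :=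
  if m < 0 then
    (match s with
      | .inl x => if m = -(x.2 : ℤ) - 1 then (-1) ^ x.2 else 0
      | .inr e => h.ev e.rev (LaurentPolynomial.T m))
  else 0

/-- The negative part of a loop as a linear form on the symbols. -/
noncomputable def ph0 (h : Gen K χ) (u : Kˣ) : LL (σ → H) →ₗ[K] Module.Dual K (Sym σ →₀ H) :=
  Finsupp.lsum K fun m => (Finsupp.lsum K fun s => (((u⁻¹ : Kˣ) : K) • fr.η ∘ₗ
    ac.act (Ring.inverse (eu χ s.cmp) * kap h s m) ∘ₗ LinearMap.proj s.cmp).flip).flip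

lemma ph0_single (h : Gen K χ) (u : Kˣ) (m : ℤ) (v : σ → H) (s : Sym σ) (w : H) :
    ph0 ac h u (Finsupp.single m v) (Finsupp.single s w) = ((u⁻¹ : Kˣ) : K) *
      fr.η (ac.act (Ring.inverse (eu χ s.cmp) * kap h s m) (v s.cmp)) w := by
  simp [ph0]

/-- The residue at `z = p_e` of `z^m` times the hypergeometric series. -/
noncomputable def rc (h : Gen K χ) (D : ℕ) (Q : C) (e : Edge σ) (k : ℕ) (m : ℤ) : C :=
  Q ^ (e.deg + 1) * -(eu χ e.src * ee K χ e) *
    (nS D Q (-χ e.tgt) χ (pe K χ e) k * h.ev e (LaurentPolynomial.T m))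

/-- The partial fraction decomposition with Laurent polynomial part `L`. -/
def PFc (h : Gen K χ) (D : ℕ) (Q : C) (i : σ) (k : ℕ) (m : ℤ) (L : LaurentPolynomial C) : Prop :=
  ∀ (R : Type) [CommRing R] (φ : LaurentPolynomial C →+* R),
    (∀ e : Edge σ, e.src = i → e.deg < D →
      IsUnit (φ (LaurentPolynomial.T 1 - LaurentPolynomial.C (pe K χ e)))) →
    nS D (φ (LaurentPolynomial.C Q)) (φ (LaurentPolynomial.C (-χ i)))
        (fun j => φ (LaurentPolynomial.C (χ j))) (φ (LaurentPolynomial.T 1)) k *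
        φ (LaurentPolynomial.T m) =
      φ L + ∑ e ∈ edges σ D with e.src = i, φ (LaurentPolynomial.C (rc h D Q e k m)) *
        Ring.inverse (φ (LaurentPolynomial.T 1 - LaurentPolynomial.C (pe K χ e)))

lemma Gen.pfc (h : Gen K χ) {D : ℕ} {Q : C} (hQ : Q ^ (D + 1) = 0) (i : σ) (k : ℕ) (m : ℤ) :
    ∃ L, PFc h D Q i k m L := h.pf hQ i k m

end alg

section fin

variable {K : Type*} [CommRing K] {H : Type*} [AddCommGroup H] [Module K H]
  {p : Par K H} {ι : Type*} [Fintype ι] {fr : Frame p ι} {C : Type} [CommRing C] [Algebra K C]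
  {r : ℕ} (ac : Act fr C)

/-- The Laurent polynomial part. -/
noncomputable def LP (L : Fin (r + 1) → Fin (r + 1) → ℤ → LaurentPolynomial C) :
    Module.End K (LL (Fin (r + 1) → H)) :=
  Finsupp.lsum K fun m => opM ac.act (Matrix.of fun i k => L i k m) ∘ₗ Finsupp.lsingle 0

lemma LP_single (L : Fin (r + 1) → Fin (r + 1) → ℤ → LaurentPolynomial C) (m : ℤ)
    (v : Fin (r + 1) → H) : LP ac L (Finsupp.single m v) =
      opM ac.act (Matrix.of fun i k => L i k m) (Finsupp.single 0 v) := by simp [LP]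

variable [Algebra ℚ K] {χ : Fin (r + 1) → C} (h : Gen K χ) (D : ℕ) (Q : C)

/-- The residue at `z = p_e`. -/
noncomputable def rhoE (e : Edge (Fin (r + 1))) : LL (Fin (r + 1) → H) →ₗ[K] H :=
  Finsupp.lsum K fun m => ∑ k : Fin (r + 1), ac.act (rc h D Q e k m) ∘ₗ LinearMap.proj k

lemma rhoE_single (e : Edge (Fin (r + 1))) (m : ℤ) (v : Fin (r + 1) → H) :
    rhoE ac h D Q e (Finsupp.single m v) = ∑ k : Fin (r + 1), ac.act (rc h D Q e k m) (v k) := by
  simp [rhoE, LinearMap.sum_apply]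

/-- The partial fraction decomposition as a map to the canonical Heisenberg space. -/
noncomputable def gE (u : Kˣ) (L : Fin (r + 1) → Fin (r + 1) → ℤ → LaurentPolynomial C) :
    LL (Fin (r + 1) → H) →ₗ[K]
      (Sym (Fin (r + 1)) →₀ H) × Module.Dual K (Sym (Fin (r + 1)) →₀ H) :=
  (inc K H _ ∘ₗ pos K _ ∘ₗ LP ac L +
    ∑ e ∈ edges (Fin (r + 1)) D, Finsupp.lsingle (Sum.inr e) ∘ₗ rhoE ac h D Q e).prod
    (ph0 ac h u ∘ₗ LP ac L)

end fin

section hat

variable {K : Type} [CommRing K] [Algebra ℚ K] {H : Type} [AddCommGroup H] [Module K H]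
  {p : Par K H} {ι : Type} [Fintype ι] {fr : Frame p ι} {C : Type} [CommRing C] [Algebra K C]
  {ac : Act fr C} {HA : Type} [AddCommGroup HA] [Module (Hat K K) HA] {pA : Par (Hat K K) HA}
  {frA : Frame pA ι} {A : Type} [CommRing A] [Algebra (Hat K K) A] {acA : Act frA A}
  (em : Emb ac acA) {σ : Type} [Fintype σ] [DecidableEq σ] (χ : σ → A)

/-- `1 / (z - p_e)` expanded at `z = 0`. -/
noncomputable def PH (e : Edge σ) : RH K C :=
  Ring.inverse (zH K C 1 - em.atA (pe (Hat K K) χ e))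

/-- The expansion of the symbols. -/
noncomputable def exH : (Sym σ →₀ HA) →ₗ[Hat K K] Hat K (LL (σ → H)) :=
  Finsupp.lsum (Hat K K) fun s => match s with
    | .inl x => em.L σ ∘ₗ inL (Hat K K) HA (x.2 : ℤ) x.1
    | .inr e => Hat.act K _ (opH ac σ (PH em χ e)) ∘ₗ em.L σ ∘ₗ inL (Hat K K) HA (0 : ℤ) e.src

/-- The expansion map on Fock spaces. -/
structure IsEx (b : Hat K (Module.End K (LL (σ → H))))
    (Ex : S (pA.fs (Sym σ)) →ₗ[Hat K K] Hat K (S ((p.pi σ).fs ℕ))) : Prop where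
  one : Ex 1 = Hat.single K 0 1
  mul : ∀ v x, Ex (Fock.ι _ v * x) = hA (fr.pi σ) b (exH em χ v) (Ex x)

omit [Algebra ℚ K] in
/-- The hypergeometric series expanded at `z = 0`. -/
noncomputable def nH {r : ℕ} (χ : Fin (r + 1) → A) (D : ℕ) (Q : A) :
    Matrix (Fin (r + 1)) (Fin (r + 1)) (RH K C) := Matrix.of fun i k =>
  nS D (em.atA Q) (em.atA (-χ i)) (fun j => em.atA (χ j)) (zH K C 1) k

end hat

section conc

/-- The inclusion of `ℂ((ε))` as an algebra homomorphism. -/
noncomputable def phA (D : ℕ) : F →ₐ[ℂ] F1 D := ⟨phF D, phF_algebraMap⟩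

/-- The genus variable as a unit. -/
noncomputable def uH (r D : ℕ) : (F1 D)ˣ :=
  ⟨hb r D 1, hb r D (-1), by rw [← hb_add]; simp, by rw [← hb_add]; simp⟩

/-- The equivariant parameter. -/
noncomputable def t1 (D : ℕ) : F1 D := Hat.single _ (-1) 1

lemma phF_tt (D : ℕ) : phF D tt = t1 D := (Hat.mapR_single _ _ _).trans (by rw [map_one]; rfl)

end conc

end Vale.Agent.P269.B
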