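import Vale.Agent.P269.B.Est
import Vale.Agent.P269.B.ES

/-! Change of the ground ring for the commutators used in the main estimate. -/

namespace Vale.Agent.P269.B

open Fock Finset TensorProduct

section br

variable {K : Type*} [CommRing K] [Algebra ℚ K] {H : Type*} [AddCommGroup H] [Module K H]
  {p : Par K H} {ι : Type*} [Fintype ι] (fr : Frame p ι)

omit [Algebra ℚ K] in
/-- The adjoint, when it exists. -/
noncomputable def adjO (X : Module.End K (LL H)) : Module.End K (LL H) :=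
  Classical.epsilon fun B => fr.Adj X B

/-- The commutator of the string operator with the skew part of `X`. -/
noncomputable def br (X : Module.End K (LL H)) : Module.End K (S (p.fs ℕ)) :=
  fr.qz (zp K H (-1)) * fr.qz (hf K • (X - adjO fr X)) -
    fr.qz (hf K • (X - adjO fr X)) * fr.qz (zp K H (-1))

variable {fr} {X Y : Module.End K (LL H)}

omit [Algebra ℚ K] in
lemma Nice.adjO (h : Nice fr X) : fr.Adj X (adjO fr X) :=
  Classical.epsilon_spec (p := fun B => fr.Adj X B) (h.imp fun _ h => h.choose_spec.1)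

lemma br_add (hX : Nice fr X) (hY : Nice fr Y) (a b : K) :
    br fr (a • X + b • Y) = a • br fr X + b • br fr Y := by
  have e : hf K • (a • X + b • Y - adjO fr (a • X + b • Y)) =
      a • hf K • (X - adjO fr X) + b • hf K • (Y - adjO fr Y) := by
    rw [((hX.smul a).add (hY.smul b)).adjO.unique ((hX.adjO.smul a).add (hY.adjO.smul b))]
    module
  have h1 := hX.quad hX.adjO
  have h2 := hY.quad hY.adjO
  rw [br, e, (h1.smul a).qz_add (h2.smul b), h1.qz_smul, h2.qz_smul]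
  simp only [br, mul_add, add_mul, mul_smul_comm, smul_mul_assoc, smul_sub]
  abel

lemma br_quad (h : fr.Quad X) :
    br fr X = fr.qz (zp K H (-1)) * fr.qz X - fr.qz X * fr.qz (zp K H (-1)) := by
  have e : adjO fr X = -X :=
    (Classical.epsilon_spec (p := fun B => fr.Adj X B) ⟨_, h.adj⟩).unique h.adj
  rw [br, e, sub_neg_eq_add, smul_add, ← add_smul, hf_add, one_smul]

lemma br_bcS {K' : Type*} [CommRing K'] [Algebra ℚ K'] {φ : K →+* K'} {H' : Type*} [AddCommGroup H']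
    [Module K' H'] {p' : Par K' H'} {fr' : Frame p' ι} {j : H →ₛₗ[φ] H'} (h : fr.Cmp fr' j 1 1)
    (hs : Submodule.span K' (Set.range j) = ⊤) {X' : Module.End K' (LL H')} (hX : Nice fr X)
    (hX' : Nice fr' X') (e : Rl (fsS j ℤ) X X') (x : S (p.fs ℕ)) :
    br fr' X' (bcS _ (h.ev.fs ℕ) x) = bcS _ (h.ev.fs ℕ) (br fr X x) := by
  have e1 := qz_bcS h (hX.quad hX.adjO) (hX'.quad hX'.adjO)
    (e.sub (e.adj h hs hX.adjO hX'.adjO)).hf
  have e2 := qz_bcS h (quad_zi fr) (quad_zi fr') (rl_zp _)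
  simp only [br, LinearMap.sub_apply, Module.End.mul_apply, e1, e2, map_sub]

omit [Algebra ℚ K] in
lemma exists_pow_split {A : Module.End K (LL H)} (hA : Nice fr A) (hY : Nice fr Y) (a t : K)
    (m : ℕ) : ∃ Y', Nice fr Y' ∧ (a • A + t • Y) ^ m = a ^ m • A ^ m + t • Y' := by
  induction m with
  | zero => exact ⟨0, Nice.zero, by simp⟩
  | succ m ih =>
    obtain ⟨Y', h1, h2⟩ := ih
    refine ⟨a ^ m • A ^ m * Y + Y' * (a • A + t • Y), (((hA.pow m).smul _).mul hY).add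
      (h1.mul ((hA.smul a).add (hY.smul t))), ?_⟩
    rw [pow_succ, h2, pow_succ, pow_succ]
    simp only [mul_add, add_mul, mul_smul_comm, smul_mul_assoc, smul_add, smul_smul, mul_comm a,
      mul_comm t (a ^ m)]
    abel

lemma IsGS.congr {C : Type*} [CommRing C] [Algebra K C] {r : ℕ} {ac : Act fr C} {D : ℕ} {Q : C}
    {χ : Fin (r + 1) → C} {ι' ι'' : Type*} [Fintype ι'] [Fintype ι'']
    {f : Frame (p.pi (Fin (r + 1))) ι'} {f' : Frame (p.pi (Fin (r + 1))) ι''} {G}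
    (h : IsGS ac D Q χ f G) (hη : f.η = f'.η) (h1 : f.one = f'.one) : IsGS ac D Q χ f' G := by
  rw [IsGS, ← same_h hη h1, sI, negI, ← hη, Frame.dil, ← h1]
  exact h

end br

variable {H : Type} [AddCommGroup H] [Module ℂ H] {p : Par ℂ H} {ι : Type} [Fintype ι]
  {fr : Frame p ι} (d : VD fr) {C : Type} [CommRing C] [Algebra ℂ C] (ac : Act fr C) {r : ℕ}
  (c : Fin (r + 1) → C) {B B' : Type} [CommRing B] [Algebra ℂ B] [CommRing B'] [Algebra ℂ B']

lemma map_sB (f : B →ₐ[ℂ] B') (t Q : B) (s : Polynomial (Polynomial ℂ)) :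
    f (sB t Q s) = sB (f t) (f Q) s := by
  refine RingHom.congr_fun (?_ : (f : B →+* B').comp (sB t Q) = sB (f t) (f Q)) s
  ext <;> simp [sB]

lemma map_phB (f : B →ₐ[ℂ] B') (t Q : B) (s : Polynomial (Polynomial (L0 r))) :
    mapL (Algebra.TensorProduct.map f (AlgHom.id ℂ C) : B ⊗[ℂ] C →+* B' ⊗[ℂ] C) (phB c t Q s) =
      phB c (f t) (f Q) s := by
  refine RingHom.congr_fun (?_ : (mapL _).comp (phB c t Q) = phB c (f t) (f Q)) s
  refine Polynomial.ringHom_ext' (Polynomial.ringHom_ext' (RingHom.ext fun x => ?_) ?_) ?_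
  · induction x using LaurentPolynomial.induction_on' with
    | add a b ha hb => rw [map_add, map_add, ha, hb]
    | C_mul_T n a => simp [phB, psi]
  all_goals simp [phB, LaurentPolynomial.algebraMap_apply]

lemma bcS_jT (f : B →ₐ[ℂ] B') (x : S ((p.pi (Fin (r + 1))).fs ℕ)) :
    bcS _ ((isEvS_pi (mor_jT ac f).cmp.ev (Fin (r + 1))).fs ℕ) (bcS _ (isEvS_jV p B) x) =
      bcS _ (isEvS_jV p B') x := by
  induction x using Fock.induction with
  | h1 => simp
  | hι v x hx =>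
    simp only [map_mul, bcS_ι, hx]
    congr 2
    ext m i
    simp [jV_eq]
  | hadd x y hx hy => simp only [map_add, hx, hy]
  | hsmul a x hx => simp [hx]

lemma span_jV : Submodule.span B (Set.range (jV (K := ℂ) H (Fin (r + 1)) B)) = ⊤ := by
  rw [jV_eq]
  exact span_fsS (span_piS (span_j1 (K₀ := ℂ) (H := H) (K := B)) (Fin (r + 1))) ℕ

variable [Algebra ℚ B] [Algebra ℚ B']

lemma exists_ext_jV (Z : S ((p.pi (Fin (r + 1))).fs ℕ) →ₗ[ℂ] B) :
    ∃ Z' : S (((p.bc B).pi (Fin (r + 1))).fs ℕ) →ₗ[B] B, ∀ x, Z' (bcS _ (isEvS_jV p B) x) = Z x := by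
  have hf : IsBaseChange B (Finsupp.mapRange.linearMap (α := ℕ)
      ((TensorProduct.mk ℂ B H 1).compLeft (Fin (r + 1)))) :=
    ((TensorProduct.isBaseChange ℂ H B).finitePow (Fin (r + 1))).finsuppPow ℕ
  exact exists_ext (p' := ((p.bc B).pi (Fin (r + 1))).fs ℕ) hf (isEvS_jV p B) Z

/-- The operator `s₀ D + Q^N M + t U`. -/
noncomputable def XB (t Q : B) (N : ℕ) (s1 : Polynomial (Polynomial ℂ))
    (U1 : Fin (r + 1) → Fin (r + 1) → Polynomial (Polynomial (L0 r))) :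
    Module.End B (LL (Fin (r + 1) → B ⊗[ℂ] H)) :=
  (Q ^ N + t * sB t Q s1) • (vdPi _ (vdBc B ac d)).D + opM (ac.bc B).act (MB c t Q N U1)

/-- The conjugated operator `D`. -/
noncomputable def DB (Q : B) : Module.End B (LL (Fin (r + 1) → B ⊗[ℂ] H)) :=
  Dt (ac.bc B) (algebraMap B _ Q) (vdBc B ac d) fun l => iR B C (c l)

variable {ι' : Type*} [Fintype ι'] {fT : Frame ((p.bc B).pi (Fin (r + 1))) ι'}

omit [Algebra ℚ B] in
lemma nice_opM (M : Matrix (Fin (r + 1)) (Fin (r + 1)) (LaurentPolynomial (B ⊗[ℂ] C))) :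
    Nice fT (opM (ac.bc B).act M) := Nice.sum _ fun i _ => Nice.sum _ fun j _ =>
  (nice_cst (isEv_EU i j)).mul (nice_opL ((ac.bc B).pi _).ev _)

lemma nice_DB (Q : B) : Nice fT (DB d ac c Q) := (nice_D _).add (nice_opM ac _)

lemma nice_XB (t Q : B) (N s1 U1) : Nice fT (XB d ac c t Q N s1 U1) :=
  ((nice_D _).smul _).add (nice_opM ac _)

lemma XB_split (t Q : B) (N s1 U1) (m : ℕ) : ∃ Y, Nice fT Y ∧
    zp B _ (-1) * XB d ac c t Q N s1 U1 ^ m =
      Q ^ (N * m) • (zp B _ (-1) * DB d ac c Q ^ m) + t • Y := by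
  have e0 : ∀ (a : B) (M : Matrix (Fin (r + 1)) (Fin (r + 1)) (LaurentPolynomial (B ⊗[ℂ] C))),
      opM (ac.bc B).act (a • M) = a • opM (ac.bc B).act M := fun a M => by
    simp only [opM_apply, Matrix.smul_apply, map_smul, mul_smul_comm, smul_sum]
  obtain ⟨Y, h1, h2⟩ := exists_pow_split (fr := fT) (nice_DB d ac c Q)
    (((nice_D (vdPi _ (vdBc B ac d))).smul (sB t Q s1)).add
      (nice_opM ac (Matrix.of fun k' k => phB c t Q (U1 k' k)))) (Q ^ N) t m
  refine ⟨_, (nice_zp (-1)).mul h1, ?_⟩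
  rw [← mul_smul_comm, ← mul_smul_comm, ← mul_add, pow_mul, ← h2, XB, MB, map_add, e0, e0, DB, Dt,
    add_smul, smul_add, smul_add, smul_smul]
  congr 2
  abel

lemma rl_DB (f : B →ₐ[ℂ] B') (Q : B) :
    Rl (fsS (piS (jT H f) _) ℤ) (DB d ac c Q) (DB d ac c (f Q)) := by
  have := (mor_jT ac f).rl_Dt (d := vdBc B ac d) (d' := vdBc B' ac d) (rl_jT f d.μ) (rl_jT f d.ρ)
    (fun l => iR B C (c l)) (algebraMap B _ Q)
  rw [(mor_jT ac f).alg] at this
  simpa [DB] using this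

lemma rl_XB (f : B →ₐ[ℂ] B') (t Q : B) (N s1 U1) : Rl (fsS (piS (jT H f) _) ℤ)
    (XB d ac c t Q N s1 U1) (XB d ac c (f t) (f Q) N s1 U1) := by
  have e0 : ∀ {B : Type} [CommRing B] [Algebra ℂ B] [Algebra ℚ B] (t Q : B),
      XB d ac c t Q N s1 U1 = Q ^ N • DB d ac c Q + t • (sB t Q s1 • (vdPi _ (vdBc B ac d)).D +
        opM (ac.bc B).act (Matrix.of fun k' k => phB c t Q (U1 k' k))) := fun {B} _ _ _ t Q => by
    have e0 : ∀ (a : B) (M : Matrix (Fin (r + 1)) (Fin (r + 1)) (LaurentPolynomial (B ⊗[ℂ] C))),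
        opM (ac.bc B).act (a • M) = a • opM (ac.bc B).act M := fun a M => by
      simp only [opM_apply, Matrix.smul_apply, map_smul, mul_smul_comm, smul_sum]
    rw [XB, MB, map_add, e0, e0, DB, Dt, add_smul, smul_add, smul_add, smul_smul]
    abel
  have := ((rl_DB d ac c f Q).smul (Q ^ N)).add ((((rl_D (d := vdPi _ (vdBc B ac d))
    (d' := vdPi _ (vdBc B' ac d)) (rl_jT f d.μ).dg (rl_jT f d.ρ).dg).smul (sB t Q s1)).add
    (rl_opM (mor_jT ac f).act (Matrix.of fun k' k => phB c t Q (U1 k' k)))).smul t)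
  rw [e0, e0]
  rwa [show (Matrix.of fun k' k => phB c t Q (U1 k' k)).map _ =
    Matrix.of fun k' k => phB c (f t) (f Q) (U1 k' k) from
    Matrix.ext fun k' k => map_phB c f t Q _, map_pow, RingHom.coe_coe, map_sB] at this

theorem transfer_jT (f : B →ₐ[ℂ] B') (a : Fin (r + 1) → ℂ) {t Q : B} {u : Bˣ} {u' : B'ˣ}
    (hu : f u = u') {χ' : Fin (r + 1) → B' ⊗[ℂ] C} (hχ : chiK (f t) a c = χ') {D D' : ℕ}
    (hQ : Q ^ (D + 1) = 0) (hQ' : f Q ^ (D' + 1) = 0) {G G'}
    (hG : IsGS (ac.bc B) D (algebraMap B _ Q) (chiK t a c) (frT (ac.bc B) (chiK t a c) u) G)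
    (hG' : IsGS (ac.bc B') D' (algebraMap B' _ (f Q)) χ' (frT (ac.bc B') χ' u') G')
    {Z : S (((p.bc B).pi (Fin (r + 1))).fs ℕ) →ₗ[B] B}
    {Z' : S (((p.bc B').pi (Fin (r + 1))).fs ℕ) →ₗ[B'] B'}
    (hZ : ∀ x, Z' (bcS _ (isEvS_jV p B') x) = f (Z (bcS _ (isEvS_jV p B) x))) {X X'}
    (hX : Nice (frT (ac.bc B) (chiK t a c) u) X) (hX' : Nice (frT (ac.bc B') χ' u') X')
    (e : Rl (fsS (piS (jT H f) _) ℤ) X X') (x : S ((p.pi (Fin (r + 1))).fs ℕ)) :
    Z' (G' (br (frT (ac.bc B') χ' u') X' (bcS _ (isEvS_jV p B') x))) =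
      f (Z (G (br (frT (ac.bc B) (chiK t a c) u) X (bcS _ (isEvS_jV p B) x)))) := by
  have h := mor_jT ac f
  have e1 : ∀ i, (Algebra.TensorProduct.map f (AlgHom.id ℂ C) : B ⊗[ℂ] C →+* B' ⊗[ℂ] C)
      (chiK t a c i) = χ' i := fun i => by simp [← hχ, chiK]
  have e2 : ∀ y, Z' (bcS _ ((isEvS_pi h.cmp.ev (Fin (r + 1))).fs ℕ) y) = f (Z y) := fun y =>
    bcS_induction (hj := isEvS_jV p B) (P := fun y =>
      Z' (bcS _ ((isEvS_pi h.cmp.ev (Fin (r + 1))).fs ℕ) y) = f (Z y)) span_jV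
      (fun x => by rw [bcS_jT ac, hZ]) (fun x y hx hy => by simp only [map_add, hx, hy])
      (fun a x hx => by simp [hx]) y
  rw [← bcS_jT ac f, br_bcS (h.cmp_frT e1 hu) (span_piS h.span _) hX hX' e,
    h.gs e1 hu (h.alg Q) (by rw [← map_pow, hQ, map_zero])
      (by rw [← map_pow, RingHom.coe_coe, hQ', map_zero]) hG hG', e2]

/-- Words in the generators lie in the lattice after rescaling. -/
lemma exists_lat (x : S ((p.pi (Fin (r + 1))).fs ℕ)) : ∃ n : ℕ, ∀ (K : Type) [CommRing K]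
    [Algebra ℂ K] [Algebra ℚ K] {ι' : Type} [Fintype ι']
    (fT : Frame ((p.bc (Hat K K)).pi (Fin (r + 1))) ι')
    (γ : LL (Fin (r + 1) → Hat K K ⊗[ℂ] H) →ₗ[Hat K K] Hat K (LL (Fin (r + 1) → K ⊗[ℂ] H))),
    (∀ f y, (emT K ac).L _ f = Hat.single K 0 y →
      (Hat.single K r 1 : Hat K K) • γ f ∈ Hat.Lo _ _ 0) →
    Lat fT γ ((Hat.single K n 1 : Hat K K) • bcS _ (isEvS_jV p (Hat K K)) x) := by
  have mono : ∀ {K : Type} [CommRing K] (n m : ℕ), (Hat.single K (n + m : ℕ) 1 : Hat K K) =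
      Hat.single K n 1 * Hat.single K m 1 := fun n m => by rw [Hat.single_mul]; simp
  have lo : ∀ {K : Type} [CommRing K] (n : ℕ) (a : K), (Hat.single K n a : Hat K K) ∈ Hat.Lo _ _ 0 :=
    fun n a => Hat.Lo_mono (by omega) (Hat.single_Lo _ _)
  induction x using Fock.induction with
  | h1 =>
    refine ⟨0, fun K _ _ _ _ _ fT γ _ => ?_⟩
    rw [map_one (bcS _ _)]
    exact .smul _ _ (lo 0 1) .one
  | hι v x hx =>
    obtain ⟨n, hn⟩ := hx
    refine ⟨r + n, fun K _ _ _ _ _ fT γ h => ?_⟩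
    have := Lat.h (fT := fT) ((Hat.single K r 1 : Hat K K) • up _ _ (jV H _ (Hat K K) v)) _ (by
      rw [map_smul]
      refine h _ (up K _ (jV H _ K v)) ?_
      ext n m i
      rw [Emb.L_co, jV_eq, jV_eq, up_fsS, up_fsS]
      by_cases h : n = 0 <;> simp [emT, embV_tmul, Hat.co_single, h]) (hn K fT γ h)
    rwa [map_smul, map_smul, LinearMap.smul_apply, Frame.h_up, smul_smul, mul_comm, ← mono,
      ← bcS_ι (hj := isEvS_jV p (Hat K K)), ← map_mul] at this
  | hadd x y hx hy =>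
    obtain ⟨n, hn⟩ := hx
    obtain ⟨m, hm⟩ := hy
    refine ⟨n + m, fun K _ _ _ _ _ fT γ h => ?_⟩
    have := Lat.add _ _ (Lat.smul _ _ (lo m 1) (hn K fT γ h)) (Lat.smul _ _ (lo n 1) (hm K fT γ h))
    rwa [smul_smul, smul_smul, mul_comm, ← mono, ← smul_add, ← map_add] at this
  | hsmul a x hx =>
    obtain ⟨n, hn⟩ := hx
    refine ⟨n, fun K _ _ _ _ _ fT γ h => ?_⟩
    rw [bcS_smul, smul_comm]
    exact .smul _ _ (Hat.single_Lo 0 _) (hn K fT γ h)

variable {d ac c}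

/-- The Virasoro data of the bundle over a general ground ring. -/
theorem IsProj.exists_bc {ι' : Type} [Fintype ι'] {fr' : Frame (p.pi (Fin (r + 1))) ι'}
    {d' : VD fr'} (hP : IsProj d ac c d')
    (hμ : ∀ l, d.μ * ac.act (c l) = ac.act (c l) * d.μ + ac.act (c l))
    (hρ : ∀ l, d.ρ * ac.act (c l) = ac.act (c l) * d.ρ) (u : Bˣ) :
    ∃ (f0 : Frame ((p.bc B).pi (Fin (r + 1))) ι') (dE : VD f0),
      fr'.Cmp f0 (piS (j1 H B) _) (u⁻¹ : Bˣ) u ∧
      (frT (ac.bc B) (fun l => iR B C (c l)) u).η = f0.η ∧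
      (frT (ac.bc B) (fun l => iR B C (c l)) u).one = f0.one ∧
      IsE (ac.bc B) f0 (vdBc B ac d) (fun l => iR B C (c l)) dE ∧
      Rl (piS (j1 H B) _) d'.μ dE.μ ∧ Rl (piS (j1 H B) _) d'.ρ dE.ρ := by
  have h := mor_j1 B ac
  have hs := span_piS h.span (Fin (r + 1))
  have hT := isT_frT (ac.bc B) (fun l => iR B C (c l)) u
  have e1 : ∀ v w, (frT (ac.bc B) (fun l => iR B C (c l)) u).η (piS (j1 H B) _ v)
      (piS (j1 H B) _ w) = (u⁻¹ : Bˣ) * algebraMap ℂ B (fr'.η v w) := fun v w => by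
    rw [hT.η, hP.η]
    simp only [map_sum, piS_apply, ← map_xc (iR B C), h.act _ _, h.cmp.η, one_mul]
  let f0 : Frame ((p.bc B).pi (Fin (r + 1))) ι' :=
    { frT (ac.bc B) (fun l => iR B C (c l)) u with
      e := fun a => piS (j1 H B) _ (fr'.e a)
      f := fun a => (u : B) • piS (j1 H B) _ (fr'.f a)
      π := fr'.π
      he := fun a => by rw [isEvS_pi h.cmp.ev, fr'.he, map_smulₛₗ]; simp
      hf := fun a => by rw [map_smul, isEvS_pi h.cmp.ev, fr'.hf, map_smulₛₗ, smul_comm]; simp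
      left := fun v => span_ind hs (fun v => by
          conv_rhs => rw [← fr'.left v]
          simp only [map_smul, LinearMap.smul_apply, e1, smul_eq_mul, Units.mul_inv_cancel_left,
            map_sum, map_smulₛₗ])
        (fun x y hx hy => by simp only [map_add, add_smul, sum_add_distrib, hx, hy])
        (fun a x hx => by
          conv_rhs => rw [← hx, smul_sum]
          exact sum_congr rfl fun _ _ => by rw [map_smul, smul_assoc]) v }
  have hc : fr'.Cmp f0 (piS (j1 H B) _) (u⁻¹ : Bˣ) u :=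
    ⟨isEvS_pi h.cmp.ev _, e1, fun _ => rfl, fun _ => rfl, by rw [hP.one, piS_single]; rfl⟩
  have r1 : Rl (piS (j1 H B) _) d'.μ (LinearMap.pi fun k : Fin (r + 1) =>
      (d.μ.baseChange B + (((k : ℕ) : B) - r * hf B) • 1) ∘ₗ LinearMap.proj k) := fun v => by
    funext k
    have : algebraMap ℂ B (r / 2) = r * hf B := by
      rw [← map_hf (algebraMap ℂ B), ← map_natCast (algebraMap ℂ B), ← map_mul, hf]
      congr 1; simp [div_eq_mul_inv]
    rw [piS_apply, hP.μ, map_add, map_smulₛₗ, map_sub, this, map_natCast]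
    rfl
  have r2 : Rl (piS (j1 H B) _) d'.ρ (LinearMap.pi fun k : Fin (r + 1) =>
      (d.ρ.baseChange B + (ac.bc B).act (∑ l, iR B C (c l))) ∘ₗ LinearMap.proj k +
      ((r : B) + 1) • ∑ l : Fin (r + 1),
        (ac.bc B).act (xc (fun l => iR B C (c l)) (l + 1) k) ∘ₗ LinearMap.proj l) := fun v => by
    funext k
    rw [piS_apply, hP.ρ, map_add, map_add, map_smulₛₗ, map_sum (j1 H B), ← h.act,
      ← map_sum (iR B C)]
    simp only [← h.act _ _, map_xc (iR B C), LinearMap.pi_apply,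
      LinearMap.add_apply, LinearMap.comp_apply, LinearMap.smul_apply, LinearMap.sum_apply,
      LinearMap.proj_apply, piS_apply, map_add, map_natCast, map_one]
    rfl
  refine ⟨f0, vdOf d' hc hs r1 r2, hc, rfl, rfl, ⟨fun l => ?_, fun l => ?_, fun _ _ => rfl,
    fun v k => ?_⟩, r1, r2⟩
  · exact ((rl_j1 d.μ).mul (h.act _)).unique h.span
      (hμ l ▸ ((h.act _).mul (rl_j1 d.μ)).add (h.act _))
  · exact ((rl_j1 d.ρ).mul (h.act _)).unique h.span (hρ l ▸ (h.act _).mul (rl_j1 d.ρ))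
  · simp only [vdOf, LinearMap.pi_apply, LinearMap.add_apply, LinearMap.comp_apply,
      LinearMap.smul_apply, LinearMap.sum_apply, LinearMap.proj_apply]
    rfl

end Vale.Agent.P269.B
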