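import Vale.Agent.P269.B.GDef

/-! Homogeneity of the hypergeometric series. -/

namespace Vale.Agent.P269.B

open Fock Finset TensorProduct

namespace HomP

section ring

variable {R E : Type*} [CommRing R] [Ring E] (φ : R →+* E) (X : E) (z : R) (θ : R →+ R)

/-- `x` is homogeneous of degree `k`. -/
def Hg (k : ℤ) (x : R) : Prop := X * φ x - φ x * X = φ (z * (θ x + k • x))

variable {φ X z θ} {k l : ℤ} {x y : R}

lemma Hg.zero : Hg φ X z θ k 0 := by simp [Hg]

lemma Hg.add (hx : Hg φ X z θ k x) (hy : Hg φ X z θ k y) : Hg φ X z θ k (x + y) := by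
  unfold Hg at *
  rw [map_add, mul_add, add_mul, add_sub_add_comm, hx, hy, ← map_add, map_add θ]
  congr 1
  simp only [zsmul_eq_mul]
  ring

lemma Hg.neg (hx : Hg φ X z θ k x) : Hg φ X z θ k (-x) := by
  unfold Hg at *
  rw [map_neg, mul_neg, neg_mul, neg_sub_neg, ← neg_sub, hx, ← map_neg, map_neg θ]
  congr 1
  simp only [zsmul_eq_mul]
  ring

lemma Hg.sub (hx : Hg φ X z θ k x) (hy : Hg φ X z θ k y) : Hg φ X z θ k (x - y) := by
  rw [sub_eq_add_neg]
  exact hx.add hy.neg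

lemma Hg.sum {α : Type*} (s : Finset α) {f : α → R} (h : ∀ a ∈ s, Hg φ X z θ k (f a)) :
    Hg φ X z θ k (∑ a ∈ s, f a) := sum_induction _ _ (fun _ _ => Hg.add) Hg.zero h

lemma Hg.cast (hx : Hg φ X z θ k x) (h : k = l) : Hg φ X z θ l x := h ▸ hx

variable (hθ : ∀ x y, θ (x * y) = θ x * y + x * θ y)
include hθ

lemma Hg.mul (hx : Hg φ X z θ k x) (hy : Hg φ X z θ l y) : Hg φ X z θ (k + l) (x * y) := by
  unfold Hg at *
  have e : X * (φ x * φ y) - φ x * φ y * X =
      (X * φ x - φ x * X) * φ y + φ x * (X * φ y - φ y * X) := by noncomm_ring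
  rw [map_mul, e, hx, hy, ← map_mul, ← map_mul, ← map_add, hθ]
  congr 1
  simp only [zsmul_eq_mul]
  push_cast
  ring

lemma th_one : θ 1 = 0 := by simpa using hθ 1 1

lemma Hg.one : Hg φ X z θ 0 1 := by simp [Hg, th_one hθ]

lemma Hg.nat (n : ℕ) : Hg φ X z θ 0 n := by
  induction n with
  | zero => simpa using Hg.zero
  | succ n ih => simpa using ih.add (Hg.one hθ)

lemma Hg.prod {α : Type*} (s : Finset α) {f : α → R} (h : ∀ a ∈ s, Hg φ X z θ k (f a)) :
    Hg φ X z θ (s.card * k) (∏ a ∈ s, f a) := by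
  classical
  induction s using Finset.induction_on with
  | empty => simpa using Hg.one hθ
  | insert a s ha ih =>
    rw [prod_insert ha, card_insert_of_notMem ha]
    exact ((h a (mem_insert_self _ _)).mul hθ (ih fun b hb => h b (mem_insert_of_mem hb))).cast
      (by push_cast; ring)

lemma Hg.pow (hx : Hg φ X z θ k x) (n : ℕ) : Hg φ X z θ (n * k) (x ^ n) := by
  simpa using Hg.prod hθ (range n) (f := fun _ => x) fun _ _ => hx

lemma Hg.inv (hx : Hg φ X z θ k x) : Hg φ X z θ (-k) (Ring.inverse x) := by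
  by_cases h : IsUnit x
  · obtain ⟨y, hy, e⟩ : ∃ y, y = Ring.inverse x ∧ x * y = 1 := ⟨_, rfl, Ring.mul_inverse_cancel x h⟩
    rw [← hy]
    have h1 := hθ x y
    rw [e, th_one hθ] at h1
    have e1 : φ x * φ y = 1 := by rw [← map_mul, e, map_one]
    have e2 : φ y * φ x = 1 := by rw [← map_mul, mul_comm, e, map_one]
    have e3 : X * φ y - φ y * X = -(φ y * (X * φ x - φ x * X) * φ y) := by
      rw [mul_sub, sub_mul, ← mul_assoc _ (φ x), e2, one_mul, mul_assoc, mul_assoc, e1, mul_one,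
        neg_sub]
    unfold Hg at *
    rw [e3, hx, ← map_mul, ← map_mul, ← map_neg]
    congr 1
    simp only [zsmul_eq_mul]
    push_cast
    linear_combination (z * θ y - z * k * y) * e + z * y * h1
  · rw [Ring.inverse_non_unit x h]
    exact Hg.zero

lemma Hg.nS {σ : Type} [Fintype σ] {Q ξ : R} {χ : σ → R} (hQ : Hg φ X z θ (Fintype.card σ) Q)
    (hξ : Hg φ X z θ 1 ξ) (hχ : ∀ j, Hg φ X z θ 1 (χ j)) (hz : Hg φ X z θ 1 z) (D n : ℕ) :
    Hg φ X z θ n (nS D Q ξ χ z n) := by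
  refine Hg.sum _ fun d _ => ?_
  have h1 : ∀ m : ℕ, Hg φ X z θ 1 (m * z) := fun m => ((Hg.nat hθ m).mul hθ hz).cast (zero_add _)
  have h2 := Hg.prod hθ univ fun j _ => Hg.prod hθ (range d) fun m _ =>
    (hξ.add (hχ j)).sub (by simpa using h1 (m + 1) : Hg φ X z θ 1 (((m : R) + 1) * z))
  refine ((hQ.pow hθ d).mul hθ (((hξ.sub (h1 d)).pow hθ n).mul hθ (h2.inv hθ))).cast ?_
  rw [card_range, card_univ]
  ring

end ring

variable {K : Type} [CommRing K] [Algebra ℚ K] {H : Type} [AddCommGroup H] [Module K H]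
  {p : Par K H} {ι : Type} [Fintype ι] {fr : Frame p ι} {C : Type} [CommRing C] [Algebra K C]

lemma D_zp {ι : Type*} [Fintype ι] {fr : Frame p ι} (d : VD fr) :
    d.D * zp K H 1 - zp K H 1 * d.D = zp K H 1 * zp K H 1 := LL_ext fun i v => by
  simp only [LinearMap.sub_apply, Module.End.mul_apply, zp_single, d.D_single, map_add,
    add_sub_add_right_eq_sub, ← Finsupp.single_sub]
  congr 1
  push_cast
  module

lemma D_cst {ι : Type*} [Fintype ι] {fr : Frame p ι} (d : VD fr) {x : Module.End K H}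
    (h : d.μ * x = x * d.μ + x) (h' : d.ρ * x = x * d.ρ) :
    d.D * cst x - cst x * d.D = zp K H 1 * cst x := LL_ext fun i v => by
  have e := LinearMap.congr_fun h v
  have e' := LinearMap.congr_fun h' v
  simp only [Module.End.mul_apply, LinearMap.add_apply] at e e'
  simp only [LinearMap.sub_apply, Module.End.mul_apply, zp_single, d.D_single, map_add, cst_single,
    e, e', map_smul, add_sub_add_right_eq_sub, ← Finsupp.single_sub]
  congr 1
  module

variable (ac : Act fr C) (d : VD fr) (σ : Type) [Fintype σ] [DecidableEq σ]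

/-- Homogeneity of a series. -/
abbrev Hs (k : ℤ) (x : RH K C) : Prop :=
  Hg (opH ac σ).toRingHom (Hat.C K (vdPi σ d).D) (zH K C 1) (Hat.th K _).toAddMonoidHom k x

lemma hs_C {x : LaurentPolynomial C} (h : (vdPi σ d).D * opL ((dg σ).comp ac.act) x -
    opL ((dg σ).comp ac.act) x * (vdPi σ d).D = zp K _ 1 * opL ((dg σ).comp ac.act) x) :
    Hs ac d σ 1 (Hat.C K x) := by
  change _ * opH ac σ _ - opH ac σ _ * _ = opH ac σ (_ * (Hat.th K _ _ + _))
  rw [one_smul, Hat.C_apply x, Hat.th_cst, zero_add, ← Hat.C_apply, map_mul, opH_zH, opH_C,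
    ← map_mul, ← map_mul, ← map_sub, h, map_mul]

lemma hs_z : Hs ac d σ 1 (zH K C 1) := hs_C ac d σ (by rw [opL_T]; exact D_zp _)

lemma hs_c {x : C} (h : d.μ * ac.act x = ac.act x * d.μ + ac.act x)
    (h' : d.ρ * ac.act x = ac.act x * d.ρ) : Hs ac d σ 1 (Hat.C K (LaurentPolynomial.C x)) :=
  hs_C ac d σ (by
    rw [opL_C]
    exact D_cst _ (LinearMap.ext fun v => funext fun j => LinearMap.congr_fun h (v j))
      (LinearMap.ext fun v => funext fun j => LinearMap.congr_fun h' (v j)))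

lemma hs_single (n : ℤ) (a : K) :
    Hs ac d σ (-n) (algebraMap (Hat K K) (RH K C) (Hat.single K n a)) := by
  change _ * opH ac σ _ - opH ac σ _ * _ = opH ac σ (_ * (Hat.th K _ _ + _))
  have e : ∀ v : LaurentPolynomial C, Hat.th K _ (Hat.single K n v) + (-n) • Hat.single K n v = 0 :=
    fun v => by
      ext1
      funext m
      rw [Hat.co_add, Hat.co_th, Int.cast_smul_eq_zsmul, Hat.co_smul, Hat.co_single, ← add_smul]
      split_ifs with h <;> simp [h]
  rw [AlgHom.commutes, ← Algebra.commutes, sub_self, Hat.algebraMap_hat, Hat.mapR_single, e,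
    mul_zero, map_zero]

end HomP

open HomP

section gen

variable {H : Type} [AddCommGroup H] [Module ℂ H] {p : Par ℂ H} {ι : Type} [Fintype ι]
  {fr : Frame p ι} {C : Type} [CommRing C] [Algebra ℂ C] (ac : Act fr C) {r : ℕ}
  (c : Fin (r + 1) → C) (a : Fin (r + 1) → ℂ) (K : Type) [CommRing K] [Algebra ℂ K] [Algebra ℚ K]

lemma HomP.hs_nH {d : VD fr} (hμ : ∀ l, d.μ * ac.act (c l) = ac.act (c l) * d.μ + ac.act (c l))
    (hρ : ∀ l, d.ρ * ac.act (c l) = ac.act (c l) * d.ρ) (q : K) (D : ℕ) (i k : Fin (r + 1)) :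
    Hs (ac.bc K) (vdBc K ac d) (Fin (r + 1)) (k : ℕ) (nH (emT K ac)
      (chiK (Hat.single K (-1) 1 : Hat K K) a c) D
      (algebraMap (Hat K K) _ (Hat.single K (-(r + 1)) q)) i k) := by
  have h1 : ∀ j, Hs (ac.bc K) (vdBc K ac d) (Fin (r + 1)) 1
      ((emT K ac).atA (chiK (Hat.single K (-1) 1 : Hat K K) a c j)) := fun j => by
    have e1 : (a j • (Hat.single K (-1) 1 : Hat K K)) ⊗ₜ[ℂ] (1 : C) =
        algebraMap (Hat K K) _ (Hat.single K (-1) (a j • (1 : K))) := by
      rw [Algebra.TensorProduct.algebraMap_apply, Algebra.algebraMap_self, RingHom.id_apply]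
      congr 1
      ext n
      simp [Hat.co_single]
    have e2 : (emT K ac).atA (1 ⊗ₜ c j) = Hat.C K (LaurentPolynomial.C (1 ⊗ₜ c j)) :=
      (congrArg (Hat.mapA (lC K _)) ((embC_tmul K 1 (c j)).trans (one_smul _ _))).trans (mapA_C _ _)
    have e3 : (ac.bc K).act (1 ⊗ₜ c j) = (ac.act (c j)).baseChange K :=
      (actBC_tmul ac K 1 _).trans (one_smul _ _)
    rw [chiK, map_add, e1, e2, AlgHom.commutes]
    refine (hs_single _ _ _ (-1) _).add (hs_c _ _ _ ?_ ?_)
    · rw [e3]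
      change d.μ.baseChange K * _ = _ * d.μ.baseChange K + _
      rw [← LinearMap.baseChange_mul, hμ, LinearMap.baseChange_add, LinearMap.baseChange_mul]
    · rw [e3]
      change d.ρ.baseChange K * _ = _ * d.ρ.baseChange K
      rw [← LinearMap.baseChange_mul, hρ, LinearMap.baseChange_mul]
  refine Hg.nS (Hat.th_mul) ?_ ?_ h1 (hs_z _ _ _) D k
  · rw [AlgHom.commutes]
    exact (hs_single _ _ _ _ q).cast (by simp)
  · rw [map_neg]
    exact (h1 i).neg

end gen

variable {H : Type} [AddCommGroup H] [Module ℂ H] {p : Par ℂ H} {ι : Type} [Fintype ι]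
  {fr : Frame p ι} {C : Type} [CommRing C] [Algebra ℂ C] (ac : Act fr C) {r : ℕ}
  (c : Fin (r + 1) → C) {a : Fin (r + 1) → ℂ} (ha : Function.Injective a)
include ha

set_option linter.unusedSectionVars false in
/-- Homogeneity. -/
theorem nB_hom {d : VD fr} (hμ : ∀ l, d.μ * ac.act (c l) = ac.act (c l) * d.μ + ac.act (c l))
    (hρ : ∀ l, d.ρ * ac.act (c l) = ac.act (c l) * d.ρ) (D : ℕ) (i k : Fin (r + 1)) :
    Hat.C _ (vdPi (Fin (r + 1)) (vdBc (K1 D) ac d)).D * opH (ac.bc (K1 D)) _ (nB ac c a D i k) -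
      opH (ac.bc (K1 D)) _ (nB ac c a D i k) * Hat.C _ (vdPi (Fin (r + 1)) (vdBc (K1 D) ac d)).D =
    opH (ac.bc (K1 D)) _
      (zH _ _ 1 * (Hat.th _ _ (nB ac c a D i k) + (k : ℕ) • nB ac c a D i k)) := by
  rw [← natCast_zsmul]
  exact hs_nH ac c a (K1 D) hμ hρ (q1 D) D i k

end Vale.Agent.P269.B
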