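import Vale.Agent.P269.B.Inst

/-! Virasoro constraints for the twisted theory: the concrete series. -/

set_option linter.unusedSectionVars false

namespace Vale.Agent.P269.B

open Fock Finset TensorProduct

namespace QrrB

section hm

variable {K R : Type*} [CommRing K] [Ring R] [Algebra K R] {D z A B : R} {m n : K}

/-- Homogeneous operators. -/
def Hm (D z : R) (n : K) (A : R) : Prop := D * A - A * D = z * (n • A) ∧ A * z = z * A

lemma Hm.mul (h : Hm D z m A) (h' : Hm D z n B) : Hm D z (m + n) (A * B) := by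
  refine ⟨?_, by rw [mul_assoc, h'.2, ← mul_assoc, h.2, mul_assoc]⟩
  have e : D * (A * B) - A * B * D = (D * A - A * D) * B + A * (D * B - B * D) := by noncomm_ring
  rw [e, h.1, h'.1, ← mul_assoc A, h.2, add_smul, mul_add]
  simp only [mul_assoc, smul_mul_assoc, mul_smul_comm]

lemma Hm.one : Hm D z (0 : K) 1 := ⟨by simp, by simp⟩

lemma Hm.zero : Hm D z n 0 := ⟨by simp, by simp⟩

lemma Hm.pow (h : Hm D z (1 : K) A) (k : ℕ) : Hm D z (k : K) (A ^ k) := by
  induction k with
  | zero => simpa using Hm.one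
  | succ k ih => rw [pow_succ, Nat.cast_succ]; exact ih.mul h

lemma Hm.add (h : Hm D z n A) (h' : Hm D z n B) : Hm D z n (A + B) :=
  ⟨by rw [mul_add, add_mul, smul_add, mul_add, ← h.1, ← h'.1]; abel,
    by rw [add_mul, mul_add, h.2, h'.2]⟩

lemma Hm.smul (h : Hm D z n A) (c : K) : Hm D z n (c • A) :=
  ⟨by rw [mul_smul_comm, smul_mul_assoc, ← smul_sub, h.1, smul_comm n, mul_smul_comm c],
    by rw [mul_smul_comm, smul_mul_assoc, h.2]⟩

lemma Hm.sum {α : Type*} (s : Finset α) {A : α → R} (h : ∀ a ∈ s, Hm D z n (A a)) :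
    Hm D z n (∑ a ∈ s, A a) := sum_induction _ _ (fun _ _ => Hm.add) Hm.zero h

end hm

section quad

variable {K : Type*} [CommRing K] {H : Type*} [AddCommGroup H] [Module K H] {p : Par K H}
  {ι : Type*} [Fintype ι] {fr : Frame p ι} {A B : Module.End K (LL H)}

lemma quad_cst_mul {a : Module.End K H} (ha : IsEv p p a)
    (hs : ∀ v w, fr.η (a v) w = fr.η v (a w)) (hA : fr.Quad A) (e : A * cst a = cst a * A) :
    fr.Quad (cst a * A) := by
  refine ⟨ha.cst.mul hA.ev, ?_, hA.fin.imp fun N hN m hm v => ?_⟩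
  · exact fun y y' => ((Frame.adj_cst hs).mul hA.adj y y').trans
      (congrArg (fun z => fr.Ω y (-z)) (LinearMap.congr_fun e y'))
  · ext k
    have := DFunLike.congr_fun (hN m hm v) k
    rw [pos_apply] at this
    rw [pos_apply, Module.End.mul_apply, cst_apply, this]
    simp

lemma quad_zp {n : ℤ} (hn : Odd n) : fr.Quad (zp K H n) := by
  refine Frame.Quad.of_up (isEv_zp p n) ?_ (up_zp n)
  intro y y'
  rw [Frame.adj_zp n y y', sg, Int.negOnePow_odd n hn]
  simp

variable [Algebra ℚ K]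

lemma qm_add (hA : fr.Quad A) (hB : fr.Quad B) : fr.qm (A + B) = fr.qm A + fr.qm B := by
  rw [(hA.add hB).qm_eq, hA.qm_eq, hB.qm_eq, ← map_add]
  refine congrArg _ (Subtype.ext (LinearMap.ext fun v => ?_))
  rw [(hA.add hB).qf_val, Submodule.coe_add, LinearMap.add_apply (fr.qf A).1, hA.qf_val, hB.qf_val,
    LinearMap.add_apply, map_add]

lemma qm_smul (hA : fr.Quad A) (c : K) : fr.qm (c • A) = c • fr.qm A := by
  rw [(hA.smul c).qm_eq, hA.qm_eq, ← map_smul]
  refine congrArg _ (Subtype.ext (LinearMap.ext fun v => ?_))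
  rw [(hA.smul c).qf_val, Submodule.coe_smul, LinearMap.smul_apply c (fr.qf A).1, hA.qf_val,
    LinearMap.smul_apply, map_smul]

lemma q1_add (hA : fr.Quad A) (hB : fr.Quad B) : fr.q1 (A + B) = fr.q1 A + fr.q1 B := by
  obtain ⟨N, hN⟩ := hA.fin
  obtain ⟨M, hM⟩ := hB.fin
  have h1 := fun m (hm : max N M ≤ m) => hN m (le_of_max_le_left hm)
  have h2 := fun m (hm : max N M ≤ m) => hM m (le_of_max_le_right hm)
  rw [Frame.q1_eq, Frame.q1_eq, Frame.q1_eq, ← map_add, Frame.cas_eq h1, Frame.cas_eq h2,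
    Frame.cas_eq (N := max N M) fun m hm v => by
      rw [LinearMap.add_apply, map_add, h1 m hm, h2 m hm, add_zero], ← smul_add, ← sum_add_distrib]
  simp [Frame.casT, mul_add, sum_add_distrib]

lemma q1_smul (hA : fr.Quad A) (c : K) : fr.q1 (c • A) = c • fr.q1 A := by
  obtain ⟨N, hN⟩ := hA.fin
  rw [Frame.q1_eq, Frame.q1_eq, ← map_smul, Frame.cas_eq hN, Frame.cas_eq (N := N) fun m hm v => by
      rw [LinearMap.smul_apply, map_smul, hN m hm, smul_zero], smul_comm c, smul_sum (r := c)]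
  simp [Frame.casT, smul_sum, smul_comm c]

lemma qm_sum {α : Type*} (s : Finset α) {A : α → Module.End K (LL H)} (h : ∀ a, fr.Quad (A a))
    (c : α → K) : fr.qm (∑ a ∈ s, c a • A a) = ∑ a ∈ s, c a • fr.qm (A a) := by
  classical
  induction s using Finset.induction_on with
  | empty => simpa using qm_smul (Frame.Quad.zero (fr := fr)) 0
  | insert a s ha ih =>
    rw [sum_insert ha, sum_insert ha, qm_add ((h a).smul _)
      (Frame.Quad.sum _ fun b _ => (h b).smul _), qm_smul (h a), ih]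

lemma q1_sum {α : Type*} (s : Finset α) {A : α → Module.End K (LL H)} (h : ∀ a, fr.Quad (A a))
    (c : α → K) : fr.q1 (∑ a ∈ s, c a • A a) = ∑ a ∈ s, c a • fr.q1 (A a) := by
  classical
  induction s using Finset.induction_on with
  | empty => simpa using q1_smul (Frame.Quad.zero (fr := fr)) 0
  | insert a s ha ih =>
    rw [sum_insert ha, sum_insert ha, q1_add ((h a).smul _)
      (Frame.Quad.sum _ fun b _ => (h b).smul _), q1_smul (h a), ih]

lemma q0_bcS {K' : Type*} [CommRing K'] [Algebra ℚ K'] {φ : K →+* K'} {H' : Type*} [AddCommGroup H']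
    [Module K' H'] {p' : Par K' H'} {fr' : Frame p' ι} {j : H →ₛₗ[φ] H'} {u u' : K'}
    (h : fr.Cmp fr' j u u') {A' : Module.End K' (LL H')} (hA : IsEv (p.fs ℤ) (p.fs ℤ) A)
    (hA' : IsEv (p'.fs ℤ) (p'.fs ℤ) A') (e : Rl (fsS j ℤ) A A') (x : S (p.fs ℕ)) :
    fr'.q0 A' (bcS _ (h.ev.fs ℕ) x) = bcS _ (h.ev.fs ℕ) (fr.q0 A x) := by
  rw [Frame.q0_eq, Frame.q0_eq, h.dil]
  exact Q0_bcS ((isEv_pos p).comp (hA.comp (isEv_up p)))
    ((isEv_pos p').comp (hA'.comp (isEv_up p'))) (fun v => by simp [up_fsS, e _, pos_fsS]) _ _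

variable {d : VD fr}

lemma hm_zp (k : ℤ) : Hm d.D (zp K H 1) (k : K) (zp K H k) :=
  ⟨LL_ext fun i v => by
    simp only [LinearMap.sub_apply, Module.End.mul_apply, zp_single, d.D_single, map_add,
      LinearMap.smul_apply, add_right_comm i k 1, Finsupp.smul_single,
      add_sub_add_right_eq_sub, ← Finsupp.single_sub]
    congr 1
    push_cast
    module, zp_comm _ _⟩

lemma hm_cst {x : Module.End K H} (h : d.μ * x = x * d.μ + x) (h' : d.ρ * x = x * d.ρ) :
    Hm d.D (zp K H 1) (1 : K) (cst x) :=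
  ⟨LL_ext fun i v => by
    have e := LinearMap.congr_fun h v
    have e' := LinearMap.congr_fun h' v
    simp only [Module.End.mul_apply, LinearMap.add_apply] at e e'
    simp only [LinearMap.sub_apply, Module.End.mul_apply, zp_single, d.D_single, map_add,
      cst_single, one_smul, map_smul, e, e', add_sub_add_right_eq_sub, ← Finsupp.single_sub]
    congr 1
    abel, cst_zp _ _⟩

end quad

section cmp

variable {K : Type*} [CommRing K] {H : Type*} [AddCommGroup H] [Module K H] {p : Par K H}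
  {ι : Type*} [Fintype ι] {fr : Frame p ι} {C : Type*} [CommRing C] [Algebra K C] {σ : Type}
  [Fintype σ] [DecidableEq σ]

lemma mapL_id (x : LaurentPolynomial C) : mapL (RingHom.id C) x = x := by
  induction x using LaurentPolynomial.induction_on' with
  | add a b ha hb => rw [map_add, ha, hb]
  | C_mul_T n a => simp

lemma cmp_eq (i : σ) {A : Module.End K (LL H)} {A' : Module.End K (LL (σ → H))}
    (h : Rl (fsS (LinearMap.proj i : (σ → H) →ₗ[K] H) ℤ) A' A) :
    cmp i A = cst (EU K H i i) * A' := LinearMap.ext fun y => by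
  ext n : 1
  exact congrArg (fun z : LL H => (Pi.single i (z n) : σ → H)) (h y)

lemma cmp_opL (i : σ) (act : C →ₐ[K] Module.End K H) (x : LaurentPolynomial C) :
    cmp i (opL act x) = cst (EU K H i i) * opL ((dg σ).comp act) x := by
  refine cmp_eq i ?_
  have := rl_opL (j := (LinearMap.proj i : (σ → H) →ₗ[K] H)) (act := (dg σ).comp act)
    (act' := act) (ψ := RingHom.id C) (fun _ _ => rfl) x
  rwa [mapL_id] at this

lemma cmp_ell [Algebra ℚ K] (i : σ) (d : VD fr) (k : ℕ) :
    cmp i (d.ell k) = cst (EU K H i i) * (vdPi σ d).ell k :=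
  cmp_eq i (rl_ell (d := vdPi σ d) (d' := d) (fun _ => rfl) (fun _ => rfl) k)

lemma quad_ell [Algebra ℚ K] (i : σ) (d : VD fr) (k : ℕ) :
    (fr.pi σ).Quad (cst (EU K H i i) * (vdPi σ d).ell k) :=
  quad_cst_mul (isEv_EU i i) (adj_EU i i) ((vdPi σ d).quad_ell k) (LinearMap.ext
    (rl_ell (j := EU K H i i) (d := vdPi σ d) (d' := vdPi σ d) (fun _ => dg_single _ _ _)
      (fun _ => dg_single _ _ _) k))

variable (C) in
/-- Odd Laurent polynomials. -/
noncomputable def OdL : AddSubmonoid (LaurentPolynomial C) :=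
  .closure {x | ∃ a n, Odd n ∧ x = LaurentPolynomial.C a * LaurentPolynomial.T n}

lemma odL_ind {P : LaurentPolynomial C → Prop} (h0 : P 0) (h1 : ∀ x y, P x → P y → P (x + y))
    (h2 : ∀ a n, Odd n → P (LaurentPolynomial.C a * LaurentPolynomial.T n))
    {x : LaurentPolynomial C} (hx : x ∈ OdL C) : P x := by
  induction hx using AddSubmonoid.closure_induction with
  | mem x hx => obtain ⟨a, n, hn, rfl⟩ := hx; exact h2 a n hn
  | zero => exact h0
  | add x y _ _ hx hy => exact h1 x y hx hy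

lemma mem_odL (a : C) {n : ℤ} (hn : Odd n) :
    LaurentPolynomial.C a * LaurentPolynomial.T n ∈ OdL C :=
  AddSubmonoid.subset_closure ⟨a, n, hn, rfl⟩

lemma C_mul_odL (a : C) {x : LaurentPolynomial C} (hx : x ∈ OdL C) :
    LaurentPolynomial.C a * x ∈ OdL C :=
  odL_ind (P := fun x => LaurentPolynomial.C a * x ∈ OdL C) (by simp)
    (fun x y hx hy => by rw [mul_add]; exact add_mem hx hy)
    (fun b n hn => by rw [← mul_assoc, ← map_mul]; exact mem_odL _ hn) hx

lemma mapL_odL {C' : Type*} [CommRing C'] (ψ : C →+* C') {x : LaurentPolynomial C}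
    (hx : x ∈ OdL C) : mapL ψ x ∈ OdL C' :=
  odL_ind (P := fun x => mapL ψ x ∈ OdL C') (by simp)
    (fun x y hx hy => by rw [map_add]; exact add_mem hx hy)
    (fun b n hn => by rw [map_mul, mapL_C, mapL_T]; exact mem_odL _ hn) hx

lemma coeff_odL {x : LaurentPolynomial C} (hx : x ∈ OdL C) {k : ℤ} (hk : Even k) : x.coeff k = 0 :=
  odL_ind (P := fun x => x.coeff k = 0) rfl
    (fun x y hx hy => by rw [AddMonoidAlgebra.coeff_add, Finsupp.add_apply, hx, hy, add_zero])
    (fun b n hn => by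
      rw [← LaurentPolynomial.single_eq_C_mul_T, AddMonoidAlgebra.coeff_single,
        Finsupp.single_eq_of_ne]
      rintro rfl
      exact Int.not_odd_iff_even.2 hk hn) hx

lemma quad_odL (ac : Act fr C) {x : LaurentPolynomial C} (hx : x ∈ OdL C) :
    fr.Quad (opL ac.act x) :=
  odL_ind (P := fun x => fr.Quad (opL ac.act x)) (by simpa using Frame.Quad.zero)
    (fun x y hx hy => by rw [map_add]; exact hx.add hy)
    (fun b n hn => by
      rw [map_mul, opL_C, opL_T]
      exact quad_cst_mul (ac.ev b) (ac.adj b) (quad_zp hn) (cst_zp _ _).symm) hx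

lemma quad_odd (ac : Act fr C) (i : σ) {x : LaurentPolynomial C} (hx : x ∈ OdL C) :
    (fr.pi σ).Quad (cst (EU K H i i) * opL ((dg σ).comp ac.act) x) :=
  quad_cst_mul (isEv_EU i i) (adj_EU i i) (quad_odL (ac.pi σ) hx) ((units_opL ac.act).comm i i x)

end cmp

section ser

variable {K A : Type*} [CommRing K] [CommRing A] [Algebra K A]

variable (K) in
/-- `- ε x / (1 + ε x)`. -/
noncomputable def gS (x : A) : Hat K A :=
  Hat.ofPS K (PowerSeries.mk fun k => if k = 0 then 0 else (-x) ^ k)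

lemma th_fac (x : A) : Hat.th K A (1 + Hat.C K x * Hat.single K 1 1) =
    -gS K x * (1 + Hat.C K x * Hat.single K 1 1) := by
  have e : (PowerSeries.mk fun k => if k = 0 then 0 else (-x) ^ k) *
      (1 + PowerSeries.C x * PowerSeries.X) = -(PowerSeries.C x * PowerSeries.X) := by
    ext n
    rcases n with _ | _ | n
    · simp
    · simp [mul_add, ← mul_assoc, PowerSeries.coeff_succ_mul_X]
    · simp [mul_add, ← mul_assoc, PowerSeries.coeff_succ_mul_X, pow_succ]
  have e' := congrArg (Hat.ofPS K) e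
  rw [map_mul, map_add, map_one, map_neg, map_mul, Hat.ofPS_C, Hat.ofPS_X] at e'
  rw [neg_mul, gS, e', neg_neg, map_add, Hat.one_def, Hat.th_cst, zero_add, Hat.C_apply,
    Hat.single_mul]
  ext n
  simp only [Hat.co_th, Hat.co_single]
  split_ifs with h <;> simp [h]

lemma th_prod {α : Type*} (s : Finset α) {f g : α → Hat K A}
    (h : ∀ a, Hat.th K A (f a) = g a * f a) :
    Hat.th K A (∏ a ∈ s, f a) = (∑ a ∈ s, g a) * ∏ a ∈ s, f a := by
  classical
  induction s using Finset.induction_on with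
  | empty => simp [Hat.one_def]
  | insert a s ha ih => rw [prod_insert ha, sum_insert ha, Hat.th_mul, ih, h]; ring

lemma th_inv {b b' g : Hat K A} (e : b * b' = 1) (h : Hat.th K A b' = g * b') :
    Hat.th K A b = -(g * b) := by
  have h1 := congrArg (Hat.th K A) e
  rw [Hat.th_mul, h, Hat.one_def, Hat.th_cst] at h1
  linear_combination b * h1 - (Hat.th K A b + g * b) * e

lemma smul_mul_smul_hat (a b : K) (x y : Hat K A) : a • x * b • y = (a * b) • (x * y) :=
  smul_mul_smul_comm a x b y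

lemma prod_smul_hat {α : Type*} (s : Finset α) (a : α → K) (x : α → Hat K A) :
    ∏ l ∈ s, a l • x l = (∏ l ∈ s, a l) • ∏ l ∈ s, x l := prod_smul s a x

lemma prod_smul_hat' {α : Type*} (s : Finset α) (a : α → Hat K K) (x : α → Hat K A) :
    ∏ l ∈ s, a l • x l = (∏ l ∈ s, a l) • ∏ l ∈ s, x l := prod_smul s a x

end ser

section gen

variable {σ : Type} [Fintype σ] [DecidableEq σ] {D : ℕ} {w : σ → ℂ} {z z' : (σ → ℤ) → ℂ}
  {y y' : K1 D}

/-- Generating series of bounded families. -/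
def G (D : ℕ) (w : σ → ℂ) (z : (σ → ℤ) → ℂ) (y : K1 D) : Prop := Bd z ∧ IsGen D w z y

lemma G.add (h : G D w z y) (h' : G D w z' y') : G D w (fun jv => z jv + z' jv) (y + y') :=
  ⟨h.1.add h'.1, h.2.add h.1 h'.1 h'.2⟩

lemma G.smul (h : G D w z y) (c : ℂ) : G D w (fun jv => c * z jv) (c • y) :=
  ⟨h.1.smul c, h.2.smul h.1 c⟩

lemma G.sub (h : G D w z y) (h' : G D w z' y') : G D w (fun jv => z jv - z' jv) (y - y') := by
  simpa [sub_eq_add_neg] using h.add (h'.smul (-1))

lemma G.zero : G D w (fun _ => 0) 0 := ⟨⟨0, fun _ h => absurd rfl h⟩, IsGen.zero⟩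

lemma G.sum {α : Type*} (s : Finset α) {z : α → (σ → ℤ) → ℂ} {y : α → K1 D}
    (h : ∀ a, G D w (z a) (y a)) : G D w (fun jv => ∑ a ∈ s, z a jv) (∑ a ∈ s, y a) := by
  classical
  induction s using Finset.induction_on with
  | empty => exact G.zero
  | insert a s ha ih => simp only [sum_insert ha]; exact (h a).add ih

lemma G.up (hw : ∀ i, w i ≠ 0) (h : G D w z y) (i : σ) :
    G D w (fun jv => z (jv - Pi.single i 1)) ((w i • hb1 D 1) * y) :=
  ⟨by simpa only [sub_eq_add_neg] using h.1.shift (-Pi.single i 1),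
    by simpa only [zpow_one, smul_mul_assoc] using h.2.shift hw i 1⟩

lemma G.down (hw : ∀ i, w i ≠ 0) (h : G D w z y) (i : σ) :
    G D w (fun jv => z (jv + Pi.single i 1)) (((w i)⁻¹ • hb1 D (-1)) * y) :=
  ⟨h.1.shift _, by
    simpa only [zpow_neg_one, smul_mul_assoc, Pi.single_neg, sub_neg_eq_add] using
      h.2.shift hw i (-1)⟩

lemma G.unique (h : G D w z y) (h' : G D w z' y') (e : ∀ jv, z jv = z' jv) : y = y' :=
  h.2.unique (funext e ▸ h'.2)

end gen

variable {C : Type} [CommRing C] [Algebra ℂ C] {r : ℕ} (c : Fin (r + 1) → C)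

lemma wt_ne {a : Fin (r + 1) → ℂ} (ha : Function.Injective a) (i : Fin (r + 1)) : wt a i ≠ 0 :=
  prod_ne_zero_iff.2 fun _ hl => sub_ne_zero.2 (ha.ne (ne_of_mem_erase hl))

lemma cI_const (a : Fin (r + 1) → ℂ) (i : Fin (r + 1)) :
    PowerSeries.constantCoeff (cI a c i) = 1 := by simp [cI, map_prod]

lemma inv_cI (a : Fin (r + 1) → ℂ) (i : Fin (r + 1)) : Ring.inverse (cI a c i) * cI a c i = 1 :=
  Ring.inverse_mul_cancel _ (PowerSeries.isUnit_iff_constantCoeff.2 (cI_const c a i ▸ isUnit_one))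

lemma inv_cI_const (a : Fin (r + 1) → ℂ) (i : Fin (r + 1)) :
    PowerSeries.constantCoeff (Ring.inverse (cI a c i)) = 1 := by
  simpa [cI_const] using congrArg PowerSeries.constantCoeff (inv_cI c a i)

lemma ofPS_cI (K : Type) [CommRing K] [Algebra ℂ K] (a : Fin (r + 1) → ℂ) (i : Fin (r + 1)) :
    Hat.ofPS K (PowerSeries.map (iR K C) (cI a c i)) = ∏ l ∈ univ.erase i,
      (1 + Hat.C K (iR K C ((a l - a i)⁻¹ • (c l - c i))) * Hat.single K 1 1) := by
  simp only [cI, map_prod, map_add, map_one, map_mul, PowerSeries.map_C, PowerSeries.map_X,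
    Hat.ofPS_C, Hat.ofPS_X]

end QrrB

open QrrB

variable {H : Type} [AddCommGroup H] [Module ℂ H] {p : Par ℂ H} {ι : Type} [Fintype ι]
  {fr : Frame p ι} {d : VD fr} {C : Type} [CommRing C] [Algebra ℂ C] {ac : Act fr C} {r : ℕ}
  {c : Fin (r + 1) → C} {Γ : Type}
  {ZT : Γ → ℤ → ℤ → S ((p.pi (Fin (r + 1))).fs ℕ) →ₗ[ℂ] Polynomial ℂ}

lemma bI_mul (K : Type) [CommRing K] [Algebra ℂ K] {a : Fin (r + 1) → ℂ} (ha : Function.Injective a)
    {h h' : K} (e : h * h' = 1) (i : Fin (r + 1)) : bI K a c h i * bI' K a c h' i = 1 := by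
  rw [bI, bI', smul_mul_smul_hat, ← map_mul, ← map_mul, inv_cI, map_one, map_one,
    smul_mul_smul_comm, e, inv_mul_cancel₀ (wt_ne ha i), one_smul, one_smul]

lemma bI_Lo (K : Type) [CommRing K] [Algebra ℂ K] (a : Fin (r + 1) → ℂ) (h : K) (i : Fin (r + 1)) :
    bI K a c h i ∈ Hat.Lo _ _ 0 := fun n hn => by
  rw [bI, Hat.co_smul, Hat.ofPS_Lo _ n hn, smul_zero]

lemma bI'_Lo (K : Type) [CommRing K] [Algebra ℂ K] (a : Fin (r + 1) → ℂ) (h : K) (i : Fin (r + 1)) :
    bI' K a c h i ∈ Hat.Lo _ _ 0 := fun n hn => by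
  rw [bI', Hat.co_smul, Hat.ofPS_Lo _ n hn, smul_zero]

/-- `ħ e_i` expanded in `ε`. -/
lemma embC_eu (K : Type) [CommRing K] [Algebra ℂ K] {a : Fin (r + 1) → ℂ}
    (ha : Function.Injective a) (h : K) (i : Fin (r + 1)) :
    Hat.single K r h • embC K C (eu (chiK (Hat.single K (-1) 1 : Hat K K) a c) i) =
      bI' K a c h i := by
  have e1 : (Hat.single K r h : Hat K K) = Hat.C K h * ∏ _l ∈ univ.erase i, Hat.single K 1 1 := by
    rw [prod_const, card_erase_of_mem (mem_univ i), card_univ, Fintype.card_fin, single_pow,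
      Hat.C_apply, Hat.single_mul]
    simp
  have e2 : ∀ l ∈ univ.erase i, (Hat.single K 1 1 : Hat K K) • embC K C
      (chiK (Hat.single K (-1) 1 : Hat K K) a c l - chiK (Hat.single K (-1) 1 : Hat K K) a c i) =
      algebraMap ℂ K (a l - a i) •
        (1 + Hat.C K (iR K C ((a l - a i)⁻¹ • (c l - c i))) * Hat.single K 1 1) := by
    intro l hl
    have h0 := sub_ne_zero.2 (ha.ne (ne_of_mem_erase hl))
    rw [chiK, chiK, add_sub_add_comm, ← sub_tmul, ← tmul_sub, ← sub_smul, map_add, embC_tmul,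
      embC_tmul, smul_add, smul_smul, mul_smul_comm, Hat.single_mul, smul_add, one_smul]
    ext n
    simp [Hat.C_apply, Hat.co_single_smul, Hat.single_mul, Hat.co_single, Hat.one_def, smul_smul,
      mul_inv_cancel₀ h0, sub_eq_zero, Algebra.TensorProduct.one_def, -map_sub]
  rw [e1, mul_smul, eu, map_prod, ← prod_smul_hat', prod_congr rfl e2, prod_smul_hat, Hat.C_smul,
    bI', ofPS_cI, wt, smul_smul, ← map_prod, mul_comm, ← Algebra.smul_def]

theorem BIn.exists_Zt (I : BIn d ac c Γ ZT) (D : ℕ) : ∃ Z, IsZt I.a D I.ZB Z := by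
  have h1 : ∀ β (m : ℕ), ∃ Z : S (((p.bc (K1 D)).pi (Fin (r + 1))).fs ℕ) →ₗ[K1 D] K1 D, ∀ x,
      IsGen D (wt I.a) (fun jv => I.ZB β jv m x) (Z (bcS _ (isEvS_jV p (K1 D)) x)) := fun β m => by
    obtain ⟨Y, hY⟩ := exists_gen_lin (D := D) (w := wt I.a) (fun jv => I.ZB β jv m)
      fun x => (I.low β x).imp fun J hJ => hJ m
    obtain ⟨Z, hZ⟩ := exists_ext (((TensorProduct.isBaseChange ℂ H (K1 D)).finitePow
      (Fin (r + 1))).finsuppPow ℕ) (isEvS_jV p (K1 D)) Y
    exact ⟨Z, fun x => (hZ x).symm ▸ hY x⟩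
  choose Z hZ using h1
  exact ⟨fun β => ⟨fun n => if 0 ≤ n then Z β n.toNat else 0, 0, fun n hn => if_neg hn.not_ge⟩,
    fun β => ⟨fun n hn => if_neg hn.not_ge, fun m x => by simpa using hZ β m x⟩⟩

end Vale.Agent.P269.B
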