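import Vale.Agent.P269.B.QrrA
import Vale.Agent.P269.B.QrrB

/-! Virasoro constraints for the twisted theory. -/

set_option linter.unusedSectionVars false

namespace Vale.Agent.P269.B

open Fock Finset TensorProduct

namespace QrrB

section co

variable {K : Type} [CommRing K] {H : Type} [AddCommGroup H] [Module K H] {p : Par K H} {ι : Type}
  [Fintype ι] {fr : Frame p ι} {C : Type} [CommRing C] [Algebra K C] {σ : Type} [Fintype σ]
  [DecidableEq σ] (ac : Act fr C)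

lemma co_matH (x : σ → RH K C) (n : ℤ) : (matH ac σ (Matrix.diagonal x)).co n =
    ∑ i, cst (EU K H i i) * opL ((dg σ).comp ac.act) ((x i).co n) := by
  rw [matH_diagonal, Hat.co_sum]
  refine sum_congr rfl fun i _ => ?_
  rw [EH, Hat.C_apply, Hat.co_single_mul, sub_zero]
  rfl

lemma co_matH_dH (x : σ → RH K C) (b : σ → Hat K C) (n : ℤ) :
    (matH ac σ (Matrix.diagonal x) * dH ac b).co n =
    ∑ i, cst (EU K H i i) * opL ((dg σ).comp ac.act) ((x i * Hat.mapA (lC K C) (b i)).co n) := by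
  rw [dH, ← map_mul, Matrix.diagonal_mul_diagonal, co_matH]

lemma co_mul_smul (f : PowerSeries (LaurentPolynomial C)) (u : K) (g : PowerSeries C) (m : ℕ) :
    ((Hat.ofPS K f : RH K C) * Hat.mapA (lC K C) (u • Hat.ofPS K g)).co m =
      u • ∑ q ∈ antidiagonal m,
        LaurentPolynomial.C (PowerSeries.coeff q.1 g) * PowerSeries.coeff q.2 f := by
  have e : Hat.mapA (lC K C) (u • Hat.ofPS K g) =
      u • Hat.ofPS K (PowerSeries.map LaurentPolynomial.C g) :=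
    Hat.ext_nat (fun n hn => by simp [Hat.ofPS_Lo _ n hn]) (fun n hn => by
      simp [Hat.ofPS_Lo _ n hn]) fun m => by simp
  rw [e, mul_smul_comm, Hat.co_smul, ← map_mul, Hat.co_ofPS, mul_comm, PowerSeries.coeff_mul]
  simp only [PowerSeries.coeff_map]

lemma hom_of {D z : Module.End K (LL (σ → H))} {x : RH K C}
    (h : ∀ n : ℤ, D * opL ((dg σ).comp ac.act) (x.co n) - opL ((dg σ).comp ac.act) (x.co n) * D =
      z * ((n : K) • opL ((dg σ).comp ac.act) (x.co n))) :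
    Hat.C K D * opH ac σ x - opH ac σ x * Hat.C K D = Hat.C K z * opH ac σ (Hat.th K _ x) := by
  ext1
  funext n
  rw [Hat.co_sub, Hat.C_apply, Hat.C_apply, Hat.co_single_mul, Hat.co_single_mul,
    Hat.co_mul_single, sub_zero, ← opH_th]
  exact h n

end co

section ext

variable {K K' : Type*} [CommRing K] [CommRing K'] {φ : K →+* K'} {V V' : Type*} [AddCommGroup V]
  [Module K V] [AddCommGroup V'] [Module K' V'] {p : Par K V} {p' : Par K' V'} {j : V →ₛₗ[φ] V'}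
  (hj : IsEvS p p' j) (hs : Submodule.span K' (Set.range j) = ⊤)
include hs

lemma ext_vir {Z : S p' →ₗ[K'] K'} {A B C : Module.End K' (S p')} {t u v : K'}
    (h : ∀ x, Z (A (bcS j hj x) + t • bcS j hj x + u • B (bcS j hj x) + v • C (bcS j hj x)) = 0)
    (y : S p') : Z (A y + t • y + u • B y + v • C y) = 0 :=
  LinearMap.congr_fun (bcS_ext (Z := Z ∘ₗ (A + t • 1 + u • B + v • C)) (Z' := 0) hs h) y

lemma ext_qrr {α : Type*} {s : Finset α} {m : K'} {Z₀ : S p' →ₗ[K'] K'} {Z : α → S p' →ₗ[K'] K'}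
    {κ : α → K'} {A B C : α → Module.End K' (S p')}
    (h : ∀ x, m * Z₀ (bcS j hj x) = ∑ q ∈ s, Z q
      (κ q • bcS j hj x - A q (bcS j hj x) - B q (bcS j hj x) - C q (bcS j hj x))) (y : S p') :
    m * Z₀ y = ∑ q ∈ s, Z q (κ q • y - A q y - B q y - C q y) :=
  (LinearMap.congr_fun (bcS_ext (Z := m • Z₀) (Z' := ∑ q ∈ s, Z q ∘ₗ (κ q • 1 - A q - B q - C q)) hs
    fun x => by rw [LinearMap.sum_apply]; exact h x) y).trans (LinearMap.sum_apply _ _ _)

end ext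

variable {H : Type} [AddCommGroup H] [Module ℂ H] {p : Par ℂ H} {ι : Type} [Fintype ι]
  {fr : Frame p ι} {C : Type} [CommRing C] [Algebra ℂ C] (ac : Act fr C) {r : ℕ}
  (a : Fin (r + 1) → ℂ) (c : Fin (r + 1) → C)

lemma opL_aL (T : ℕ → Prop) [DecidablePred T] (i : Fin (r + 1)) (k : ℕ) :
    opL ac.act (aL a c T i k) = aK ac a c T i k := by
  rw [aL, aK]
  split_ifs
  · exact map_zero _
  · simp only [map_sum, map_smul, map_mul, opL_T, opL_C]

lemma aL_odd (i : Fin (r + 1)) (k : ℕ) : aL a c (· ≠ 1) i k ∈ OdL C := by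
  rw [aL]
  split_ifs
  · exact zero_mem _
  refine sum_mem fun l _ => sum_mem fun q hq => ?_
  rcases Nat.even_or_odd q.1 with h | h
  · rw [mul_comm (LaurentPolynomial.T _), Algebra.smul_def]
    exact C_mul_odL _ (mem_odL _ (((Int.even_coe_nat _).2 h).sub_odd odd_one))
  · have h1 := (mem_filter.1 hq).2
    rw [bernoulli_eq_zero_of_odd h (by obtain ⟨n, hn⟩ := h; omega)]
    simp

lemma aL_split (i : Fin (r + 1)) (k : ℕ) : aL a c (fun _ => True) i k = aL a c (· ≠ 1) i k +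
    LaurentPolynomial.C (-hf ℂ • ∑ l ∈ univ.erase i,
      if k = 0 then 0 else (-((a l - a i)⁻¹ • (c l - c i))) ^ k) := by
  rw [aL, aL]
  split_ifs with h
  · simp
  rw [smul_sum, map_sum, ← sum_add_distrib]
  refine sum_congr rfl fun l _ => ?_
  have e : {q ∈ antidiagonal (k + 1) | q.1 ≠ 1} = (antidiagonal (k + 1)).erase (1, k) := by
    ext ⟨x, y⟩
    simp only [mem_filter, mem_antidiagonal, mem_erase, ne_eq, Prod.mk.injEq]
    omega
  rw [filter_true, e, ← sum_erase_add _ _ (show (1, k) ∈ antidiagonal (k + 1) by simp [add_comm])]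
  congr 1
  have h1 : (k.factorial : ℂ) ≠ 0 := by exact_mod_cast k.factorial_ne_zero
  rw [← neg_smul, smul_pow, smul_smul, Algebra.smul_def (A := C), map_mul, Algebra.smul_def,
    Nat.cast_one, sub_self, LaurentPolynomial.T_zero, one_mul]
  refine congrArg (fun z : ℂ => algebraMap ℂ (LaurentPolynomial C) z * _) ?_
  rw [bernoulli_one, hf, neg_pow (a l - a i)⁻¹, inv_pow]
  simp only [Nat.factorial_one, eq_ratCast]
  push_cast
  field_simp

lemma hm_aK {d : VD fr} (hμ : ∀ l, d.μ * ac.act (c l) = ac.act (c l) * d.μ + ac.act (c l))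
    (hρ : ∀ l, d.ρ * ac.act (c l) = ac.act (c l) * d.ρ) (i : Fin (r + 1)) (k : ℕ) :
    Hm d.D (zp ℂ H 1) (k : ℂ) (aK ac a c (fun _ => True) i k) := by
  rw [aK]
  split_ifs
  · exact Hm.zero
  refine Hm.sum _ fun l _ => Hm.sum _ fun q hq => Hm.smul ?_ _
  have h1 := mem_antidiagonal.1 (mem_filter.1 hq).1
  have h2 := (hm_zp (d := d) (q.1 - 1)).mul ((hm_cst (d := d) (x := ac.act (c l - c i))
    (LinearMap.ext fun v => by
      have e := LinearMap.congr_fun (hμ l) v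
      have e' := LinearMap.congr_fun (hμ i) v
      simp only [Module.End.mul_apply, LinearMap.add_apply] at e e'
      simp only [map_sub, Module.End.mul_apply, LinearMap.add_apply, LinearMap.sub_apply, e, e']
      abel)
    (LinearMap.ext fun v => by
      have e := LinearMap.congr_fun (hρ l) v
      have e' := LinearMap.congr_fun (hρ i) v
      simp only [Module.End.mul_apply] at e e'
      simp only [map_sub, Module.End.mul_apply, LinearMap.sub_apply, e, e'])).pow q.2)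
  have h3 : ((q.1 - 1 : ℤ) : ℂ) + q.2 = k := by
    have : (q.1 : ℂ) + q.2 = k + 1 := by exact_mod_cast h1
    push_cast
    linear_combination this
  rwa [h3, ← map_pow, ← map_pow] at h2

/-- The Laurent polynomial behind `aT`. -/
noncomputable def tL (u : PowerSeries C) (i : Fin (r + 1)) (k : ℕ) : LaurentPolynomial C :=
  ∑ q ∈ antidiagonal k, LaurentPolynomial.C (PowerSeries.coeff q.1 u) * aL a c (· ≠ 1) i q.2

lemma opL_tL (u : PowerSeries C) (i : Fin (r + 1)) (k : ℕ) :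
    opL ac.act (tL a c u i k) = aT ac a c u i k := by
  simp only [tL, aT, map_sum, map_mul, opL_C, opL_aL]

lemma tL_odd (u : PowerSeries C) (i : Fin (r + 1)) (k : ℕ) : tL a c u i k ∈ OdL C :=
  sum_mem fun _ _ => C_mul_odL _ (aL_odd a c i _)

variable (K : Type) [CommRing K] [Algebra ℂ K] [Algebra ℚ K]

/-- The skew part of the Riemann-Roch series. -/
noncomputable def aS (i : Fin (r + 1)) : RH K (K ⊗[ℂ] C) :=
  Hat.ofPS K (PowerSeries.mk fun k => mapL (iR K C) (aL a c (· ≠ 1) i k))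

/-- The symmetric part of the Riemann-Roch series. -/
noncomputable def sH (i : Fin (r + 1)) : Hat K (K ⊗[ℂ] C) :=
  -hf K • ∑ l ∈ univ.erase i, gS K (iR K C ((a l - a i)⁻¹ • (c l - c i)))

lemma Lo_one {A : Type*} [Ring A] {f : PowerSeries A} (h : PowerSeries.coeff 0 f = 0) :
    Hat.ofPS K f ∈ Hat.Lo K A 1 := fun n hn => by
  rcases lt_or_ge n 0 with h0 | h0
  · exact Hat.ofPS_Lo _ n h0
  · obtain rfl : n = (0 : ℕ) := by omega
    rw [Hat.co_ofPS, h]

lemma aS_Lo (i : Fin (r + 1)) : aS a c K i ∈ Hat.Lo _ _ 1 := Lo_one K (by simp [aL])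

lemma sH_Lo (i : Fin (r + 1)) : sH a c K i ∈ Hat.Lo _ _ 1 := fun n hn => by
  rw [sH, Hat.co_smul, Hat.co_sum, sum_eq_zero fun l _ => ?_, smul_zero]
  exact Lo_one K (by simp) n hn

lemma aS_odd (i : Fin (r + 1)) (n k : ℤ) (hk : Even k) : ((aS a c K i).co n).coeff k = 0 := by
  rcases lt_or_ge n 0 with h0 | h0
  · rw [aS, Hat.ofPS_Lo _ n h0]; rfl
  · obtain ⟨m, rfl⟩ := Int.eq_ofNat_of_zero_le h0
    rw [aS, Hat.co_ofPS, PowerSeries.coeff_mk]
    exact coeff_odL (mapL_odL _ (aL_odd a c i m)) hk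

lemma aH_eq (i : Fin (r + 1)) :
    aH K a c i = aS a c K i + Hat.mapA (lC K _) (sH a c K i) := by
  refine Hat.ext_nat (Hat.ofPS_Lo _) (add_mem (Hat.ofPS_Lo _)
    (Hat.map_Lo _ (Hat.Lo_mono zero_le_one (sH_Lo a c K i)))) fun m => ?_
  rw [Hat.co_add, aH, aS, Hat.co_ofPS, Hat.co_ofPS, PowerSeries.coeff_mk, PowerSeries.coeff_mk,
    aL_split, map_add, mapL_C, Hat.co_mapA, lC_apply, sH, Hat.co_smul, Hat.co_sum,
    ← map_hf (algebraMap ℂ K), ← map_neg, algebraMap_smul]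
  simp only [gS, Hat.co_ofPS, PowerSeries.coeff_mk, RingHom.coe_coe, map_smul, map_sum,
    apply_ite (Algebra.TensorProduct.includeRight : C →ₐ[ℂ] K ⊗[ℂ] C), map_zero, map_pow, map_neg]

lemma two_mul_hf {A : Type*} [CommRing A] [Algebra K A] (x : Hat K A) : 2 * -hf K • x = -x := by
  rw [two_mul, ← add_smul, ← neg_add, hf_add, neg_smul, one_smul]

lemma th_smul_mul {A : Type*} [CommRing A] [Algebra K A] {x g : Hat K A} (u : K)
    (h : Hat.th K A x = g * x) : Hat.th K A (u • x) = g * u • x := by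
  rw [map_smul, h, mul_smul_comm]

lemma th_bI' (h : K) (i : Fin (r + 1)) :
    Hat.th K _ (bI' K a c h i) = 2 * sH a c K i * bI' K a c h i := by
  refine th_smul_mul K _ ?_
  rw [ofPS_cI, th_prod _ fun l => th_fac _, sH, two_mul_hf, sum_neg_distrib]

lemma bI_sub (h : K) (i : Fin (r + 1)) :
    bI K a c h i - algebraMap K _ ((wt a i)⁻¹ • h) ∈ Hat.Lo _ _ 1 := fun n hn => by
  rw [Hat.co_sub, Hat.algebraMap_co, Hat.C_apply, Hat.co_single]
  split_ifs with h0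
  · rw [h0, bI, Hat.co_smul, ← Nat.cast_zero, Hat.co_ofPS, PowerSeries.coeff_map,
      PowerSeries.coeff_zero_eq_constantCoeff, inv_cI_const, map_one,
      Algebra.algebraMap_eq_smul_one, sub_self]
  · rw [bI_Lo K a h i n (by omega), sub_self]

lemma rl_op {σ : Type} [Fintype σ] [DecidableEq σ] (x : LaurentPolynomial C) :
    Rl (fsS (piS (j1 H K) σ) ℤ) (opL ((dg σ).comp ac.act) x)
      (opL ((dg σ).comp (ac.bc K).act) (mapL (iR K C) x)) :=
  rl_opL (act := (dg σ).comp ac.act) (act' := (dg σ).comp (ac.bc K).act)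
    (fun x => ((mor_j1 K ac).act x).dg) x

lemma hom_aH {d : VD fr} (hμ : ∀ l, d.μ * ac.act (c l) = ac.act (c l) * d.μ + ac.act (c l))
    (hρ : ∀ l, d.ρ * ac.act (c l) = ac.act (c l) * d.ρ) (i : Fin (r + 1)) :
    Hat.C K (vdPi (Fin (r + 1)) (vdBc K ac d)).D * opH (ac.bc K) _ (aH K a c i) -
      opH (ac.bc K) _ (aH K a c i) * Hat.C K (vdPi (Fin (r + 1)) (vdBc K ac d)).D =
      Hat.C K (zp K _ 1) * opH (ac.bc K) _ (Hat.th K _ (aH K a c i)) := by
  refine hom_of _ fun n => ?_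
  rcases lt_or_ge n 0 with h0 | h0
  · rw [aH, Hat.ofPS_Lo _ n h0, map_zero]
    exact Hm.zero.1
  obtain ⟨m, rfl⟩ := Int.eq_ofNat_of_zero_le h0
  rw [aH, Hat.co_ofPS, PowerSeries.coeff_mk]
  have h1 := (hm_aK (ac.pi (Fin (r + 1))) a c (d := vdPi _ d)
    (fun l => LinearMap.ext fun v => funext fun j => LinearMap.congr_fun (hμ l) (v j))
    (fun l => LinearMap.ext fun v => funext fun j => LinearMap.congr_fun (hρ l) (v j)) i m).1
  rw [← opL_aL] at h1
  have h2 := rl_op ac K (σ := Fin (r + 1)) (aL a c (fun _ => True) i m)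
  have h3 : Rl (fsS (piS (j1 H K) (Fin (r + 1))) ℤ) (vdPi _ d).D (vdPi _ (vdBc K ac d)).D :=
    rl_D (d := vdPi _ d) (d' := vdPi _ (vdBc K ac d)) (rl_j1 d.μ).dg (rl_j1 d.ρ).dg
  have h4 := (rl_zp 1).mul (h2.smul (m : ℂ))
  rw [map_natCast] at h4
  rw [Int.cast_natCast]
  exact Rl.unique (span_fsS (span_piS span_j1 _) ℤ) ((h3.mul h2).sub (h2.mul h3)) (h1 ▸ h4)

variable (p) in
lemma evS (σ : Type) :
    IsEvS ((p.pi σ).fs ℕ) (((p.bc K).pi σ).fs ℕ) (fsS (piS (j1 H K) σ) ℕ) := isEvS_jV p K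

variable (p) in
/-- The base change of the Fock space. -/
noncomputable abbrev bS (σ : Type) : S ((p.pi σ).fs ℕ) →+* S (((p.bc K).pi σ).fs ℕ) :=
  bcS _ (evS p K σ)

lemma q0_a (m : ℕ) (x : S ((p.pi (Fin (r + 1))).fs ℕ)) :
    ((fr.bc K).pi _).q0 ((matH (ac.bc K) _ (Matrix.diagonal (aH K a c))).co m) (bS p K _ x) =
      bS p K _ ((fr.pi _).q0 (∑ i, cmp i (aK ac a c (fun _ => True) i m)) x) := by
  simp only [co_matH, ← opL_aL, cmp_opL, aH, Hat.co_ofPS, PowerSeries.coeff_mk]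
  exact q0_bcS (cmp_pi (mor_j1 K ac).cmp _)
    (IsEv.sum _ fun i _ => (isEv_EU i i).cst.mul (isEv_opL (fun x => isEv_dg (ac.ev x)) _))
    (IsEv.sum _ fun i _ => (isEv_EU i i).cst.mul (isEv_opL (fun x => isEv_dg ((ac.bc K).ev x)) _))
    (Rl.sum _ fun i _ => (rl_EU i i).cst.mul (rl_op ac K _)) x

lemma co_t (u : Fin (r + 1) → K) (U : Fin (r + 1) → PowerSeries C) (m : ℕ) :
    (matH (ac.bc K) _ (Matrix.diagonal (aS a c K)) *
      dH (ac.bc K) fun i => u i • Hat.ofPS K (PowerSeries.map (iR K C) (U i))).co m =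
      ∑ i, u i • (cst (EU K _ i i) *
        opL ((dg _).comp (ac.bc K).act) (mapL (iR K C) (tL a c (U i) i m))) := by
  rw [co_matH_dH]
  refine sum_congr rfl fun i _ => ?_
  rw [aS, co_mul_smul, map_smul, mul_smul_comm]
  simp only [tL, map_sum, map_mul, mapL_C, PowerSeries.coeff_map, PowerSeries.coeff_mk]

lemma q1_t (u : Fin (r + 1) → K) (U : Fin (r + 1) → PowerSeries C) (m : ℕ)
    (x : S ((p.pi (Fin (r + 1))).fs ℕ)) :
    ((fr.bc K).pi _).q1 ((matH (ac.bc K) _ (Matrix.diagonal (aS a c K)) *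
      dH (ac.bc K) fun i => u i • Hat.ofPS K (PowerSeries.map (iR K C) (U i))).co m) (bS p K _ x) =
      ∑ i, u i • bS p K _ ((fr.pi _).q1 (cmp i (aT ac a c (U i) i m)) x) := by
  rw [co_t, q1_sum _ fun i => QrrB.quad_odd (ac.bc K) i (mapL_odL _ (tL_odd a c _ i m)),
    LinearMap.sum_apply]
  refine sum_congr rfl fun i _ => ?_
  rw [LinearMap.smul_apply, ← opL_tL, cmp_opL, (cmp_pi (mor_j1 K ac).cmp _).q1
    (QrrB.quad_odd ac i (tL_odd a c _ i m))
    (QrrB.quad_odd (ac.bc K) i (mapL_odL _ (tL_odd a c _ i m)))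
    ((rl_EU i i).cst.mul (rl_op ac K _)) x, one_smul]

lemma qm_t (u : Fin (r + 1) → K) (U : Fin (r + 1) → PowerSeries C) (m : ℕ)
    (x : S ((p.pi (Fin (r + 1))).fs ℕ)) :
    ((fr.bc K).pi _).qm ((matH (ac.bc K) _ (Matrix.diagonal (aS a c K)) *
      dH (ac.bc K) fun i => u i • Hat.ofPS K (PowerSeries.map (iR K C) (U i))).co m) (bS p K _ x) =
      ∑ i, u i • bS p K _ ((fr.pi _).qm (cmp i (aT ac a c (U i) i m)) x) := by
  rw [co_t, qm_sum _ fun i => QrrB.quad_odd (ac.bc K) i (mapL_odL _ (tL_odd a c _ i m)),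
    LinearMap.sum_apply]
  refine sum_congr rfl fun i _ => ?_
  rw [LinearMap.smul_apply, ← opL_tL, cmp_opL, (cmp_pi (mor_j1 K ac).cmp _).qm
    (QrrB.quad_odd ac i (tL_odd a c _ i m))
    (QrrB.quad_odd (ac.bc K) i (mapL_odL _ (tL_odd a c _ i m)))
    ((rl_EU i i).cst.mul (rl_op ac K _)) x, one_smul]

lemma rl_cmp_ell {σ : Type} [Fintype σ] [DecidableEq σ] (d : VD fr) (i : σ) (k : ℕ) :
    Rl (fsS (piS (j1 H K) σ) ℤ) (cst (EU ℂ H i i) * (vdPi σ d).ell k)
      (cst (EU K _ i i) * (vdPi σ (vdBc K ac d)).ell k) :=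
  (rl_EU i i).cst.mul
    (rl_ell (d := vdPi _ d) (d' := vdPi _ (vdBc K ac d)) (rl_j1 d.μ).dg (rl_j1 d.ρ).dg k)

lemma vir_bc {σ : Type} [Fintype σ] [DecidableEq σ] (d : VD fr) (i : σ) (k : ℕ) (t : ℂ) (u v : K)
    {Z : S (((p.bc K).pi σ).fs ℕ) →ₗ[K] K}
    (h : ∀ x, Z (bS p K σ ((fr.pi σ).q0 (cmp i (d.ell k)) x + t • x)) +
      u * Z (bS p K σ ((fr.pi σ).qm (cmp i (d.ell k)) x)) +
      v * Z (bS p K σ ((fr.pi σ).q1 (cmp i (d.ell k)) x)) = 0) (y) :
    Z (((fr.bc K).pi σ).q0 (cst (EU K _ i i) * (vdPi σ (vdBc K ac d)).ell k) y +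
      algebraMap ℂ K t • y +
      u • ((fr.bc K).pi σ).qm (cst (EU K _ i i) * (vdPi σ (vdBc K ac d)).ell k) y +
      v • ((fr.bc K).pi σ).q1 (cst (EU K _ i i) * (vdPi σ (vdBc K ac d)).ell k) y) = 0 := by
  have hc := cmp_pi (mor_j1 K ac).cmp σ
  have h1 := quad_ell i d k
  have h2 := quad_ell i (vdBc K ac d) k
  have h3 := rl_cmp_ell ac K d i k
  refine ext_vir (evS p K σ) (span_fsS (span_piS span_j1 σ) ℕ) (fun x => ?_) y
  rw [hc.q0 h1 h2 h3, hc.qm h1 h2 h3, hc.q1 h1 h2 h3, ← cmp_ell]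
  simpa only [one_smul, map_add, bcS_smul, map_smul, smul_eq_mul] using h x

lemma qrr_bc (u v : Fin (r + 1) → K) (U V : Fin (r + 1) → PowerSeries C) (κ : ℕ → ℂ) (m : ℕ)
    {Z : ℤ → S (((p.bc K).pi (Fin (r + 1))).fs ℕ) →ₗ[K] K}
    (h : ∀ x, (m : ℂ) • Z m (bS p K _ x) = ∑ q ∈ antidiagonal m,
      (Z q.1 (bS p K _ (κ q.2 • x - (fr.pi _).q0 (∑ i, cmp i (aK ac a c (fun _ => True) i q.2)) x)) -
        ∑ i, u i * Z q.1 (bS p K _ ((fr.pi _).q1 (cmp i (aT ac a c (U i) i q.2)) x)) -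
        ∑ i, v i * Z q.1 (bS p K _ ((fr.pi _).qm (cmp i (aT ac a c (V i) i q.2)) x)))) (y) :
    (m : K) * Z m y = ∑ q ∈ antidiagonal m, Z q.1 (algebraMap ℂ K (κ q.2) • y -
      ((fr.bc K).pi _).q0 ((matH (ac.bc K) _ (Matrix.diagonal (aH K a c))).co q.2) y -
      ((fr.bc K).pi _).q1 ((matH (ac.bc K) _ (Matrix.diagonal (aS a c K)) * dH (ac.bc K)
        fun i => u i • Hat.ofPS K (PowerSeries.map (iR K C) (U i))).co q.2) y -
      ((fr.bc K).pi _).qm ((matH (ac.bc K) _ (Matrix.diagonal (aS a c K)) * dH (ac.bc K)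
        fun i => v i • Hat.ofPS K (PowerSeries.map (iR K C) (V i))).co q.2) y) := by
  refine ext_qrr (evS p K _) (span_fsS (span_piS span_j1 _) ℕ) (fun x => ?_) y
  rw [← map_natCast (algebraMap ℂ K), ← Algebra.smul_def, h]
  refine sum_congr rfl fun q _ => ?_
  rw [q0_a, q1_t, qm_t]
  simp only [map_sub, bcS_smul, map_sum, map_smul, smul_eq_mul]

end QrrB

open QrrB

variable {H : Type} [AddCommGroup H] [Module ℂ H] {p : Par ℂ H} {ι : Type} [Fintype ι]
  {fr : Frame p ι} {d : VD fr} {C : Type} [CommRing C] [Algebra ℂ C] {ac : Act fr C} {r : ℕ}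
  {c : Fin (r + 1) → C} {Γ : Type}
  {ZT : Γ → ℤ → ℤ → S ((p.pi (Fin (r + 1))).fs ℕ) →ₗ[ℂ] Polynomial ℂ}

theorem BIn.twVir (I : BIn d ac c Γ ZT) (D : ℕ) {Z} (hZ : IsZt I.a D I.ZB Z) (i : Fin (r + 1))
    (k : ℕ) : Kill (hA ((fr.bc (K1 D)).pi _) (dH (ac.bc (K1 D)) (bI (K1 D) I.a c (hb1 D (-1)))))
      (LinearMap.pi fun β => zA (Z β))
      (Hat.act (K1 D) _ (ellT (ac.bc (K1 D)) (vdBc (K1 D) ac d) (aH (K1 D) I.a c) i k)) := by
  have ha := I.ha.injective
  have hw := wt_ne ha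
  have e1 : hb1 D (-1) * hb1 D 1 = 1 := by rw [← hb1_add]; rfl
  have e2 : ∀ i, ((wt I.a i)⁻¹ • hb1 D (-1)) * (wt I.a i • hb1 D 1) = 1 := fun i => by
    rw [smul_mul_smul_comm, e1, inv_mul_cancel₀ (hw i), one_smul]
  have hG : ∀ β (m : ℕ) x, G D (wt I.a) (fun jv => I.ZB β jv m x)
      ((Z β).co m (bS p (K1 D) _ x)) := fun β m x =>
    ⟨(I.low β x).imp fun J hJ => hJ m, (hZ β).2 m x⟩
  exact twVir_abs (ac.bc (K1 D)) (vdBc (K1 D) ac d) (𝔞' := aS I.a c (K1 D))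
    (s := sH I.a c (K1 D)) (b' := bI' (K1 D) I.a c (hb1 D 1))
    (u := fun i => ⟨wt I.a i • hb1 D 1, (wt I.a i)⁻¹ • hb1 D (-1), (mul_comm _ _).trans (e2 i), e2 i⟩)
    (aH_eq I.a c _) (aS_Lo I.a c _) (aS_odd I.a c _) (sH_Lo I.a c _) (bI_mul _ ha e1)
    (bI'_Lo _ _ _) (bI_sub I.a c _ _) (fun i => th_inv (bI_mul _ ha e1 i) (th_bI' I.a c _ _ i))
    (hom_aH ac I.a c _ I.μ_c I.ρ_c) (fun β => (hZ β).1)
    (fun i k => ⟨_, fun β => vir_bc ac _ d i k (if k = 1 then d.c0 else 0) _ _ fun x =>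
      (((hG β 0 _).add ((hG β 0 _).down hw i)).add ((hG β 0 _).up hw i)).unique G.zero
        fun jv => I.vir i k β jv x⟩)
    (κ := fun n => algebraMap ℂ _ (I.κ n)) (by rw [I.κ_zero, map_zero])
    (fun β m => qrr_bc ac I.a c _ _ _ _ _ I.κ m (Z := (Z β).co) fun x =>
      ((hG β m x).smul m).unique (G.sum _ fun q => ((hG β q.1 _).sub
        (G.sum _ fun i => (hG β q.1 _).up hw i)).sub (G.sum _ fun i => (hG β q.1 _).down hw i))
        fun jv => I.qrr β jv m x) i k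

end Vale.Agent.P269.B
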