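import Vale.Agent.P269.B.GDef
import Mathlib.RingTheory.PowerSeries.Trunc

/-! The asymptotic expansion evaluated on the classes of the bundle. -/

namespace Vale.Agent.P269.B

open Fock Finset TensorProduct

namespace TEV

section tv

variable {B B' : Type*} [CommRing B] [CommRing B'] (ψ : B →+* B') {q : B'}
  {D : ℕ} (hq : q ^ (D + 1) = 0)

/-- Evaluation of a power series at a nilpotent element. -/
noncomputable def tv : PowerSeries B →+* B' where
  toFun x := (PowerSeries.trunc (D + 1) x).eval₂ ψ q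
  map_zero' := by simp
  map_one' := by simp
  map_add' x y := by simp [Polynomial.eval₂_add]
  map_mul' x y := by
    obtain ⟨w, hw⟩ : Polynomial.X ^ (D + 1) ∣ PowerSeries.trunc (D + 1) (x * y) -
        PowerSeries.trunc (D + 1) x * PowerSeries.trunc (D + 1) y :=
      Polynomial.X_pow_dvd_iff.2 fun d hd => by
        rw [Polynomial.coeff_sub, PowerSeries.coeff_trunc, if_pos hd,
          PowerSeries.coeff_mul_eq_coeff_trunc_mul_trunc x y hd, ← Polynomial.coe_mul,
          Polynomial.coeff_coe, sub_self]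
    rw [← Polynomial.eval₂_mul, ← sub_eq_zero, ← Polynomial.eval₂_sub, hw, Polynomial.eval₂_mul,
      Polynomial.eval₂_X_pow, hq, zero_mul]

lemma tv_apply (x : PowerSeries B) :
    tv ψ hq x = ∑ d ∈ range (D + 1), ψ (PowerSeries.coeff d x) * q ^ d :=
  PowerSeries.eval₂_trunc_eq_sum_range _ _ _ _

lemma tv_C (b : B) : tv ψ hq (PowerSeries.C b) = ψ b := by
  rw [tv_apply, sum_eq_single_of_mem 0 (by simp) fun d _ hd => by
    simp [PowerSeries.coeff_C, hd]]
  simp

lemma tv_X : tv ψ hq PowerSeries.X = q := by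
  rw [tv_apply, sum_eq_single 1 (fun d _ hd => by simp [PowerSeries.coeff_X, hd]) fun h => ?_]
  · simp
  · obtain rfl : D = 0 := by simpa using h
    simpa using hq

lemma tv_dvd {x : PowerSeries B} (h : PowerSeries.constantCoeff x = 0) :
    ∃ v, tv ψ hq x = q * v := by
  obtain ⟨w, rfl⟩ := PowerSeries.X_dvd_iff.2 h
  exact ⟨_, by rw [map_mul, tv_X]⟩

end tv

section psi

variable {B : Type} [CommRing B] [Algebra ℂ B] {C : Type} [CommRing C] [Algebra ℂ C] {r : ℕ}
  (c : Fin (r + 1) → C)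

lemma psi_C (x : C0 r) : psi B c (LaurentPolynomial.C x) =
    LaurentPolynomial.C (1 ⊗ₜ MvPolynomial.aeval c x) := mapL_C _ _

lemma psi_T (n : ℤ) : psi B c (LaurentPolynomial.T n) = LaurentPolynomial.T n := mapL_T _ _

lemma mapL_smul {C C' : Type} [CommRing C] [Algebra ℂ C] [CommRing C'] [Algebra ℂ C']
    (f : C →ₐ[ℂ] C') (z : ℂ) (x : LaurentPolynomial C) :
    mapL (f : C →+* C') (z • x) = z • mapL (f : C →+* C') x := by
  rw [Algebra.smul_def, Algebra.smul_def, map_mul, LaurentPolynomial.algebraMap_apply,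
    LaurentPolynomial.algebraMap_apply, mapL_C, RingHom.coe_coe, AlgHom.commutes]

lemma psi_smul (z : ℂ) (x : L0 r) : psi B c (z • x) = z • psi B c x :=
  mapL_smul ((Algebra.TensorProduct.includeRight : C →ₐ[ℂ] B ⊗[ℂ] C).comp (MvPolynomial.aeval c)) z x

lemma psi_alg (z : ℂ) : psi B c (algebraMap ℂ (L0 r) z) = algebraMap B _ (algebraMap ℂ B z) := by
  rw [Algebra.algebraMap_eq_smul_one, psi_smul, map_one, ← IsScalarTower.algebraMap_apply,
    Algebra.algebraMap_eq_smul_one]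

lemma mapL_aL {C C' : Type} [CommRing C] [Algebra ℂ C] [CommRing C'] [Algebra ℂ C']
    (f : C →ₐ[ℂ] C') (a : Fin (r + 1) → ℂ) (c : Fin (r + 1) → C) (i : Fin (r + 1)) (k : ℕ) :
    mapL (f : C →+* C') (aL a c (fun _ => True) i k) = aL a (fun j => f (c j)) (fun _ => True) i k := by
  simp only [aL, apply_ite (mapL _), map_zero, map_sum, mapL_smul, map_mul, mapL_T, mapL_C,
    RingHom.coe_coe, map_pow f, map_sub f]

lemma psi_aL (a : Fin (r + 1) → ℂ) (i : Fin (r + 1)) (k : ℕ) :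
    psi B c (aL a MvPolynomial.X (fun _ => True) i k) =
      mapL (iR B C) (aL a c (fun _ => True) i k) := by
  rw [mapL_aL]
  refine (mapL_aL ((Algebra.TensorProduct.includeRight : C →ₐ[ℂ] B ⊗[ℂ] C).comp
    (MvPolynomial.aeval c)) a _ i k).trans ?_
  simp

variable (t Q : B)

lemma phB_CC (x : L0 r) : phB c t Q (Polynomial.C (Polynomial.C x)) = psi B c x :=
  (Polynomial.eval₂_C _ _).trans (Polynomial.eval₂_C _ _)

lemma phB_CX : phB c t Q (Polynomial.C Polynomial.X) = algebraMap B _ Q :=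
  (Polynomial.eval₂_C _ _).trans (Polynomial.eval₂_X _ _)

lemma phB_X : phB c t Q Polynomial.X = algebraMap B _ t := Polynomial.eval₂_X _ _

lemma phB_s (s : Polynomial (Polynomial ℂ)) :
    phB c t Q (s.map (Polynomial.mapRingHom (algebraMap ℂ (L0 r)))) = algebraMap B _ (sB t Q s) := by
  have : (phB c t Q).comp (Polynomial.mapRingHom (Polynomial.mapRingHom (algebraMap ℂ (L0 r)))) =
      (algebraMap B _).comp (sB t Q) :=
    Polynomial.ringHom_ext' (Polynomial.ringHom_ext' (RingHom.ext fun z => by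
      simp only [RingHom.comp_apply, Polynomial.coe_mapRingHom, Polynomial.map_C, phB_CC, psi_alg]
      simp [sB]) (by simp [phB_CX, sB])) (by simp [phB_X, sB])
  exact RingHom.congr_fun this s

lemma phB_sc (N : ℕ) (s : Polynomial (Polynomial ℂ)) :
    phB c t Q (Polynomial.C (Polynomial.X ^ N) +
      Polynomial.X * s.map (Polynomial.mapRingHom (algebraMap ℂ (L0 r)))) =
      algebraMap B _ (Q ^ N + t * sB t Q s) := by
  simp only [map_add, map_mul, map_pow, phB_s, phB_CX, phB_X]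

lemma phB_MB [Algebra ℚ B] (N : ℕ) (U : Fin (r + 1) → Fin (r + 1) → Polynomial (Polynomial (L0 r)))
    (k' k : Fin (r + 1)) :
    phB c t Q (Polynomial.C (Polynomial.X ^ N * mainM MvPolynomial.X k' k) + Polynomial.X * U k' k) =
      MB c t Q N U k' k := by
  have e1 : ∀ x : LaurentPolynomial (B ⊗[ℂ] C), ((r : ℂ) + 1) • x = ((r : B) + 1) • x := fun x => by
    rw [← algebraMap_smul B]
    simp
  have e2 : ∀ x : LaurentPolynomial (B ⊗[ℂ] C),
      (((k : ℕ) : ℂ) - r / 2) • x = (((k : ℕ) : B) - r * hf B) • x := fun x => by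
    rw [← algebraMap_smul B, ← map_hf (algebraMap ℂ B)]
    simp [hf, div_eq_mul_inv]
  have e3 : phB c t Q (Polynomial.C (((r : ℂ) + 1) • Polynomial.X)) =
      ((r : B) + 1) • LaurentPolynomial.C (algebraMap B (B ⊗[ℂ] C) Q) := by
    rw [Algebra.smul_def, Algebra.smul_def]
    simp only [map_mul, map_add, map_natCast, map_one, phB_CX]
    rfl
  have e4 : psi B c (LaurentPolynomial.C (xc MvPolynomial.X (k + 1) k')) =
      LaurentPolynomial.C (xc (fun l => iR B C (c l)) (k + 1) k') := by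
    rw [psi, mapL_C, map_xc]
    simp
  have e5 : psi B c (LaurentPolynomial.C (∑ l, MvPolynomial.X l)) =
      LaurentPolynomial.C (∑ l, iR B C (c l)) := by
    rw [psi, mapL_C]
    simp
  rw [map_add, map_mul Polynomial.C, map_mul, map_mul, map_pow, map_pow, phB_CX, phB_X, MB,
    Matrix.add_apply, Matrix.smul_apply, Matrix.smul_apply, Matrix.of_apply, Algebra.smul_def,
    Algebra.smul_def, map_pow, mainM, mainG, Matrix.of_apply, map_add, map_add, phB_CC, map_add,
    psi_smul, e4, e1]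
  congr 3
  · congr 1
    split_ifs
    · rw [map_add, psi_smul, psi_T, e2, e5]
    · exact map_zero _
  · split_ifs
    · exact e3
    · simp

end psi

section unit

variable {r : ℕ} {a : Fin (r + 1) → ℂ}

lemma chi0_eq (a : Fin (r + 1) → ℂ) (j : Fin (r + 1)) : chi0 a j =
    algebraMap ℂ (R0 r) (a j) * ez r (-1) +
      Hat.C ℂ (LaurentPolynomial.C (MvPolynomial.X j) : L0 r) :=
  congrArg (· + _) (Algebra.smul_def (a j) (ez r (-1)))

lemma unit_dn (ha : Function.Injective a) (i : Fin (r + 1)) (d : ℕ) :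
    IsUnit (dn (-chi0 a i) (chi0 a) (zz r 1) d) := by
  refine IsUnit.prod_univ_iff.2 fun j => IsUnit.prod_iff.2 fun m _ => ?_
  by_cases h : j = i
  · have u : IsUnit ((m : R0 r) + 1) := by
      simpa using (IsUnit.mk0 ((m : ℂ) + 1) (Nat.cast_add_one_ne_zero m)).map (algebraMap ℂ (R0 r))
    rw [h, neg_add_cancel, zero_sub]
    exact (u.mul ((LaurentPolynomial.isUnit_T 1).map _)).neg
  · have h0 : algebraMap ℂ (R0 r) (a j - a i) * algebraMap ℂ (R0 r) (a j - a i)⁻¹ = 1 := by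
      rw [← map_mul, mul_inv_cancel₀ (sub_ne_zero.2 (ha.ne h)), map_one]
    obtain ⟨y, hy⟩ : ∃ y : L0 r, -chi0 a i + chi0 a j - ((m : R0 r) + 1) * zz r 1 =
        algebraMap ℂ (R0 r) (a j - a i) * ez r (-1) + Hat.C ℂ y :=
      ⟨LaurentPolynomial.C (MvPolynomial.X j) - LaurentPolynomial.C (MvPolynomial.X i) -
        ((m : L0 r) + 1) * LaurentPolynomial.T 1, by
          simp only [chi0_eq, zz, map_sub, map_mul, map_add, map_natCast, map_one]
          ring⟩
    have e : ez r (-1) * ez r 1 = 1 := by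
      rw [ez, ez, Hat.single_mul, one_mul, neg_add_cancel, Hat.one_def]
    obtain ⟨w, hw, -⟩ := Hat.exists_inv (x := (algebraMap ℂ (R0 r) (a j - a i) * ez r (-1) +
      Hat.C ℂ y) * (algebraMap ℂ (R0 r) (a j - a i)⁻¹ * ez r 1)) (by
        rw [add_mul, mul_mul_mul_comm, h0, e, one_mul, add_sub_cancel_left]
        exact C_mul_Lo _ (C_mul_Lo _ (Hat.single_Lo 1 1))) ⊤ fun _ => trivial
    rw [hy]
    exact IsUnit.of_mul_eq_one _ ((mul_assoc _ _ _).symm.trans hw)

end unit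

section tev

variable {K : Type} [CommRing K] [Algebra ℂ K] {C : Type} [CommRing C] [Algebra ℂ C] {r : ℕ}
  (c : Fin (r + 1) → C)

variable (K) in
/-- Evaluation of the coefficients. -/
noncomputable def ps : R0 r →+* RH K (K ⊗[ℂ] C) := Hat.mapR (psi K c)

lemma ps_C (x : L0 r) : ps K c (Hat.C ℂ x) = Hat.C K (psi K c x) := Hat.mapR_single _ _ _

lemma ps_ez (n : ℤ) : ps K c (ez r n) = Hat.single K n 1 :=
  (Hat.mapR_single _ _ _).trans (by rw [map_one])

lemma ps_zz (n : ℤ) : ps K c (zz r n) = zH K _ n := by rw [zz, ps_C, psi_T, zH]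

lemma ps_Lo {x : R0 r} {n : ℤ} (h : x ∈ Hat.Lo ℂ _ n) : ps K c x ∈ Hat.Lo K _ n := fun m hm => by
  rw [ps, Hat.co_mapR, h m hm, map_zero]

lemma ps_th (x : R0 r) : ps K c (Hat.th ℂ _ x) = Hat.th K _ (ps K c x) := by
  ext1
  funext n
  simp only [ps, Hat.co_mapR, Hat.co_th, Int.cast_smul_eq_zsmul, map_zsmul]

lemma ps_alg (z : ℂ) : ps K c (algebraMap ℂ _ z) = algebraMap K _ (algebraMap ℂ K z) := by
  rw [Hat.algebraMap_co, ps_C, psi_alg]
  rfl

lemma ps_a0 (a : Fin (r + 1) → ℂ) (i : Fin (r + 1)) : ps K c (a0 a i) = aH K a c i :=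
  Hat.ext_nat (ps_Lo c (Hat.ofPS_Lo _)) (Hat.ofPS_Lo _) fun m => by
    rw [ps, Hat.co_mapR, a0, aH, Hat.co_ofPS, Hat.co_ofPS, PowerSeries.coeff_mk,
      PowerSeries.coeff_mk, psi_aL]

lemma alg_single (n : ℤ) (x : K) : algebraMap (Hat K K) (RH K (K ⊗[ℂ] C)) (Hat.single K n x) =
    Hat.single K n 1 * algebraMap K _ x := by
  rw [Hat.algebraMap_hat, Hat.mapR_single, Hat.algebraMap_co, Hat.C_apply, Hat.single_mul, one_mul,
    add_zero]

variable {H : Type} [AddCommGroup H] [Module ℂ H] {p : Par ℂ H} {ι : Type} [Fintype ι]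
  {fr : Frame p ι} (ac : Act fr C)

lemma atA_tmul (a : Hat K K) (x : C) :
    (emT K ac).atA (a ⊗ₜ x) = a • Hat.C K (LaurentPolynomial.C (1 ⊗ₜ x)) := by
  refine (congrArg (Hat.mapA (lC K _)) (embC_tmul K a x)).trans ?_
  rw [map_smul, mapA_C, lC_apply]

lemma ps_chi (a : Fin (r + 1) → ℂ) (j : Fin (r + 1)) :
    ps K c (chi0 a j) = (emT K ac).atA (chiK (Hat.single K (-1) 1) a c j) := by
  have e : a j • Hat.single K (-1) (1 : K) = Hat.single K (-1) (algebraMap ℂ K (a j)) := by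
    ext n
    simp [Hat.co_single, Algebra.algebraMap_eq_smul_one]
  rw [chi0_eq, chiK, e, map_add (ps K c), map_add (emT K ac).atA, map_mul, ps_alg, ps_ez, ps_C,
    psi_C, atA_tmul _ 1, one_smul, MvPolynomial.aeval_X, mul_comm, ← alg_single]
  exact congrArg (· + _) ((emT K ac).atA.commutes _).symm

lemma at0_alg (x : Hat K K) : (emT K ac).at0 (algebraMap (Hat K K) _ x) = algebraMap _ _ x := by
  rw [LaurentPolynomial.algebraMap_apply, Emb.at0_C, AlgHom.commutes]

lemma at0_psi (x : L0 r) : (emT K ac).at0 (psi (Hat K K) c x) = Hat.C K (psi K c x) := by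
  induction x using LaurentPolynomial.induction_on' with
  | add a b ha hb => simp only [map_add, ha, hb]
  | C_mul_T n a =>
    simp only [map_mul, psi_C, psi_T, Emb.at0_C, Emb.at0_T, atA_tmul, one_smul, zH]

variable {q : K} {D : ℕ} (hq : q ^ (D + 1) = 0)

/-- Evaluation of the series. -/
noncomputable def tev : RR r →+* RH K (K ⊗[ℂ] C) :=
  tv (ps K c) (q := algebraMap K _ q) (D := D) (by rw [← map_pow, hq, map_zero])

lemma tev_apply (x : RR r) : tev c hq x =
    ∑ d ∈ range (D + 1), ps K c (PowerSeries.coeff d x) * algebraMap K _ q ^ d := tv_apply _ _ _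

lemma tev_C (x : R0 r) : tev c hq (PowerSeries.C x) = ps K c x := tv_C _ _ _

lemma tev_X : tev c hq PowerSeries.X = algebraMap K _ q := tv_X _ _

lemma mul_q_Lo {x : RH K (K ⊗[ℂ] C)} {n : ℤ} (h : x ∈ Hat.Lo _ _ n) (q : K) (d : ℕ) :
    x * algebraMap K _ q ^ d ∈ Hat.Lo _ _ n := by
  rw [← map_pow]
  exact mul_C_Lo _ h

lemma tev_Lo {x : RR r} {n : ℤ} (h : ∀ d, PowerSeries.coeff d x ∈ Hat.Lo ℂ _ n) :
    tev c hq x ∈ Hat.Lo _ _ n := by
  rw [tev_apply]
  exact sum_mem fun d _ => mul_q_Lo (ps_Lo c (h d)) q d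

lemma tev_split {x : RR r} {n : ℤ} (h : ∀ d ≤ D, PowerSeries.coeff d x ∈ Hat.Lo ℂ _ n) :
    ∃ g ∈ Hat.Lo _ _ n, tev c hq x = ps K c (PowerSeries.coeff 0 x) + q • g := by
  refine ⟨∑ d ∈ range D, ps K c (PowerSeries.coeff (d + 1) x) * algebraMap K _ q ^ d,
    sum_mem fun d hd => mul_q_Lo (ps_Lo c (h _ (mem_range.1 hd))) q d, ?_⟩
  rw [tev_apply, sum_range_succ', pow_zero, mul_one, add_comm, Algebra.smul_def, mul_sum]
  exact congrArg _ (sum_congr rfl fun d _ => by ring)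

lemma tev_th (x : RR r) : tev c hq (thR x) = Hat.th K _ (tev c hq x) := by
  rw [tev_apply, tev_apply, map_sum]
  refine sum_congr rfl fun d _ => ?_
  rw [thR, PowerSeries.coeff_mk, ps_th, ← map_pow, mul_comm, mul_comm (ps K c _)]
  exact (th_C_mul _ _).symm

lemma tev_sc (s : PowerSeries ℂ) :
    tev c hq (sc0 r s) = algebraMap K _ (tv (algebraMap ℂ K) hq s) := by
  rw [tev_apply, tv_apply, map_sum]
  refine sum_congr rfl fun d _ => ?_
  rw [sc0, PowerSeries.coeff_map, map_mul, map_pow, ps_alg]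

lemma tev_phi (x : Polynomial (Polynomial (L0 r))) : tev c hq (phi r x) =
    (emT K ac).at0 (phB c (Hat.single K (-1) 1) (Hat.single K (-(r + 1)) q) x) := by
  have : (tev c hq).comp (phi r) =
      (emT K ac).at0.comp (phB c (Hat.single K (-1) 1) (Hat.single K (-(r + 1)) q)) :=
    Polynomial.ringHom_ext' (Polynomial.ringHom_ext' (RingHom.ext fun z => by
      simp only [RingHom.comp_apply, phB_CC, at0_psi]
      simp [phi, tev_C, ps_C]) (by
      simp only [RingHom.comp_apply, phB_CX, at0_alg, alg_single]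
      simp [phi, tev_C, tev_X, ps_ez])) (by
      simp only [RingHom.comp_apply, phB_X, at0_alg, alg_single]
      simp [phi, tev_C, ps_ez])
  exact RingHom.congr_fun this x

lemma tev_n0 {a : Fin (r + 1) → ℂ} (ha : Function.Injective a) (i k : Fin (r + 1)) :
    tev c hq (n0 a i k) = nH (emT K ac) (chiK (Hat.single K (-1) 1) a c) D
      (algebraMap (Hat K K) _ (Hat.single K (-(r + 1)) q)) i k := by
  rw [tev_apply, nH, Matrix.of_apply, nS]
  refine sum_congr rfl fun d _ => ?_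
  rw [n0, PowerSeries.coeff_mk, map_mul, map_nn _ (unit_dn ha i d), AlgHom.commutes, alg_single,
    mul_pow, single_pow, one_pow, ps_ez, ps_zz, map_neg, map_neg, neg_mul, mul_right_comm]
  simp only [ps_chi c ac]

end tev

end TEV

open TEV

section gen

variable {K : Type} [CommRing K] [Algebra ℂ K] [Algebra ℚ K] {H : Type} [AddCommGroup H]
  [Module ℂ H] {p : Par ℂ H} {ι : Type} [Fintype ι] {fr : Frame p ι} {C : Type} [CommRing C]
  [Algebra ℂ C] (ac : Act fr C) {r : ℕ} (c : Fin (r + 1) → C) {a : Fin (r + 1) → ℂ}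
  {q : K} {D : ℕ} (hq : q ^ (D + 1) = 0)

omit [Algebra ℚ K] in
lemma TEV.tev_ts (s : PowerSeries ℂ) : tev c hq (PowerSeries.C (ez r (-1)) * sc0 r s) =
    (Hat.single K (-1) 1 * Hat.C K (tv (algebraMap ℂ K) hq s)) • (1 : RH K (K ⊗[ℂ] C)) := by
  rw [map_mul, tev_C, ps_ez, tev_sc, ← alg_single, ← Algebra.algebraMap_eq_smul_one, Hat.C_apply,
    Hat.single_mul, one_mul, add_zero]

lemma TEV.tev_exp {u : PowerSeries ℂ} (hu : PowerSeries.constantCoeff u = 0) :
    tev c hq (∑ m ∈ range (D + 1), ((m.factorial : ℂ)⁻¹) •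
      (sc0 r u * PowerSeries.C (ez r (-1) * zz r (-1))) ^ m) =
    nexp (Hat K K) ((Hat.single K (-1) 1 * Hat.C K (tv (algebraMap ℂ K) hq u)) •
      zH K (K ⊗[ℂ] C) (-1)) := by
  have e : (Hat.single K (-1) 1 * Hat.C K (tv (algebraMap ℂ K) hq u)) • zH K (K ⊗[ℂ] C) (-1) =
      tev c hq (sc0 r u * PowerSeries.C (ez r (-1) * zz r (-1))) := by
    rw [map_mul PowerSeries.C, ← mul_assoc, mul_comm (sc0 r u), map_mul, tev_ts, tev_C, ps_zz,
      smul_mul_assoc, one_mul]
  obtain ⟨v, hv⟩ := tv_dvd (algebraMap ℂ K) hq hu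
  rw [nexp_eq_sum (k := D + 1) (by
    rw [smul_pow, mul_pow, ← map_pow (Hat.C K), hv, mul_pow, hq, zero_mul, map_zero, mul_zero, zero_smul]),
    map_sum, e]
  refine sum_congr rfl fun m _ => ?_
  have e1 := RingHom.congr_fun (RingHom.ext_rat
    ((tev c hq).comp ((algebraMap ℂ (RR r)).comp (algebraMap ℚ ℂ)))
    ((algebraMap (Hat K K) _).comp (algebraMap ℚ (Hat K K)))) (m.factorial : ℚ)⁻¹
  simp only [RingHom.comp_apply, map_inv₀, map_natCast] at e1
  rw [ifac, Algebra.smul_def (algebraMap ℚ _ _), ← e1, ← map_pow, ← map_mul]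
  exact congrArg _ (Algebra.smul_def _ _)

lemma TEV.clause2 (ha : Function.Injective a) {u : PowerSeries ℂ}
    (hu : PowerSeries.constantCoeff u = 0) (i k : Fin (r + 1))
    (h : ∀ d ≤ D, PowerSeries.coeff d ((∑ m ∈ range (D + 1), ((m.factorial : ℂ)⁻¹) •
        (sc0 r u * PowerSeries.C (ez r (-1) * zz r (-1))) ^ m) * n0 a i k) ∈
      Hat.Lo ℂ (L0 r) (-(k : ℕ))) :
    ∃ g ∈ Hat.Lo _ _ (-((k : ℕ) : ℤ)),
      nexp (Hat K K) ((Hat.single K (-1) 1 * Hat.C K (tv (algebraMap ℂ K) hq u)) •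
        zH K (K ⊗[ℂ] C) (-1)) * nH (emT K ac) (chiK (Hat.single K (-1) 1) a c) D
          (algebraMap (Hat K K) _ (Hat.single K (-(r + 1)) q)) i k =
        (emT K ac).atA ((-chiK (Hat.single K (-1) 1) a c i) ^ (k : ℕ)) + q • g := by
  obtain ⟨g, hg, e⟩ := tev_split c hq h
  refine ⟨g, hg, ?_⟩
  rw [← tev_exp c hq hu, ← tev_n0 c ac hq ha, ← map_mul, e, map_pow, map_neg, ← ps_chi,
    ← map_neg, ← map_pow]
  congr 2
  have e1 : PowerSeries.constantCoeff (sc0 r u) = 0 := by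
    rw [← PowerSeries.coeff_zero_eq_constantCoeff_apply, sc0, PowerSeries.coeff_map,
      PowerSeries.coeff_zero_eq_constantCoeff_apply, hu, map_zero]
  rw [PowerSeries.coeff_zero_eq_constantCoeff, map_mul, sum_range_succ', map_add, map_sum,
    sum_eq_zero fun m _ => ?_, ← PowerSeries.coeff_zero_eq_constantCoeff_apply (n0 a i k), n0,
    PowerSeries.coeff_mk, nn_zero]
  · simp [ez, ← Hat.one_def]
  · rw [PowerSeries.constantCoeff_smul, map_pow, map_mul, e1, zero_mul, zero_pow m.succ_ne_zero,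
      smul_zero]

lemma TEV.clause3 (ha : Function.Injective a) {N : ℕ} {s1 : Polynomial (Polynomial ℂ)}
    {U1 : Fin (r + 1) → Fin (r + 1) → Polynomial (Polynomial (L0 r))}
    {ρ : Fin (r + 1) → Fin (r + 1) → RR r} {s : PowerSeries ℂ} {i k : Fin (r + 1)}
    (h : ∑ k' : Fin (r + 1), n0 a i k' *
          phi r (Polynomial.C (Polynomial.X ^ N * mainM MvPolynomial.X k' k) +
            Polynomial.X * U1 k' k) =
        phi r (Polynomial.C (Polynomial.X ^ N) +
            Polynomial.X * s1.map (Polynomial.mapRingHom (algebraMap ℂ (L0 r)))) *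
          (PowerSeries.C (zz r 1) * (thR (n0 a i k) + ((k : ℕ) : RR r) * n0 a i k) +
            (PowerSeries.C (ez r (-1)) * sc0 r s - PowerSeries.C (zz r 1 * a0 a i)) * n0 a i k +
            ∑ k' : Fin (r + 1), n0 a i k' * ρ k' k)) {t Q : Hat K K} (ht : t = Hat.single K (-1) 1)
    (hQ : Q = Hat.single K (-(r + 1)) q) {n : Matrix _ _ (RH K (K ⊗[ℂ] C))}
    (hn : n = nH (emT K ac) (chiK t a c) D (algebraMap (Hat K K) _ Q)) :
    ∑ k' : Fin (r + 1), n i k' * (emT K ac).at0 (MB c t Q N U1 k' k) =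
      (Q ^ N + t * sB t Q s1) • (zH _ _ 1 * (Hat.th _ _ (n i k) + (k : ℕ) • n i k) +
        ((t * Hat.C _ (tv (algebraMap ℂ K) hq s)) • 1 - zH _ _ 1 * aH K a c i) * n i k +
          ∑ k' : Fin (r + 1), n i k' * tev c hq (ρ k' k)) := by
  subst ht hQ hn
  have e := congrArg (tev c hq) h
  rw [map_mul, tev_phi c ac hq, phB_sc, at0_alg, ← Algebra.smul_def, map_sum, map_add, map_add,
    map_sum, map_mul, map_mul, map_add, map_sub, tev_ts, tev_th, map_mul, map_natCast, tev_C, tev_C,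
    map_mul, ps_zz, ps_a0, ← nsmul_eq_mul] at e
  simp only [map_mul (tev c hq), tev_n0 c ac hq ha, tev_phi c ac hq, phB_MB] at e
  exact e

end gen

variable {H : Type} [AddCommGroup H] [Module ℂ H] {p : Par ℂ H} {ι : Type} [Fintype ι]
  {fr : Frame p ι} {C : Type} [CommRing C] [Algebra ℂ C] (ac : Act fr C) {r : ℕ}
  (c : Fin (r + 1) → C) {a : Fin (r + 1) → ℂ} (ha : Function.Injective a)
include ha

theorem wkb_hat (W : WKB r) : ∃ s u : (D : ℕ) → Fin (r + 1) → K1 D,
    (∀ D i, ∃ v, u D i = q1 D * v) ∧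
    (∀ D (i k : Fin (r + 1)), ∃ g ∈ Hat.Lo _ _ (-((k : ℕ) : ℤ)),
      nexp (F1 D) ((t1 D * Hat.C _ (u D i)) • zH (K1 D) (K1 D ⊗[ℂ] C) (-1)) * nB ac c a D i k =
        (emT (K1 D) ac).atA ((-chiK (t1 D) a c i) ^ (k : ℕ)) + q1 D • g) ∧
    ∀ K : ℤ, ∃ (N : ℕ) (s1 : Polynomial (Polynomial ℂ))
      (U1 : Fin (r + 1) → Fin (r + 1) → Polynomial (Polynomial (L0 r))), ∀ D,
      (Qe r D ^ N + t1 D * sB (t1 D) (Qe r D) s1) • (1 : RH (K1 D) (K1 D ⊗[ℂ] C)) ∈
        Hat.Lo _ _ (-((r + 1) * N)) ∧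
      ∃ ρ : Fin (r + 1) → Fin (r + 1) → RH (K1 D) (K1 D ⊗[ℂ] C),
        (∀ k' k : Fin (r + 1), ρ k' k ∈ Hat.Lo _ _ (K + (k' : ℕ) - (k : ℕ))) ∧
        ∀ i k : Fin (r + 1), ∑ k' : Fin (r + 1), nB ac c a D i k' *
            (emT (K1 D) ac).at0 (MB c (t1 D) (Qe r D) N U1 k' k) =
          (Qe r D ^ N + t1 D * sB (t1 D) (Qe r D) s1) •
            (zH _ _ 1 * (Hat.th _ _ (nB ac c a D i k) + (k : ℕ) • nB ac c a D i k) +
              ((t1 D * Hat.C _ (s D i)) • 1 - zH _ _ 1 * aH (K1 D) a c i) * nB ac c a D i k +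
              ∑ k' : Fin (r + 1), nB ac c a D i k' * ρ k' k) := by
  obtain ⟨s, u, h1, h2, h3⟩ := W a ha
  refine ⟨fun D i => tv (algebraMap ℂ _) q1_pow (s i), fun D i => tv (algebraMap ℂ _) q1_pow (u i),
    fun D i => tv_dvd _ _ (h1 i), fun D i k => clause2 ac c q1_pow ha (h1 i) i k (h2 D i k),
    fun K => ?_⟩
  obtain ⟨N, s1, U1, ρ, e1, e2, e3⟩ := h3 K
  refine ⟨N, s1, U1, fun D => ⟨?_, fun k' k => tev c q1_pow (ρ k' k),
    fun k' k => tev_Lo c _ (e1 k' k), fun i k => clause3 ac c q1_pow ha (e3 i k) rfl rfl rfl⟩⟩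
  have e := tev_Lo c (q1_pow (D := D)) e2
  rwa [tev_phi c ac, phB_sc, at0_alg, Algebra.algebraMap_eq_smul_one] at e

end Vale.Agent.P269.B
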