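import Vale.Agent.P269.B.EndA
import Vale.Agent.P269.B.Coef
import Vale.Agent.P269.B.Tev
import Vale.Agent.P269.B.Hom
import Vale.Agent.P269.B.Qrr
import Vale.Agent.P269.Wkb.Main

/-! Step (B): the Virasoro constraints for projective bundles. -/

namespace Vale.Agent.P269.B

open Fock Finset TensorProduct

theorem edge {K : Type} [CommRing K] [Algebra ℚ K] {H : Type} [AddCommGroup H] [Module K H]
    {p : Par K H} {ι : Type} [Fintype ι] {fr : Frame p ι} {C : Type} [CommRing C] [Algebra K C]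
    {ac : Act fr C} {HA : Type} [AddCommGroup HA] [Module (Hat K K) HA] {pA : Par (Hat K K) HA}
    {frA : Frame pA ι} {A : Type} [CommRing A] [Algebra (Hat K K) A] {acA : Act frA A}
    (em : Emb ac acA) {r : ℕ} {χ : Fin (r + 1) → A} (h : Gen (Hat K K) χ)
    (hp : ∀ e, em.c (Ring.inverse (pe (Hat K K) χ e)) ∈ Hat.Lo _ _ 1) {u : (Hat K K)ˣ}
    {b b' : Fin (r + 1) → Hat K C} (hbb : ∀ i, b i * b' i = 1)
    (hb : ∀ i, b i ∈ Hat.Lo _ _ 0) (hb' : ∀ i, b' i ∈ Hat.Lo _ _ 0)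
    (he : ∀ i, (u : Hat K K) • em.c (eu χ i) = b' i) {D : ℕ} {n : ℤ} {q : K}
    (hQ : (Hat.single K n q : Hat K K) ^ (D + 1) = 0) : ∃ Ex, IsEx em χ (dH ac b) Ex ∧
    ∀ G, IsGS acA D (algebraMap _ A (Hat.single K n q : Hat K K)) χ (frT acA χ u) G →
      Itw (frT acA χ u).h (hA (fr.pi _) (dH ac b))
        (Hat.act K _ (matH ac _ (nH em χ D (algebraMap _ A (Hat.single K n q : Hat K K)))) ∘ₗ em.L _)
        ((Ex ∘ₗ nexp (Hat K K) (XE acA χ D (Hat.single K n q) u) ∘ₗ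
          (Fock.map _ (isEv_res acA χ)).toLinearMap) ∘ₗ G) ∧
      ∃ Ω, ((Ex ∘ₗ nexp (Hat K K) (XE acA χ D (Hat.single K n q) u) ∘ₗ
          (Fock.map _ (isEv_res acA χ)).toLinearMap) ∘ₗ G) 1 = Hat.single K 0 1 + q • Ω := by
  obtain ⟨Ex, hE, hE'⟩ := exists_Ex em h hp hbb hb hb' he
  choose L hL using fun i k : Fin (r + 1) => h.pfc (D := D)
    (Q := algebraMap _ A (Hat.single K n q : Hat K K)) (by rw [← map_pow, hQ, map_zero]) i k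
  refine ⟨Ex, hE, fun G hG => ⟨fun f => LinearMap.ext fun x => ?_, ?_⟩⟩
  · have := congrArg Ex ((edge_alg acA h hQ hL (isT_frT acA χ u) hG).apply f x)
    exact this.trans ((hE' _ _ _).trans (congrArg (fun y => hA (fr.pi _) (dH ac b) y _)
      (exH_gE em h hp u hL f)))
  · obtain ⟨Y, hY⟩ := nexp_XE acA χ hQ u
    refine ⟨(Hat.single K n 1 : Hat K K) • Ex (Y 1), ?_⟩
    simp only [LinearMap.comp_apply, hG.1, AlgHom.toLinearMap_apply, map_one, hY,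
      LinearMap.add_apply, Module.End.one_apply, LinearMap.smul_apply, map_add, map_smul, hE.one]
    rw [← Hat.C_smul, smul_smul, Hat.C_apply, Hat.single_mul, zero_add, mul_one]

variable {H : Type} [AddCommGroup H] [Module ℂ H] {p : Par ℂ H} {ι : Type} [Fintype ι]
  {fr : Frame p ι} {d : VD fr} {C : Type} [CommRing C] [Algebra ℂ C] {ac : Act fr C} {r : ℕ}
  {c : Fin (r + 1) → C} {Γ : Type}
  {ZT : Γ → ℤ → ℤ → S ((p.pi (Fin (r + 1))).fs ℕ) →ₗ[ℂ] Polynomial ℂ}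

lemma eps_chi (K : Type) [CommRing K] [Algebra ℂ K] (a : Fin (r + 1) → ℂ) (i : Fin (r + 1)) :
    (Hat.single K 1 1 : Hat K K) • (emT K ac).c (chiK (Hat.single K (-1) 1) a c i) -
      algebraMap K _ (algebraMap ℂ K (a i)) ∈ Hat.Lo _ _ 1 := by
  have e : (Hat.single K 1 1 : Hat K K) • (a i • Hat.single K (-1) 1 : Hat K K) •
      Hat.C K ((1 : K) ⊗ₜ[ℂ] (1 : C)) = algebraMap K _ (algebraMap ℂ K (a i)) := by
    rw [smul_smul, mul_smul_comm, Hat.single_mul, add_neg_cancel, mul_one, ← Hat.one_def,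
      ← Algebra.TensorProduct.one_def, map_one, smul_assoc, one_smul,
      Algebra.algebraMap_eq_smul_one, algebraMap_smul]
  change _ • embC K C _ - _ ∈ _
  rw [chiK, map_add, embC_tmul, embC_tmul, smul_add, e, add_sub_cancel_left, one_smul]
  exact eps_smul_Lo 1 (Hat.single_Lo 0 _)

lemma sum_small {K Γ : Type} [CommRing K] (s : Finset Γ) {a z : Γ → Hat K K} {y : Hat K K}
    {L M : ℤ} {n : ℕ} (ha : ∀ β ∈ s, a β ∈ Hat.Lo _ _ L)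
    (h : ∀ β, ∃ w ∈ Hat.Lo K K M, (Hat.single K n 1 : Hat K K) • z β = y * w) :
    ∃ w ∈ Hat.Lo K K (L + M - n), ∑ β ∈ s, a β * z β = y * w := by
  choose w hw e using h
  refine ⟨∑ β ∈ s, a β * (Hat.single K (-n) 1 * w β), sum_mem fun β hβ => Hat.Lo_mono (by omega)
    (Hat.mul_Lo (ha β hβ) (Hat.mul_Lo (Hat.single_Lo _ _) (hw β))), ?_⟩
  rw [mul_sum]
  refine sum_congr rfl fun β _ => ?_
  rw [mul_left_comm y, mul_left_comm y, ← e, smul_eq_mul, ← mul_assoc (Hat.single K _ _),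
    Hat.single_mul, neg_add_cancel, mul_one, ← Hat.one_def, one_mul]

lemma zS_small {K E M Γ : Type} [CommRing K] [AddCommGroup E] [Module K E] [AddCommGroup M]
    [Module (Hat K K) M] (s : Finset Γ) {a : Γ → Hat K K} {Z : Γ → Hat K (E →ₗ[K] K)}
    {G : M →ₗ[Hat K K] Hat K E} {G' T : Module.End (Hat K K) M} {x : M} {y : Hat K K} {L L' : ℤ}
    {n : ℕ} (ha : ∀ β ∈ s, a β ∈ Hat.Lo _ _ L) (h : ∀ β, ∃ w ∈ Hat.Lo K K L',
      zA (Z β) ((G ∘ₗ G') (T ((Hat.single K n 1 : Hat K K) • x))) = y * w) :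
    ∃ w ∈ Hat.Lo K K (L + L' - n), zS s a Z G (G' (T x)) = y * w := by
  rw [zS_apply]
  exact sum_small s ha fun β => by simpa only [map_smul, LinearMap.comp_apply] using h β

variable (I : BIn d ac c Γ ZT)

lemma BIn.bI_mul (D : ℕ) (i : Fin (r + 1)) :
    bI (K1 D) I.a c (hb1 D (-1)) i * bI' (K1 D) I.a c (hb1 D 1) i = 1 :=
  B.bI_mul (K1 D) I.ha.injective (by rw [← hb1_add]; rfl) i

lemma BIn.uH_eu (D : ℕ) (i : Fin (r + 1)) : (uH r D : F1 D) •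
    (emT (K1 D) ac).c (eu (chiK (t1 D) I.a c) i) = bI' (K1 D) I.a c (hb1 D 1) i := by
  rw [← embC_eu (K1 D) I.ha.injective]
  change hb r D 1 • _ = _
  rw [hb, mul_one]; rfl

lemma BIn.est_D {D : ℕ} {Z} (hZ : IsZt I.a D I.ZB Z) {G} (h1 : Itw (frT (ac.bc (F1 D))
      (chiK (t1 D) I.a c) (uH r D)).h (hA ((fr.bc (K1 D)).pi _)
      (dH (ac.bc (K1 D)) (bI (K1 D) I.a c (hb1 D (-1)))))
      (Hat.act (K1 D) _ (matH (ac.bc (K1 D)) _ (nB ac c I.a D)) ∘ₗ (emT (K1 D) ac).L _) G)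
    (h2 : ∃ Ω, G 1 = Hat.single (K1 D) 0 1 + q1 D • Ω) {s u : Fin (r + 1) → K1 D}
    (hu : ∀ i, ∃ v, u i = q1 D * v) (hn : ∀ i k : Fin (r + 1), ∃ g ∈ Hat.Lo _ _ (-((k : ℕ) : ℤ)),
      nexp (F1 D) ((t1 D * Hat.C _ (u i)) • zH (K1 D) (K1 D ⊗[ℂ] C) (-1)) * nB ac c I.a D i k =
        (emT (K1 D) ac).atA ((-chiK (t1 D) I.a c i) ^ (k : ℕ)) + q1 D • g) {N : ℕ} {s1 U1}
    (hs0 : (Qe r D ^ N + t1 D * sB (t1 D) (Qe r D) s1) • (1 : RH (K1 D) (K1 D ⊗[ℂ] C)) ∈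
      Hat.Lo _ _ (-((r + 1) * N))) {K0 : ℤ} (hK : -1 ≤ K0)
    {ρ : Fin (r + 1) → Fin (r + 1) → RH (K1 D) (K1 D ⊗[ℂ] C)}
    (hρ : ∀ k' k : Fin (r + 1), ρ k' k ∈ Hat.Lo _ _ (K0 + (k' : ℕ) - (k : ℕ)))
    (hM : ∀ i k : Fin (r + 1), ∑ k' : Fin (r + 1), nB ac c I.a D i k' *
        (emT (K1 D) ac).at0 (MB c (t1 D) (Qe r D) N U1 k' k) =
      (Qe r D ^ N + t1 D * sB (t1 D) (Qe r D) s1) •
        (zH _ _ 1 * (Hat.th _ _ (nB ac c I.a D i k) + (k : ℕ) • nB ac c I.a D i k) +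
          ((t1 D * Hat.C _ (s i)) • 1 - zH _ _ 1 * aH (K1 D) I.a c i) * nB ac c I.a D i k +
          ∑ k' : Fin (r + 1), nB ac c I.a D i k' * ρ k' k)) (m : ℕ) :
    ∃ γ : LL (Fin (r + 1) → F1 D ⊗[ℂ] H) →ₗ[F1 D] Hat (K1 D) (LL (Fin (r + 1) → K1 D ⊗[ℂ] H)),
      (∀ f y, (emT (K1 D) ac).L _ f = Hat.single _ 0 y →
        (Hat.single _ r 1 : F1 D) • γ f ∈ Hat.Lo _ _ 0) ∧
      ∀ x, Lat (frT (ac.bc (F1 D)) (chiK (t1 D) I.a c) (uH r D)) γ x → ∀ β,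
        ∃ w ∈ Hat.Lo _ _ (m * -((r + 1) * N) + K0 - m : ℤ),
        zA (Z β) (G (br (frT (ac.bc (F1 D)) (chiK (t1 D) I.a c) (uH r D))
          (zp _ _ (-1) * XB d ac c (t1 D) (Qe r D) N s1 U1 ^ m) x)) = zA (Z I.ov) (G 1) * w := by
  have ha := I.ha.injective
  choose g hg hn using hn
  exact est (emT (K1 D) ac) (a := fun i => algebraMap ℂ (K1 D) (I.a i))
    (fun i j h => by
      rw [← map_sub]; exact (IsUnit.mk0 _ (sub_ne_zero.2 (ha.ne h))).map _)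
    (eps_chi (K1 D) I.a) ⟨_, q1_pow⟩ (g := Matrix.of g) hg (I.gen D) (I.bI_mul D) (bI_Lo _ _ _)
    (bI'_Lo _ _ _) (I.uH_eu D) rfl h1 h2 (d := vdBc (K1 D) ac d) (dA := vdBc (F1 D) ac d)
    (embV_bc _ d.μ) (embV_bc _ d.ρ) (𝔞 := aH (K1 D) I.a c) (fun i => Hat.ofPS_Lo _)
    (Z := LinearMap.pi fun β => zA (Z β)) (fun n y hy β => by simpa using zA_Lo (hZ β).1 hy)
    (o := I.ov) (fun y hy ⟨v, hv⟩ => exists_inv_Lo hy (I.norm_Zt hZ) hv) (I.twVir D hZ)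
    (U := fun i => t1 D * Hat.C _ (u i)) (s := fun i => t1 D * Hat.C _ (s i))
    (fun i => by
      obtain ⟨v, hv⟩ := hu i
      exact ⟨t1 D * Hat.C _ v, by rw [hv, map_mul, ← Hat.C_smul, smul_eq_mul, mul_left_comm]⟩)
    (fun i => mul_C_Lo _ (Hat.single_Lo _ _)) (fun i => mul_C_Lo _ (Hat.single_Lo _ _)) hn
    (δ := Matrix.of _) (nB_hom ac c ha I.μ_c I.ρ_c D) hs0 hK hρ hM m rfl
    ((nice_zp _).mul ((nice_XB d ac c _ _ _ _ _).pow m)).adjO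

lemma BIn.ZTh_o {D : ℕ} (Z Ex x) : I.ZTh (D := D) Z Ex 0 I.o x = zA (Z I.ov) (GE ac c I.a Ex x) := by
  rw [BIn.ZTh, zS_apply, I.tup_o, sum_singleton, I.lam_o, I.sh_o, map_one]
  simp

lemma BIn.exists_Ex (D : ℕ) : ∃ Ex, IsEx (emT (K1 D) ac) (chiK (t1 D) I.a c)
    (dH (ac.bc (K1 D)) (bI (K1 D) I.a c (hb1 D (-1)))) Ex ∧ ∀ G,
    IsGS (ac.bc (F1 D)) D (algebraMap _ _ (Qe r D)) (chiK (t1 D) I.a c)
      (frT (ac.bc (F1 D)) (chiK (t1 D) I.a c) (uH r D)) G →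
    Itw (frT (ac.bc (F1 D)) (chiK (t1 D) I.a c) (uH r D)).h (hA ((fr.bc (K1 D)).pi _)
      (dH (ac.bc (K1 D)) (bI (K1 D) I.a c (hb1 D (-1)))))
      (Hat.act (K1 D) _ (matH (ac.bc (K1 D)) _ (nB ac c I.a D)) ∘ₗ (emT (K1 D) ac).L _)
      (GE ac c I.a Ex ∘ₗ G) ∧
    ∃ Ω, (GE ac c I.a Ex ∘ₗ G) 1 = Hat.single (K1 D) 0 1 + q1 D • Ω :=
  edge (emT (K1 D) ac) (I.gen D) (I.inv_pe D) (I.bI_mul D) (bI_Lo _ _ _)
    (bI'_Lo _ _ _) (I.uH_eu D) (Qe_pow (r := r) (D := D))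

lemma BIn.lam_Lo (β : Γ) (s0 : ℤ) : ∃ L1 : ℤ, ∀ D, ∀ βv ∈ I.tup β,
    phF D (I.lam βv) * Qe r D ^ (I.sh βv - s0).toNat ∈ Hat.Lo _ _ L1 := by
  choose l hl using fun βv => (I.lam βv).exists_Lo
  obtain ⟨L1, h⟩ := ((I.tup β).finite_toSet.image fun βv =>
    l βv + (I.sh βv - s0).toNat * (-(r + 1) : ℤ)).bddBelow
  exact ⟨L1, fun D βv hβ => Hat.Lo_mono (h ⟨βv, hβ, rfl⟩) (Hat.mul_Lo
    (fun k hk => by rw [phF, Hat.co_mapR, hl βv k hk, map_zero])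
    (Hat.pow_Lo (Hat.single_Lo _ _) _))⟩

theorem BIn.small (β : Γ) {s0 : ℤ} (hs : ∀ βv ∈ I.tup β, s0 ≤ I.sh βv)
    (x : S ((p.pi (Fin (r + 1))).fs ℕ)) (m : ℕ) : ∃ L : ℤ, ∀ K0 : ℤ, ∃ N s1 U1, ∀ D,
    ∃ (Zβ : S (((p.bc (F1 D)).pi (Fin (r + 1))).fs ℕ) →ₗ[F1 D] F1 D) (y : F1 D),
      (∀ x (e : ℤ), e ≤ D → ∀ j, coord r D e j (Zβ (bcS _ (isEvS_jV p (F1 D)) x)) =
        Polynomial.aeval tt (ZT β (e + s0) j x)) ∧
      (∀ e : ℤ, e ≤ D → ∀ j, coord r D e j y = Polynomial.aeval tt (ZT I.o e j 1)) ∧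
      ((∀ j < 0, coord r D 0 j y = 0) ∧ coord r D 0 0 y = 1 ∧
        ∀ j, coord r D 0 j y ∈ Hat.Lo ℂ ℂ (-(r * j))) ∧
      ∀ G, IsGS (ac.bc (F1 D)) D (algebraMap _ _ (Qe r D)) (chiK (t1 D) I.a c)
          (frT (ac.bc (F1 D)) (chiK (t1 D) I.a c) (uH r D)) G →
        ∃ w ∈ Hat.Lo _ _ (K0 - L - (r + 1) * (N * m : ℕ)),
          Zβ (G (br (frT (ac.bc (F1 D)) (chiK (t1 D) I.a c) (uH r D))
            (zp _ _ (-1) * XB d ac c (t1 D) (Qe r D) N s1 U1 ^ m)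
            (bcS _ (isEvS_jV p (F1 D)) x))) = y * w := by
  have ha := I.ha.injective
  obtain ⟨s, u, hu, hn, hK⟩ := wkb_hat ac c ha (wkb I.hr)
  obtain ⟨n, hlat⟩ := exists_lat ac x
  obtain ⟨L1, hL1⟩ := I.lam_Lo β s0
  refine ⟨n + m - L1, fun K0 => ?_⟩
  obtain ⟨N, s1, U1, hD⟩ := hK (max K0 (-1))
  refine ⟨N, s1, U1, fun D => ?_⟩
  obtain ⟨hs0, ρ, hρ, hM⟩ := hD D
  obtain ⟨Z, hZ⟩ := I.exists_Zt D
  have hb := tw_diagonal (ac.bc (K1 D)) (I.bI_mul D) (bI_Lo _ _ _) (bI'_Lo _ _ _)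
  obtain ⟨Ex, hE, hG⟩ := I.exists_Ex D
  refine ⟨I.ZTh Z Ex s0 β, I.ZTh Z Ex 0 I.o 1, fun x e he j => I.coef hZ hb hE hs x he j,
    fun e he j => ?_, I.coef_one hZ hb hE, fun G hGS => ?_⟩
  · have := I.coef hZ hb hE (s0 := 0) (β := I.o) (by simp [I.tup_o, I.sh_o]) 1 he j
    rwa [map_one, add_zero] at this
  obtain ⟨γ, g1, g2⟩ := I.est_D hZ (hG G hGS).1 (hG G hGS).2 (hu D)
    (hn D) hs0 (le_max_right _ _) hρ hM m
  obtain ⟨w, hw, e⟩ := zS_small (I.tup β) (hL1 D) (g2 _ (hlat _ _ γ g1))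
  refine ⟨w, Hat.Lo_mono (by push_cast; linarith [le_max_left K0 (-1)]) hw, e.trans ?_⟩
  rw [I.ZTh_o, LinearMap.comp_apply, hGS.1]

end Vale.Agent.P269.B
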