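import Vale.Agent.P269.B.GDef

/-! The main estimate: constraints of the twisted theory are transferred to the bundle up to
terms of high order. -/

namespace Vale.Agent.P269.B

open Fock Finset

section ring

variable {K : Type*} [CommRing K] [Algebra ℚ K] {R : Type*} [Ring R] [Algebra K R]

omit [Algebra ℚ K] in
lemma lie_pow {D X c : R} (h : D * X - X * D = c) (hc : Commute c X) (m : ℕ) :
    D * X ^ (m + 1) - X ^ (m + 1) * D = ((m : K) + 1) • (c * X ^ m) := by
  induction m with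
  | zero => simpa using h
  | succ m ih =>
    have e : D * X ^ (m + 2) - X ^ (m + 2) * D =
        (D * X ^ (m + 1) - X ^ (m + 1) * D) * X + X ^ (m + 1) * (D * X - X * D) := by
      simp only [pow_succ X (m + 1)]; noncomm_ring
    rw [e, ih, h, ← (hc.pow_right _).eq, smul_mul_assoc, mul_assoc, ← pow_succ]
    push_cast
    rw [add_smul (_ + 1), one_smul]

lemma lie_nexp {D X c : R} (h : D * X - X * D = c) (hc : Commute c X) (hX : IsNilpotent X) :
    D * nexp K X - nexp K X * D = c * nexp K X := by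
  obtain ⟨k, hk⟩ := hX
  conv_lhs => rw [nexp_eq_sum (k := k + 1) (by rw [pow_succ, hk, zero_mul])]
  rw [nexp_eq_sum hk, mul_sum, sum_mul, ← sum_sub_distrib, sum_range_succ', mul_sum]
  simp only [mul_smul_comm, smul_mul_assoc, ← smul_sub, lie_pow (K := K) h hc, smul_smul, pow_zero,
    mul_one, one_mul, sub_self, smul_zero, add_zero, mul_comm (ifac K _), ifac_succ]

lemma nexp_eq_add {X : R} (hX : IsNilpotent X) : ∃ Y, nexp K X = 1 + X * Y := by
  obtain ⟨k, hk⟩ := hX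
  refine ⟨∑ i ∈ range k, ifac K (i + 1) • X ^ i, ?_⟩
  rw [nexp_eq_sum (k := k + 1) (by rw [pow_succ, hk, zero_mul]), sum_range_succ', mul_sum, add_comm]
  simp [ifac, pow_succ']

omit [Algebra ℚ K] in
lemma alg_smul_pow (c : K) (x : R) (n : ℕ) : (c • x) ^ n = c ^ n • x ^ n := _root_.smul_pow c x n

omit [Algebra ℚ K] in
lemma nil_smul {q : K} (hq : IsNilpotent q) (X : R) : IsNilpotent (q • X) :=
  hq.imp fun k hk => by rw [smul_pow, hk, zero_smul]

omit [Algebra ℚ K] [Algebra K R] in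
lemma pow_sub_Lo {x y : Hat K R} {n : ℤ} (hn : -1 ≤ n) (hx : x ∈ Hat.Lo _ _ (-1))
    (hy : y ∈ Hat.Lo _ _ n) (m : ℕ) : (x + y) ^ m - x ^ m ∈ Hat.Lo _ _ (n + 1 - m) := by
  induction m with
  | zero => simpa using zero_mem _
  | succ m ih =>
    have e : (x + y) ^ (m + 1) - x ^ (m + 1) = (x + y) * ((x + y) ^ m - x ^ m) + y * x ^ m := by
      simp only [pow_succ']; noncomm_ring
    rw [e]
    exact add_mem (Hat.Lo_mono (by push_cast; omega)
      (Hat.mul_Lo (add_mem hx (Hat.Lo_mono hn hy)) ih))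
      (Hat.Lo_mono (by push_cast; omega) (Hat.mul_Lo hy (Hat.pow_Lo hx m)))

end ring

section mat

variable {K : Type} [CommRing K] {R : Type*} [CommRing R] {σ : Type} [Fintype σ] [DecidableEq σ]

lemma lo0_unit {x : lo0 K R} {a : R} (ha : IsUnit a) (h : x.1 - Hat.C K a ∈ Hat.Lo K R 1) :
    IsUnit x := by
  obtain ⟨c, hc⟩ := ha.exists_right_inv
  obtain ⟨y, e, -, hy, -⟩ := Hat.exists_inv (x := x.1 * Hat.C K c) (by
    have := mul_C_Lo c h
    rwa [sub_mul, ← map_mul, hc, map_one] at this) ⊤ fun _ => trivial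
  have hy' : y ∈ Hat.Lo K R 0 := by
    simpa using add_mem (Hat.Lo_mono zero_le_one hy) Hat.one_Lo
  exact IsUnit.of_mul_eq_one (⟨_, Hat.single_Lo 0 c⟩ * ⟨y, hy'⟩)
    (Subtype.ext ((mul_assoc _ _ _).symm.trans e))

lemma exists_inv_mat {S : Subring R} {M : Matrix σ σ R} (M' : Matrix σ σ S)
    (e : M'.map S.subtype = M) (h : IsUnit M') : ∃ N : Matrix σ σ R, (∀ i j, N i j ∈ S) ∧
      M * N = 1 := by
  obtain ⟨N, hN⟩ := h.exists_right_inv
  exact ⟨N.map S.subtype, fun i j => (N i j).2, by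
    rw [← e, ← Matrix.map_mul, hN, Matrix.map_one _ (map_zero _) (map_one _)]⟩

/-- Perturbed Vandermonde matrices. -/
lemma vand_inv {r : ℕ} {x : Fin (r + 1) → Hat K R} {a : Fin (r + 1) → R}
    (ha : ∀ i j, i ≠ j → IsUnit (a i - a j)) (hx : ∀ i, x i - Hat.C K (a i) ∈ Hat.Lo K R 1)
    {q : Hat K R} (hq : IsNilpotent q) (hq' : q ∈ Hat.Lo K R 0)
    {g : Matrix (Fin (r + 1)) (Fin (r + 1)) (Hat K R)} (hg : ∀ i j, g i j ∈ Hat.Lo K R 0) :
    ∃ N : Matrix (Fin (r + 1)) (Fin (r + 1)) (Hat K R), (∀ i j, N i j ∈ Hat.Lo K R 0) ∧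
      (Matrix.vandermonde x + q • g) * N = 1 := by
  have hx' : ∀ i, x i ∈ lo0 K R := fun i => sub_add_cancel (x i) (Hat.C K (a i)) ▸
    add_mem (Hat.Lo_mono zero_le_one (hx i)) (Hat.single_Lo 0 (a i))
  have h1 : IsUnit (Matrix.vandermonde fun i => (⟨x i, hx' i⟩ : lo0 K R)) := by
    rw [Matrix.isUnit_iff_isUnit_det, Matrix.det_vandermonde]
    refine IsUnit.prod_univ_iff.2 fun i => IsUnit.prod_iff.2 fun j hj =>
      lo0_unit (ha j i (mem_Ioi.1 hj).ne') ?_
    have := sub_mem (hx j) (hx i)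
    rwa [sub_sub_sub_comm, ← map_sub] at this
  have h2 : IsNilpotent (⟨q, hq'⟩ : lo0 K R) := hq.imp fun k hk => Subtype.ext (by simpa using hk)
  obtain ⟨V, hV⟩ := h1.exists_right_inv
  refine exists_inv_mat (S := lo0 K R) (Matrix.vandermonde (fun i => ⟨x i, hx' i⟩) +
    (⟨q, hq'⟩ : lo0 K R) • Matrix.of fun i j => ⟨g i j, hg i j⟩) (by ext i j; simp) ?_
  have := h1.mul (nil_smul h2 (V * Matrix.of fun i j => ⟨g i j, hg i j⟩)).isUnit_one_add
  rwa [mul_add, mul_one, mul_smul_comm, ← mul_assoc, hV, one_mul] at this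

end mat

variable {K : Type} [CommRing K] {H : Type} [AddCommGroup H] [Module K H]
  {p : Par K H} {ι : Type} [Fintype ι] {fr : Frame p ι} {C : Type} [CommRing C] [Algebra K C]
  (ac : Act fr C)

section ops

variable {σ : Type} [Fintype σ] [DecidableEq σ]

/-- Matrices of series as series of operators. -/
noncomputable def matA : Matrix σ σ (RH K C) →ₐ[Hat K K] Hat K (Module.End K (LL (σ → H))) :=
  AlgHom.mk' (matH ac σ) (matH_smul ac)

lemma actM_single (M : Matrix σ σ C) (k : σ) (v : H) (i : σ) :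
    actM ac.act M (Pi.single k v) i = ac.act (M i k) v := by
  rw [actM_apply, sum_eq_single k (fun j _ hj => by simp [hj]) (by simp), Pi.single_eq_same]

lemma act_matH_add (M N : Matrix σ σ (RH K C)) (q : K) (y : Hat K (LL (σ → H))) :
    Hat.act K _ (matH ac σ (M + q • N)) y =
      Hat.act K _ (matH ac σ M) y + q • Hat.act K _ (matH ac σ N) y := by
  rw [show q • N = Hat.C K q • N from Matrix.ext fun i j => (Hat.C_smul q (N i j)).symm, map_add,
    matH_smul, map_add, map_smul, LinearMap.add_apply, LinearMap.smul_apply, Hat.C_smul]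

lemma act_matH_mul (M N : Matrix σ σ (RH K C)) (y : Hat K (LL (σ → H))) :
    Hat.act K _ (matH ac σ (M * N)) y =
      Hat.act K _ (matH ac σ M) (Hat.act K _ (matH ac σ N) y) := by
  rw [map_mul, map_mul, Module.End.mul_apply]

lemma matH_diag_smul (s : σ → Hat K K) (x : RH K C) :
    matH ac σ (Matrix.diagonal fun i => s i • x) = ∑ i, s i • (EH K H i i * opH ac σ x) := by
  simp only [matH_diagonal, map_smul, mul_smul_comm]

lemma matH_diag_mul (x : RH K C) (y : σ → RH K C) : matH ac σ (Matrix.diagonal fun i => x * y i) =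
    opH ac σ x * matH ac σ (Matrix.diagonal y) := by
  rw [← matH_scalar, ← map_mul, Matrix.diagonal_mul_diagonal]

lemma EH_diag (i : σ) (y : σ → RH K C) :
    EH K H i i * matH ac σ (Matrix.diagonal y) = EH K H i i * opH ac σ (y i) := by
  rw [matH_diagonal, mul_sum, sum_eq_single i (fun j _ hj => by
    rw [← mul_assoc, (unitsH ac σ).mul, if_neg hj.symm, zero_mul]) (by simp), ← mul_assoc,
    (unitsH ac σ).mul, if_pos rfl]

lemma EH_comm_diag (i : σ) (y : σ → RH K C) :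
    Commute (EH K H i i) (matH ac σ (Matrix.diagonal y)) := by
  have e : EH K H i i = matH ac σ (Matrix.diagonal (Pi.single i 1)) := by
    rw [matH_diagonal, sum_eq_single i (fun j _ hj => by simp [hj]) (by simp)]
    simp
  rw [e, Commute, SemiconjBy, ← map_mul, ← map_mul, Matrix.diagonal_mul_diagonal,
    Matrix.diagonal_mul_diagonal]
  simp only [mul_comm]

variable [Algebra ℚ K] (d : VD fr)

lemma EH_D (i j : σ) : Commute (EH K H i j) (Hat.C K (vdPi σ d).D) := by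
  refine Commute.map ?_ (Hat.C K)
  have e : ∀ a : Module.End K H, Commute (cst (EU K H i j)) (cst (dg σ a)) := fun a =>
    Commute.map (dg_EU a i j).symm cst
  exact ((cst_zp _ _).mul_right (((cst_eu _).add_right
    ((Commute.one_right _).smul_right _)).add_right (e _))).add_right (e _)

lemma lie_matH {M M' : Matrix σ σ (RH K C)} (h : ∀ i j, Hat.C K (vdPi σ d).D * opH ac σ (M i j) -
    opH ac σ (M i j) * Hat.C K (vdPi σ d).D = opH ac σ (M' i j)) :
    Hat.C K (vdPi σ d).D * matH ac σ M - matH ac σ M * Hat.C K (vdPi σ d).D = matH ac σ M' := by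
  simp only [matH_apply, mul_sum, sum_mul, ← sum_sub_distrib]
  refine sum_congr rfl fun i _ => sum_congr rfl fun j _ => ?_
  rw [← h, mul_sub, ← mul_assoc, ← (EH_D d i j).eq, mul_assoc, mul_assoc]

lemma lie_zi : Hat.C K (vdPi σ d).D * opH ac σ (zH K C (-1)) -
    opH ac σ (zH K C (-1)) * Hat.C K (vdPi σ d).D = -1 := by
  rw [opH_zH, ← map_mul, ← map_mul, ← map_sub, ← map_one (Hat.C K), ← map_neg]
  refine congrArg _ (LL_ext fun i v => ?_)
  simp only [LinearMap.sub_apply, Module.End.mul_apply, zp_single, VD.D_single, map_add,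
    add_right_comm i (-1) 1, add_neg_cancel_right, add_sub_add_right_eq_sub, ← Finsupp.single_sub,
    LinearMap.neg_apply, Module.End.one_apply, ← Finsupp.single_neg]
  congr 1
  push_cast
  module

/-- The twisted operator shifted by scalars. -/
noncomputable def DT (𝔞 : σ → RH K C) (s : σ → Hat K K) : Hat K (Module.End K (LL (σ → H))) :=
  Hat.C K (vdPi σ d).D - Hat.C K (zp K _ 1) * matH ac σ (Matrix.diagonal 𝔞) +
    matH ac σ (Matrix.diagonal fun i => s i • 1)

lemma DT_Lo {𝔞 : σ → RH K C} (h : ∀ i, 𝔞 i ∈ Hat.Lo _ _ 0) {s : σ → Hat K K}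
    (hs : ∀ i, s i ∈ Hat.Lo _ _ (-1)) : DT ac d 𝔞 s ∈ Hat.Lo _ _ (-1) := by
  refine add_mem (Hat.Lo_mono (by omega) (sub_mem (Hat.single_Lo 0 _)
    (C_mul_Lo _ (matH_Lo ac fun i j => ?_)))) (matH_Lo ac fun i j => ?_) <;>
    rw [Matrix.diagonal_apply] <;> split_ifs
  exacts [h i, zero_mem _, by simpa using Hat.smul_Lo (hs i) Hat.one_Lo, zero_mem _]

lemma DT_ev (𝔞 : σ → RH K C) (s : σ → Hat K K) : EvH ((p.pi σ).fs ℤ) (DT ac d 𝔞 s) :=
  add_mem (S := Subring _) (s := allR K (evR _)) (sub_mem (C_mem_allR (vdPi σ d).isEv_D)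
    (mul_mem (C_mem_allR (isEv_zp _ _)) (matH_ev ac _))) (matH_ev ac _)

lemma kill_DT {E M : Type*} [AddCommGroup E] [Module (Hat K K) E] [AddCommGroup M]
    [Module (Hat K K) M] {h : Hat K (LL (σ → H)) →ₗ[Hat K K] Module.End (Hat K K) E}
    {Z : E →ₗ[Hat K K] M} {𝔞 : σ → RH K C}
    (kill : ∀ i k, Kill h Z (Hat.act K _ (ellT ac d 𝔞 i k))) (s : σ → Hat K K) (m : ℕ) :
    Kill h Z (Hat.act K _ (Hat.C K (zp K _ (-1)) * DT ac d 𝔞 s ^ m)) := by
  set T := Hat.C K (vdPi σ d).D - Hat.C K (zp K _ 1) * matH ac σ (Matrix.diagonal 𝔞) with hT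
  have e0 : ∀ i n, Commute (EH K H i i) (Hat.C K (zp K (σ → H) n)) := fun i n =>
    (cst_zp _ _).map (Hat.C K)
  have e1 : ∀ i, Commute (EH K H i i) T := fun i =>
    (EH_D d i i).sub_right ((e0 i 1).mul_right (EH_comm_diag ac i _))
  have e2 : ∀ i, EH K H i i * DT ac d 𝔞 s ^ m = EH K H i i * (T + s i • 1) ^ m := fun i => by
    induction m with
    | zero => rfl
    | succ m ih =>
      have c : Commute (EH K H i i) (T + s i • 1) :=
        (e1 i).add_right ((Commute.one_right _).smul_right _)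
      rw [pow_succ, ← mul_assoc, ih, (c.pow_right m).eq, mul_assoc, DT, mul_add (EH K H i i),
        EH_diag, map_smul, map_one, ← mul_add, ← mul_assoc, ← (c.pow_right m).eq, mul_assoc,
        ← pow_succ]
  have e3 : ∀ i m k, Kill h Z (Hat.act K _
      (EH K H i i * Hat.C K (zp K _ (-1)) * (T ^ k * (T + s i • 1) ^ m))) := fun i m => by
    induction m with
    | zero => intro k; rw [pow_zero, mul_one]; exact kill i k
    | succ m ih =>
      intro k
      have := (ih (k + 1)).add ((ih k).smul (s i))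
      rwa [← map_smul, ← map_add, ← mul_smul_comm, ← mul_add, pow_succ T, mul_assoc (T ^ k),
        ← mul_smul_comm, ← mul_add, ← smul_one_mul (s i) (_ ^ m), ← add_mul, ← pow_succ'] at this
  rw [← one_mul (Hat.C K _ * _), ← (unitsH ac σ).sum, sum_mul, map_sum]
  refine Kill.sum _ fun i _ => ?_
  have := e3 i m 0
  rwa [pow_zero, one_mul, (e0 i _).eq, mul_assoc, ← e2, ← mul_assoc, ← (e0 i _).eq,
    mul_assoc] at this

lemma lie_exp {U : σ → Hat K K} (hU : ∀ i, IsNilpotent (U i)) :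
    matH ac σ (Matrix.diagonal fun i => nexp (Hat K K) (U i • zH K C (-1))) * Hat.C K (vdPi σ d).D =
    (Hat.C K (vdPi σ d).D + matH ac σ (Matrix.diagonal fun i => U i • 1)) *
      matH ac σ (Matrix.diagonal fun i => nexp (Hat K K) (U i • zH K C (-1))) := by
  have := lie_matH ac d (M := Matrix.diagonal fun i => nexp (Hat K K) (U i • zH K C (-1)))
    (M' := Matrix.diagonal fun i => -(U i • 1 * nexp (Hat K K) (U i • zH K C (-1)))) fun i j => by
      simp only [Matrix.diagonal_apply]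
      split_ifs
      · rw [map_neg, map_mul, map_nexp _ (nil_smul (hU i) _), ← neg_mul]
        refine lie_nexp ?_ ?_ ((nil_smul (hU i) _).map _)
        · simp only [map_smul, mul_smul_comm, smul_mul_assoc, ← smul_sub, lie_zi, map_one, smul_neg]
        · exact ((Commute.all _ _).map (opH ac σ)).neg_left
      · simp
  rw [← Matrix.diagonal_neg, map_neg, ← Matrix.diagonal_mul_diagonal, map_mul] at this
  rw [add_mul, ← sub_eq_iff_eq_add', ← neg_sub, this, neg_neg]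

lemma nexp_matH {U : σ → Hat K K} {q : K} (hq : IsNilpotent q) (hU : ∀ i, ∃ v, U i = q • v) :
    nexp (Hat K K) (matH ac σ (Matrix.diagonal fun i => U i • zH K C (-1))) =
      matH ac σ (Matrix.diagonal fun i => nexp (Hat K K) (U i • zH K C (-1))) := by
  choose v hv using hU
  have h : IsNilpotent fun i => U i • zH K C (-1) := by
    obtain ⟨k, hk⟩ := hq
    exact ⟨k, funext fun i => by simp [hv, smul_pow, hk]⟩
  have := map_nexp ((matA ac).comp (Matrix.diagonalAlgHom (Hat K K))) h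
  refine this.symm.trans (congrArg (fun x => matH ac σ (Matrix.diagonal x)) (funext fun i => ?_))
  exact map_nexp (Pi.evalAlgHom (Hat K K) (fun _ => RH K C) i) h

lemma exists_gauge {E M : Type*} [AddCommGroup E] [Module (Hat K K) E] [AddCommGroup M]
    [Module (Hat K K) M] {h : Hat K (LL (σ → H)) →ₗ[Hat K K] Module.End (Hat K K) E}
    {Z : E →ₗ[Hat K K] M} {𝔞 : σ → RH K C}
    (kill : ∀ i, Kill h Z (Hat.act K _ (ellT ac d 𝔞 i 0))) {U : σ → Hat K K} {q : K}
    (hq : IsNilpotent q) (hU : ∀ i, ∃ v, U i = q • v) : ∃ N : Module.End (Hat K K) E,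
      Itw h h (Hat.act K _ (matH ac σ (Matrix.diagonal fun i =>
        nexp (Hat K K) (U i • zH K C (-1))))) N ∧ (∀ y, Z (N y) = Z y) ∧
      ∀ y, ∃ y', N y = y + Hat.C K q • y' := by
  choose T hT zT using kill
  obtain ⟨T', hT'⟩ : ∃ T', ∑ i, U i • T i = Hat.C K q • T' := by
    choose v hv using hU
    exact ⟨∑ i, v i • T i, by simp only [hv, smul_sum, smul_smul, ← smul_eq_mul, Hat.C_smul]⟩
  have nT : IsNilpotent (∑ i, U i • T i) := hT' ▸ nil_smul (hq.map _) T'
  have iT : IsQ h (∑ i, U i • T i)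
      (Hat.act K _ (matH ac _ (Matrix.diagonal fun i => U i • zH K C (-1)))) := by
    rw [matH_diag_smul, map_sum]
    refine IsQ.sum _ fun i _ => ?_
    simpa only [map_smul, opH_zH, ellT, pow_zero, mul_one] using (hT i).smul (U i)
  have nA : IsNilpotent (matH ac _ (Matrix.diagonal fun i => U i • zH K C (-1))) := by
    choose v hv using hU
    rw [show (Matrix.diagonal fun i => U i • zH K C (-1)) =
      Hat.C K q • Matrix.diagonal fun i => v i • zH K C (-1) by
        rw [← Matrix.diagonal_smul]; congr 1; funext i; simp [hv], matH_smul]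
    exact nil_smul (hq.map _) _
  have itw := iT.itw_nexp nT (nA.map _)
  rw [← map_nexp _ nA, nexp_matH ac hq hU] at itw
  refine ⟨_, itw, fun y => ?_, fun y => ?_⟩
  · have := comp_nexp_of_eigen (Z := Z) (c := 0) (LinearMap.ext fun y => by
      have z : ∀ i, Z (T i y) = 0 := fun i => LinearMap.congr_fun (zT i) y
      simp [LinearMap.sum_apply, z]) nT IsNilpotent.zero
    simpa using LinearMap.congr_fun this y
  · obtain ⟨Y, hY⟩ := nexp_eq_add (K := Hat K K) nT
    exact ⟨T' (Y y), by rw [hY, hT']; rfl⟩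

lemma approx_pow {𝔞 : σ → RH K C} (h𝔞 : ∀ i, 𝔞 i ∈ Hat.Lo _ _ 0) {s : σ → Hat K K}
    (hs : ∀ i, s i ∈ Hat.Lo _ _ (-1)) {s0 : Hat K K} {L0 : ℤ}
    (hs0 : s0 • (1 : RH K C) ∈ Hat.Lo _ _ L0) {K0 : ℤ} (hK : -1 ≤ K0)
    {n X ρ : Hat K (Module.End K (LL (σ → H)))} (hρ : ρ ∈ Hat.Lo _ _ K0)
    (key : n * X = s0 • (DT ac d 𝔞 s + ρ) * n) (m : ℕ) {y : Hat K (LL (σ → H))}
    (hy : Hat.act K _ n y ∈ Hat.Lo _ _ 0) :
    Hat.act K _ (Hat.C K (zp K _ (-1))) (Hat.act K _ n (Hat.act K _ (X ^ m) y)) -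
      (s0 ^ m • Hat.act K _ (Hat.C K (zp K _ (-1)) * DT ac d 𝔞 s ^ m)) (Hat.act K _ n y) ∈
      Hat.Lo _ _ (m * L0 + K0 - m) := by
  have e1 : n * X ^ m = (s0 • (DT ac d 𝔞 s + ρ)) ^ m * n := SemiconjBy.pow_right key m
  have lo3 : s0 ^ m • (1 : Hat K (Module.End K (LL (σ → H)))) ∈ Hat.Lo _ _ (m * L0) := by
    simpa [smul_pow] using Hat.pow_Lo (opH_Lo ac σ hs0) m
  have := act_Lo (C_mul_Lo (zp K _ (-1)) (Hat.mul_Lo lo3
    (pow_sub_Lo hK (DT_Lo ac d h𝔞 hs) hρ m))) hy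
  rw [← Module.End.mul_apply (Hat.act K _ n), ← map_mul, e1, alg_smul_pow]
  have := Hat.Lo_mono (L' := m * L0 + K0 - m) (by omega) this
  simpa only [smul_mul_assoc, one_mul, mul_smul_comm, mul_sub, smul_sub, map_sub, map_smul, map_mul,
    LinearMap.sub_apply, LinearMap.smul_apply, Module.End.mul_apply] using this

end ops

section emb

variable {ac} {HA : Type} [AddCommGroup HA] [Module (Hat K K) HA] {pA : Par (Hat K K) HA}
  {frA : Frame pA ι} {A : Type} [CommRing A] [Algebra (Hat K K) A] {acA : Act frA A}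
  (em : Emb ac acA)

lemma em_actM {σ : Type} [Fintype σ] [DecidableEq σ] (N : Matrix σ σ A) :
    Em σ em (cst (actM acA.act N)) (matH ac σ (N.map em.atA)) := by
  have := em_opM em (N.map LaurentPolynomial.C)
  rwa [opM_C, Matrix.map_map, show em.at0 ∘ LaurentPolynomial.C = em.atA from
    funext em.at0_C] at this

lemma eps_smul_Lo {N : Type*} [AddCommGroup N] [Module K N] {x : Hat K N} {n : ℤ} (k : ℤ)
    (h : x ∈ Hat.Lo _ _ n) : (Hat.single K k 1 : Hat K K) • x ∈ Hat.Lo _ _ (k + n) :=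
  Hat.smul_Lo (Hat.single_Lo _ _) h

lemma Lo_of_eps_smul {N : Type*} [AddCommGroup N] [Module K N] {x : Hat K N} {n k : ℤ}
    (h : (Hat.single K k 1 : Hat K K) • x ∈ Hat.Lo _ _ n) : x ∈ Hat.Lo _ _ (n - k) := by
  have := eps_smul_Lo (-k) h
  rwa [smul_smul, Hat.single_mul, neg_add_cancel, mul_one, ← Hat.one_def, one_smul,
    neg_add_eq_sub] at this

lemma mat_mul_Lo {σ : Type} [Fintype σ] {M N : Matrix σ σ (RH K C)} {a b : σ → ℤ} {n : ℤ} {i j : σ}
    (hM : ∀ k, M i k ∈ Hat.Lo _ _ (a k)) (hN : ∀ k, N k j ∈ Hat.Lo _ _ (b k))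
    (h : ∀ k, n ≤ a k + b k) : (M * N) i j ∈ Hat.Lo _ _ n :=
  sum_mem fun k _ => Hat.Lo_mono (h k) (Hat.mul_Lo (hM k) (hN k))

variable {r : ℕ} {χ : Fin (r + 1) → A} {a : Fin (r + 1) → K}
  (ha : ∀ i j, i ≠ j → IsUnit (a i - a j))
  (hχ : ∀ i, (Hat.single K 1 1 : Hat K K) • em.c (χ i) - algebraMap K _ (a i) ∈ Hat.Lo _ _ 1)
  {q : K} (hq : IsNilpotent q) {n g : Matrix (Fin (r + 1)) (Fin (r + 1)) (RH K C)}
  (hg : ∀ i k : Fin (r + 1), g i k ∈ Hat.Lo _ _ (-((k : ℕ) : ℤ)))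
include ha hχ hq hg

lemma exists_inv_frame : ∃ N : Matrix (Fin (r + 1)) (Fin (r + 1)) (RH K C),
    (∀ k l : Fin (r + 1), N k l ∈ Hat.Lo _ _ (k : ℕ)) ∧
    ((Matrix.of fun i k : Fin (r + 1) => (-χ i) ^ (k : ℕ)).map em.atA + q • g) * N = 1 := by
  obtain ⟨N, hN, e⟩ := vand_inv (x := fun i => (Hat.single K 1 1 : Hat K K) • em.atA (-χ i))
    (a := fun i => algebraMap K (LaurentPolynomial C) (-a i))
    (fun i j h => by simpa [neg_add_eq_sub] using (ha j i h.symm).map (algebraMap K (LaurentPolynomial C)))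
    (fun i => by
      have := neg_mem (Hat.map_Lo (lC K C).toLinearMap (hχ i))
      change -Hat.mapA (lC K C) _ ∈ _ at this
      rwa [map_sub, map_smul, Hat.algebraMap_co, mapA_C, AlgHom.commutes, neg_sub', ← smul_neg,
        ← map_neg, ← map_neg, ← map_neg, ← map_neg] at this)
    (q := algebraMap K _ q) (hq.map _) (Hat.single_Lo _ _)
    (g := Matrix.of fun i k => (Hat.single K (k : ℕ) 1 : Hat K K) • g i k)
    fun i k => by simpa using eps_smul_Lo (k : ℕ) (hg i k)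
  refine ⟨Matrix.of fun k l => (Hat.single K (k : ℕ) 1 : Hat K K) • N k l,
    fun k l => by simpa using eps_smul_Lo (k : ℕ) (hN k l), ?_⟩
  rw [← e]
  refine Matrix.ext fun i l => ?_
  rw [Matrix.mul_apply, Matrix.mul_apply]
  refine sum_congr rfl fun k _ => ?_
  simp only [Matrix.add_apply, Matrix.map_apply, Matrix.of_apply, Matrix.smul_apply, map_pow,
    Matrix.vandermonde_apply, smul_pow, single_pow, one_mul, one_pow, algebraMap_smul,
    mul_smul_comm, ← smul_mul_assoc, smul_add, smul_comm q]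

omit ha hq in
lemma frame_Lo (i k : Fin (r + 1)) :
    ((Matrix.of fun i k : Fin (r + 1) => (-χ i) ^ (k : ℕ)).map em.atA + q • g) i k ∈
      Hat.Lo _ _ (-((k : ℕ) : ℤ)) := by
  have a0 := add_mem (Hat.Lo_mono zero_le_one (hχ i))
    (show algebraMap K (Hat K C) (a i) ∈ _ from Hat.single_Lo 0 _)
  rw [sub_add_cancel] at a0
  have a1 := Lo_of_eps_smul a0
  have a2 : em.atA (-χ i) ∈ Hat.Lo _ _ (-1) := by
    rw [map_neg]; exact neg_mem (Hat.map_Lo _ a1)
  exact add_mem (by simpa using Hat.pow_Lo a2 k) (Lo_smul q (hg i k))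

variable [Algebra ℚ K]

lemma frame_den (h : Gen (Hat K K) χ) {u : Hat K K} {b' : Fin (r + 1) → Hat K C}
    (hb' : ∀ i, b' i ∈ Hat.Lo _ _ 0) (he : ∀ i, u • em.c (eu χ i) = b' i)
    (f' : LL (Fin (r + 1) → H)) : ∃ f, ∃ g' ∈ Hat.Lo K (LL (Fin (r + 1) → H)) 0,
      Hat.act K _ (matH ac _ ((Matrix.of fun i k : Fin (r + 1) => (-χ i) ^ (k : ℕ)).map em.atA +
        q • g)) (em.L _ f) = Hat.act K _ (dH ac b') (Hat.single K 0 f') + q • g' ∧
      (pos K _ f' = 0 → pos (Hat K K) _ f = 0) := by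
  obtain ⟨V', hV⟩ := h.isUnit_vandermonde.exists_right_inv
  obtain ⟨N, hN, e⟩ := exists_inv_frame em ha hχ hq (g := 0) fun _ _ => zero_mem _
  rw [smul_zero, add_zero] at e
  have e1 : (Matrix.of fun i k : Fin (r + 1) => (-χ i) ^ (k : ℕ)).map em.atA * V'.map em.atA = 1 := by
    rw [← Matrix.map_mul, hV, Matrix.map_one _ (map_zero _) (map_one _)]
  obtain rfl : V'.map em.atA = N := by
    rw [← mul_one (V'.map _), ← e, ← mul_assoc, mul_eq_one_comm.1 e1, one_mul]
  obtain ⟨y, hy, hp⟩ := em.L_surj f'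
  have lo : dH ac b' ∈ Hat.Lo _ _ 0 := matH_Lo ac fun i j => by
    rw [Matrix.diagonal_apply]
    split_ifs
    exacts [Hat.map_Lo _ (hb' i), zero_mem _]
  refine ⟨cst (actM acA.act (V' * Matrix.diagonal fun i => u • eu χ i)) y,
    Hat.act K _ (matH ac _ (g * V'.map em.atA) * dH ac b') (Hat.single K 0 f'), by
      simpa using act_Lo (Hat.mul_Lo (matH_Lo ac fun i j => mat_mul_Lo (n := 0) (hg i)
        (fun k => hN k j) (by simp)) lo) (Hat.single_Lo 0 f'), ?_, fun h0 => ?_⟩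
  · have e2 : matH ac _ ((Matrix.diagonal fun i => u • eu χ i).map em.atA) = dH ac b' := by
      rw [Matrix.diagonal_map (map_zero _), dH]
      simp only [← he, map_smul]
      rfl
    rw [em_actM, hy, Matrix.map_mul, act_matH_mul, ← act_matH_mul, add_mul, e1, e2, smul_mul_assoc,
      act_matH_add, map_one, map_one, map_mul (Hat.act K _)]
    rfl
  · ext m : 1
    have : y m = 0 := DFunLike.congr_fun (hp h0) m
    simp [this]

omit ha hχ hq in
lemma frame_dil : ∃ g' ∈ Hat.Lo K (LL (Fin (r + 1) → H)) 0,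
    Hat.act K _ (matH ac _ ((Matrix.of fun i k : Fin (r + 1) => (-χ i) ^ (k : ℕ)).map em.atA +
      q • g)) (em.L _ (Finsupp.single 1 (Pi.single 0 frA.one))) =
    Hat.single K 0 (up K _ (fr.pi _).dil) + q • g' := by
  have e : ∀ i : Fin (r + 1), em.L _ (Finsupp.single 1 (Pi.single i frA.one)) =
      Hat.single K 0 (Finsupp.single 1 (Pi.single i fr.one)) := fun i => by
    rw [em.L_single, em.one, Hat.map_single, inL_apply]
  rw [act_matH_add, ← em_actM, cst_single]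
  refine ⟨_, ?_, congrArg (· + _) ?_⟩
  · have e1 := em_actM em (Matrix.diagonal (Pi.single (0 : Fin (r + 1)) 1))
      (Finsupp.single 1 (Pi.single 0 frA.one))
    rw [cst_single, show actM acA.act (Matrix.diagonal (Pi.single (0 : Fin (r + 1)) 1))
      (Pi.single 0 frA.one) = Pi.single 0 frA.one from funext fun i => by
        by_cases h : i = 0 <;> simp [actM_single, h]] at e1
    rw [e1, ← act_matH_mul, e, Matrix.diagonal_map (map_zero _), ← add_zero (0 : ℤ)]
    refine act_Lo (matH_Lo ac fun i j => ?_) (Hat.single_Lo 0 _)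
    rw [Matrix.mul_diagonal]
    by_cases h : j = 0
    · subst h; simpa using hg i 0
    · simpa [h] using zero_mem _
  · rw [show actM acA.act (Matrix.of fun i k : Fin (r + 1) => (-χ i) ^ (k : ℕ))
      (Pi.single 0 frA.one) = ∑ i, Pi.single i frA.one from funext fun i => by
        simp [actM_single, Pi.single_apply], Finsupp.single_finsetSum, map_sum]
    simp only [e, ← map_sum, ← Finsupp.single_finsetSum, Frame.dil, up_single, Nat.cast_one]
    exact congrArg _ (congrArg _ (Finset.univ_sum_single _))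

omit ha hχ hq hg in
/-- The conjugation formula. -/
lemma key_conj {σ : Type} [Fintype σ] [DecidableEq σ] (d : VD fr) {n δ M ρ N : Matrix σ σ (RH K C)}
    {𝔞 : σ → RH K C} {U s : σ → Hat K K} (hU : ∀ i, IsNilpotent (U i)) {s0 : Hat K K}
    (hδ : ∀ i k, Hat.C K (vdPi σ d).D * opH ac σ (n i k) - opH ac σ (n i k) * Hat.C K (vdPi σ d).D =
      opH ac σ (δ i k))
    (hM : ∀ i k, ∑ k', n i k' * M k' k =
      s0 • (δ i k + (s i • 1 - zH K C 1 * 𝔞 i) * n i k + ∑ k', n i k' * ρ k' k))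
    {n' : Matrix σ σ (RH K C)}
    (hn : n' = Matrix.diagonal (fun i => nexp (Hat K K) (U i • zH K C (-1))) * n) (hN : N * n' = 1) :
    matH ac σ n' * (s0 • Hat.C K (vdPi σ d).D + matH ac σ M) =
      s0 • (DT ac d 𝔞 (s + U) + matH ac σ (n' * ρ * N)) * matH ac σ n' := by
  have e1 := lie_matH ac d hδ
  have e2 : n * M = s0 • (δ + (Matrix.diagonal (fun i => s i • 1) -
      Matrix.diagonal fun i => zH K C 1 * 𝔞 i) * n + n * ρ) := Matrix.ext fun i k => by
    rw [Matrix.mul_apply, hM, Matrix.diagonal_sub, Matrix.smul_apply, Matrix.add_apply,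
      Matrix.add_apply, Matrix.diagonal_mul, Matrix.mul_apply]
  have e3 := lie_exp ac d hU
  have e4 : ∀ x : σ → RH K C, matH ac σ (Matrix.diagonal fun i => nexp (Hat K K)
      (U i • zH K C (-1))) * matH ac σ (Matrix.diagonal x) = matH ac σ (Matrix.diagonal x) *
      matH ac σ (Matrix.diagonal fun i => nexp (Hat K K) (U i • zH K C (-1))) := fun x => by
    rw [← map_mul, ← map_mul, Matrix.diagonal_mul_diagonal, Matrix.diagonal_mul_diagonal]
    simp only [mul_comm]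
  have e5 : DT ac d 𝔞 (s + U) = Hat.C K (vdPi σ d).D + matH ac σ (Matrix.diagonal fun i => U i • 1) +
      (matH ac σ (Matrix.diagonal fun i => s i • 1) -
        matH ac σ (Matrix.diagonal fun i => zH K C 1 * 𝔞 i)) := by
    rw [DT, matH_diag_mul, opH_zH]
    simp only [Pi.add_apply, add_smul, ← Matrix.diagonal_add, map_add]
    abel
  rw [smul_mul_assoc, add_mul, ← map_mul, mul_assoc (n' * ρ), hN, mul_one, e5, hn, map_mul,
    mul_assoc, mul_add, ← map_mul _ n, e2, matH_smul, map_add, map_add, ← e1, map_mul, map_mul,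
    map_sub, mul_smul_comm, ← smul_add, mul_smul_comm, map_mul, map_mul, add_mul, ← mul_assoc,
    ← mul_assoc, ← e3, sub_mul, sub_mul, ← e4, ← e4]
  congr 1
  noncomm_ring

/-- The main estimate. -/
theorem est (h : Gen (Hat K K) χ) {u : Hat K K} {b b' : Fin (r + 1) → Hat K C}
    (hbb : ∀ i, b i * b' i = 1) (hb : ∀ i, b i ∈ Hat.Lo _ _ 0) (hb' : ∀ i, b' i ∈ Hat.Lo _ _ 0)
    (he : ∀ i, u • em.c (eu χ i) = b' i) {ι' : Type*} [Fintype ι']
    {fT : Frame (pA.pi (Fin (r + 1))) ι'} (hone : fT.one = Pi.single 0 frA.one)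
    {G : S ((pA.pi (Fin (r + 1))).fs ℕ) →ₗ[Hat K K] Hat K (S ((p.pi (Fin (r + 1))).fs ℕ))}
    (hG : Itw fT.h (hA (fr.pi _) (dH ac b)) (Hat.act K _ (matH ac _ n) ∘ₗ em.L _) G)
    (h1 : ∃ Ω, G 1 = Hat.single K 0 1 + q • Ω) {d : VD fr} {dA : VD frA}
    (hμ : ∀ w, em.v (dA.μ w) = Hat.map d.μ (em.v w))
    (hρ : ∀ w, em.v (dA.ρ w) = Hat.map d.ρ (em.v w))
    {𝔞 : Fin (r + 1) → RH K C} (h𝔞 : ∀ i, 𝔞 i ∈ Hat.Lo _ _ 0) {Γ : Type*}
    {Z : Hat K (S ((p.pi (Fin (r + 1))).fs ℕ)) →ₗ[Hat K K] (Γ → Hat K K)}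
    (hZ : ∀ n, ∀ y ∈ Hat.Lo K _ n, ∀ β, Z y β ∈ Hat.Lo K K n) {o : Γ}
    (ho : ∀ y ∈ Hat.Lo K K 0, (∃ v, y.co 0 = (Z (Hat.single K 0 1) o).co 0 + q * v) →
      ∃ y' ∈ Hat.Lo K K 0, y * y' = 1)
    (kill : ∀ i k, Kill (hA (fr.pi _) (dH ac b)) Z (Hat.act K _ (ellT ac d 𝔞 i k)))
    {U s : Fin (r + 1) → Hat K K} (hU : ∀ i, ∃ v, U i = q • v) (hU' : ∀ i, U i ∈ Hat.Lo _ _ (-1))
    (hs : ∀ i, s i ∈ Hat.Lo _ _ (-1))
    (hn : ∀ i k : Fin (r + 1), nexp (Hat K K) (U i • zH K C (-1)) * n i k =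
      em.atA ((-χ i) ^ (k : ℕ)) + q • g i k)
    {δ : Matrix (Fin (r + 1)) (Fin (r + 1)) (RH K C)}
    (hδ : ∀ i k, Hat.C K (vdPi _ d).D * opH ac (Fin (r + 1)) (n i k) -
      opH ac _ (n i k) * Hat.C K (vdPi _ d).D = opH ac _ (δ i k))
    {s0 : Hat K K} {L0 : ℤ} (hs0 : s0 • (1 : RH K C) ∈ Hat.Lo _ _ L0)
    {M : Matrix (Fin (r + 1)) (Fin (r + 1)) (LaurentPolynomial A)}
    {ρ : Fin (r + 1) → Fin (r + 1) → RH K C} {K0 : ℤ} (hK : -1 ≤ K0)
    (hρ' : ∀ k' k : Fin (r + 1), ρ k' k ∈ Hat.Lo _ _ (K0 + (k' : ℕ) - (k : ℕ)))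
    (hM : ∀ i k, ∑ k', n i k' * em.at0 (M k' k) =
      s0 • (δ i k + (s i • 1 - zH K C 1 * 𝔞 i) * n i k + ∑ k', n i k' * ρ k' k))
    (m : ℕ) {X X' : Module.End (Hat K K) (LL (Fin (r + 1) → HA))}
    (hXm : X = zp _ _ (-1) * (s0 • (vdPi _ dA).D + opM acA.act M) ^ m) (hX : fT.Adj X X') :
    ∃ γ : LL (Fin (r + 1) → HA) →ₗ[Hat K K] Hat K (LL (Fin (r + 1) → H)),
      (∀ f y, em.L _ f = Hat.single K 0 y → (Hat.single K r 1 : Hat K K) • γ f ∈ Hat.Lo _ _ 0) ∧
      ∀ x, Lat fT γ x → ∀ β, ∃ w ∈ Hat.Lo K K (m * L0 + K0 - m),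
        Z (G ((fT.qz (zp (Hat K K) _ (-1)) * fT.qz (hf (Hat K K) • (X - X')) -
          fT.qz (hf (Hat K K) • (X - X')) * fT.qz (zp (Hat K K) _ (-1))) x)) β =
        Z (G 1) o * w := by
  obtain ⟨n', hn'⟩ : ∃ n', n' = Matrix.diagonal (fun i => nexp (Hat K K) (U i • zH K C (-1))) * n :=
    ⟨_, rfl⟩
  have en : n' = (Matrix.of fun i k : Fin (r + 1) => (-χ i) ^ (k : ℕ)).map em.atA + q • g :=
    Matrix.ext fun i k => by rw [hn', Matrix.diagonal_mul, hn]; rfl
  have lon := frame_Lo em hχ (q := q) hg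
  obtain ⟨N, hN, eN⟩ := exists_inv_frame em ha hχ hq hg
  have den := frame_den em ha hχ hq hg h hb' he
  have dil := frame_dil em (χ := χ) (q := q) hg
  rw [← en] at lon eN den dil
  have key := key_conj (ac := ac) d (fun i => by
    obtain ⟨v, hv⟩ := hU i; rw [hv]; exact nil_smul hq v) hδ (M := M.map em.at0)
    (ρ := Matrix.of ρ) hM hn' (mul_eq_one_comm.1 eN)
  obtain ⟨T, itw, eZ, hT⟩ := exists_gauge ac d (fun i => kill i 0) hq hU
  have itw := itw.comp hG
  rw [← LinearMap.comp_assoc, ← Module.End.mul_eq_comp, ← map_mul, ← map_mul, ← hn'] at itw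
  have S : Setup (fr.pi _) fT (dH ac b) (dH ac b') q (Hat.act K _ (matH ac _ n') ∘ₗ em.L _)
      (T ∘ₗ G) := by
    refine ⟨tw_diagonal ac hbb hb hb', hq, itw, (matH_ev ac n').act.comp (isEv_embL em), ?_, den,
      by rw [Frame.dil, up_single, hone]; exact dil⟩
    obtain ⟨Ω, hΩ⟩ := h1
    obtain ⟨y, hy⟩ := hT (G 1)
    exact ⟨Ω + y, by rw [LinearMap.comp_apply, hy, Hat.C_smul, smul_add, ← add_assoc, ← hΩ]⟩
  have e0 : ∀ f, (Hat.act K _ (matH ac _ n') ∘ₗ em.L _) (zp (Hat K K) _ (-1) f) =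
      Hat.act K _ (Hat.C K (zp K _ (-1))) ((Hat.act K _ (matH ac _ n') ∘ₗ em.L _) f) := fun f => by
    rw [LinearMap.comp_apply, LinearMap.comp_apply, em_zp, ← Module.End.mul_apply,
      ← Module.End.mul_apply, ← map_mul, ← map_mul, ← opH_zH ac, opH_comm]
  refine ⟨Hat.act K _ (matH ac _ n') ∘ₗ em.L _, fun f y hf => ?_, fun x hx β => ?_⟩
  · rw [LinearMap.comp_apply, hf]
    simpa using eps_smul_Lo r (act_Lo (matH_Lo ac (n := -r) fun i k =>
      Hat.Lo_mono (by omega) (lon i k)) (Hat.single_Lo 0 y))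
  have := S.main hZ ho (by simpa using kill_DT ac d kill 0 0) e0
    (ℓ := s0 ^ m • Hat.act K _ (Hat.C K (zp K _ (-1)) * DT ac d 𝔞 (s + U) ^ m))
    ((kill_DT ac d kill _ m).smul _) (IsEv.smul (EvH.act (mul_mem (s := allR K (evR _))
      (C_mem_allR (isEv_zp _ _)) (pow_mem (DT_ev ac d _ _) m))) _) (X := X)
    (hXm ▸ (nice_zp _).mul ((((nice_D _).smul _).add (Nice.sum _ fun i _ => Nice.sum _ fun j _ =>
      (nice_cst (isEv_EU i j)).mul (nice_opL (acA.pi _).ev _))).pow m)) hX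
    (L := m * L0 + K0 - m) (fun f hf => ?_) hx β
  · simpa only [LinearMap.comp_apply, eZ] using this
  rw [hXm, Module.End.mul_apply, e0, LinearMap.comp_apply,
    (((em_D em hμ hρ).smul s0).add (em_opM em M)).pow m]
  exact approx_pow ac d h𝔞 (fun i => add_mem (hs i) (hU' i)) hs0 hK (matH_Lo ac fun i j =>
    mat_mul_Lo (a := fun k : Fin (r + 1) => K0 - (k : ℕ)) (fun k => mat_mul_Lo (lon i) (fun k' => hρ' k' k)
      fun k' => by omega) (fun k => hN k j) (by simp)) key m hf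

end emb

end Vale.Agent.P269.B
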