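import Vale.Agent.P269.B.HatQ

/-! The approximate transfer of constraints along an intertwiner into a completed Fock space. -/

namespace Vale.Agent.P269.B

open Fock Finset

section abstract

variable {K : Type*} [CommRing K] [Algebra ℚ K] {HH E HH' E' : Type*} [AddCommGroup HH]
  [Module K HH] [AddCommGroup E] [Module K E] [AddCommGroup HH'] [Module K HH'] [AddCommGroup E']
  [Module K E'] {q : Par K HH} {h : HH →ₗ[K] Module.End K E} {ω : HH →ₗ[K] HH →ₗ[K] K}

lemma form_od_ev (hω : ∀ x y, ω (q.σ x) (q.σ y) = ω x y) {x y : HH} (hx : q.σ x = -x)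
    (hy : q.σ y = y) : ω x y = 0 := by
  have := hω x y
  rw [hx, hy, map_neg, LinearMap.neg_apply] at this
  linear_combination -hf K * this - ω x y * hf_add K

lemma form_eq {q' : Par K HH'} {h' : HH' →ₗ[K] Module.End K E'} {ω' : HH' →ₗ[K] HH' →ₗ[K] K}
    (H : CCR q h fun x y => ω x y) (H' : CCR q' h' fun x y => ω' x y)
    (hω : ∀ x y, ω (q.σ x) (q.σ y) = ω x y) (hω' : ∀ x y, ω' (q'.σ x) (q'.σ y) = ω' x y)
    {g : HH' →ₗ[K] HH} (hg : IsEv q' q g) {G : E' →ₗ[K] E} (hG : Itw h' h g G) {x0 : E'}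
    (h0 : ∀ c : K, c • G x0 = 0 → c = 0) (x y : HH') : ω (g x) (g y) = ω' x y := by
  induction x using q'.induction with
  | hev x hx =>
    have e1 := LinearMap.congr_fun (H.ev (g x) (by rw [hg, hx]) (g y)) (G x0)
    have e2 := congrArg G (LinearMap.congr_fun (H'.ev x hx y) x0)
    simp only [LinearMap.sub_apply, Module.End.mul_apply, LinearMap.smul_apply,
      Module.End.one_apply, map_sub, map_smul, hG.apply] at e1 e2
    exact sub_eq_zero.mp (h0 _ (by rw [sub_smul, ← e1, ← e2, sub_self]))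
  | hod x hx =>
    induction y using q'.induction with
    | hev y hy =>
      rw [form_od_ev hω' hx hy, form_od_ev hω (by rw [hg, hx, map_neg]) (by rw [hg, hy])]
    | hod y hy =>
      have e1 := LinearMap.congr_fun (H.od (g x) (g y) (by rw [hg, hx, map_neg])
        (by rw [hg, hy, map_neg])) (G x0)
      have e2 := congrArg G (LinearMap.congr_fun (H'.od x y hx hy) x0)
      simp only [LinearMap.add_apply, Module.End.mul_apply, LinearMap.smul_apply,
        Module.End.one_apply, map_add, map_smul, hG.apply] at e1 e2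
      exact sub_eq_zero.mp (h0 _ (by rw [sub_smul, ← e1, ← e2, sub_self]))
    | hadd y z hy hz => simp only [map_add, hy, hz]
  | hadd y z hy hz => simp only [map_add, LinearMap.add_apply, hy, hz]

lemma isQ_skew (H : CCR q h fun x y => ω x y) (hω : ∀ x y, ω (q.σ x) (q.σ y) = ω x y)
    (h0 : ∀ c : K, c • (1 : Module.End K E) = 0 → c = 0) {X : Module.End K E} {A : Module.End K HH}
    (hX : IsQ h X A) (hA : IsEv q q A) (x y : HH) : ω (A x) y + ω x (A y) = 0 := by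
  have e1 : ∀ x y, X * (h x * h y) = h x * h y * X + h (A x) * h y + h x * h (A y) := fun x y => by
    rw [← mul_assoc, hX.mul_eq, add_mul, mul_assoc, hX.mul_eq, mul_add, mul_assoc]; abel
  induction x using q.induction with
  | hev x hx =>
    refine h0 _ ?_
    have e := congrArg (fun T => X * T - T * X) (H.ev x hx y)
    simp only [mul_sub, sub_mul, e1, mul_smul_comm, smul_mul_assoc, mul_one, one_mul,
      sub_self] at e
    rw [add_smul, ← H.ev x hx, ← H.ev (A x) (by rw [hA, hx]), ← e]; abel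
  | hod x hx =>
    have hx' : q.σ (A x) = -A x := by rw [hA, hx, map_neg]
    induction y using q.induction with
    | hev y hy => rw [form_od_ev hω hx' hy, form_od_ev hω hx (by rw [hA, hy]), add_zero]
    | hod y hy =>
      refine h0 _ ?_
      have e := congrArg (fun T => X * T - T * X) (H.od x y hx hy)
      simp only [mul_add, add_mul, e1, mul_smul_comm, smul_mul_assoc, mul_one, one_mul,
        sub_self] at e
      rw [add_smul, ← H.od x _ hx (by rw [hA, hy, map_neg]), ← H.od _ y hx' hy, ← e]; abel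
    | hadd y z hy hz => simp only [map_add]; linear_combination hy + hz
  | hadd y z hy hz => simp only [map_add, LinearMap.add_apply]; linear_combination hy + hz

end abstract

variable {K : Type*} [CommRing K] [Algebra ℚ K] {H : Type*} [AddCommGroup H] [Module K H]
  {p : Par K H} {ι : Type*} [Fintype ι] (fr : Frame p ι) {HA : Type*} [AddCommGroup HA]
  [Module (Hat K K) HA] {pA : Par (Hat K K) HA} {ι' : Type*} [Fintype ι'] (fT : Frame pA ι')

lemma quad_zi : fr.Quad (zp K H (-1)) := by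
  refine Frame.Quad.of_up (isEv_zp _ _) ?_ (up_zp _)
  intro x y
  have := Frame.adj_zp (fr := fr) (-1) x y
  rw [show sg K (-1) = -1 by simpa using sg_nat (K := K) 1] at this
  simpa using this

lemma qz_zi_one : fr.qz (zp K H (-1)) 1 = (-1 : K) • fr.h (zp K H (-1) (up K H fr.dil)) 1 := by
  have hc : fr.cas (zp K H (-1)) = 0 := by
    rw [Frame.cas_eq (N := 0) fun m _ v => (up_zp (-1)).fin m (by simp) v]; simp
  rw [Frame.qz_one, hc, Frame.dil, Frame.blk]
  simp only [LinearMap.comp_apply, up_single, zp_single, Nat.cast_one, add_neg_cancel]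
  have e : (Finsupp.single (0 : ℤ) fr.one : LL H) = Finsupp.single ((0 : ℕ) : ℤ) fr.one := rfl
  rw [e, pos_single_nat, ← up_single (K := K), Frame.h_up]
  simp

/-- The augmentation of series. -/
noncomputable def augH (p : Par K H) : Hat K (S p) →ₗ[Hat K K] Hat K K :=
  Hat.map (aug p).toLinearMap

omit [Algebra ℚ K] in
lemma augH_one (p : Par K H) : augH p (Hat.single K 0 1) = 1 := by
  rw [augH, Hat.map_single, AlgHom.toLinearMap_apply, map_one]; rfl

omit [Algebra ℚ K] in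
lemma Lo_smul {N : Type*} [AddCommGroup N] [Module K N] (c : K) {x : Hat K N} {n : ℤ}
    (h : x ∈ Hat.Lo K N n) : c • x ∈ Hat.Lo K N n := fun m hm => by simp [h m hm]

/-- An intertwiner that is a nilpotent perturbation of the identity. -/
structure Setup (b b' : Hat K (Module.End K (LL H))) (q : K) (γ : LL HA →ₗ[Hat K K] Hat K (LL H))
    (G : S (pA.fs ℕ) →ₗ[Hat K K] Hat K (S (p.fs ℕ))) : Prop where
  tw : Tw fr b b'
  nil : IsNilpotent q
  itw : Itw fT.h (hA fr b) γ G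
  ev : IsEv (pA.fs ℤ) (parH (p.fs ℤ)) γ
  one : ∃ Ω, G 1 = Hat.single K 0 1 + q • Ω
  den : ∀ f', ∃ f, ∃ g ∈ Hat.Lo K (LL H) 0, γ f = Hat.act K _ b' (Hat.single K 0 f') + q • g ∧
    (pos K H f' = 0 → pos (Hat K K) HA f = 0)
  dil : ∃ g ∈ Hat.Lo K (LL H) 0, γ (up (Hat K K) HA fT.dil) = Hat.single K 0 (up K H fr.dil) + q • g

/-- The lattice generated by the vacuum. -/
inductive Lat (γ : LL HA →ₗ[Hat K K] Hat K (LL H)) : S (pA.fs ℕ) → Prop
  | one : Lat γ 1
  | h (f x) : γ f ∈ Hat.Lo K _ 0 → Lat γ x → Lat γ (fT.h f x)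
  | add (x y) : Lat γ x → Lat γ y → Lat γ (x + y)
  | smul (c : Hat K K) (x) : c ∈ Hat.Lo K K 0 → Lat γ x → Lat γ (c • x)

variable {fr fT} {b b' : Hat K (Module.End K (LL H))} {q : K} {γ : LL HA →ₗ[Hat K K] Hat K (LL H)}
  {G : S (pA.fs ℕ) →ₗ[Hat K K] Hat K (S (p.fs ℕ))}

omit [Algebra ℚ K] in
lemma Tw.Oh_σ (hb : Tw fr b b') (x y : Hat K (LL H)) :
    Oh fr (Hat.act K _ b ((parH (p.fs ℤ)).σ x)) ((parH (p.fs ℤ)).σ y) =
      Oh fr (Hat.act K _ b x) y := by
  rw [← hb.ev.act]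
  exact Hat.hat2_congr fun i j => by rw [parH_σ, parH_σ, fr.Ω_σ, (p.fs ℤ).inv]

lemma Tw.hA_mem (hb : Tw fr b b') {y : Hat K (LL H)} {x : Hat K (S (p.fs ℕ))} {m n : ℤ}
    (hy : y ∈ Hat.Lo _ _ m) (hx : x ∈ Hat.Lo _ _ n) : hA fr b y x ∈ Hat.Lo _ _ (m + n) :=
  act_Lo (hb.hA_Lo hy) hx

namespace Setup

variable (s : Setup fr fT b b' q γ G)
include s

lemma aug_unit : IsUnit (augH _ (G 1)) := by
  obtain ⟨Ω, h⟩ := s.one
  rw [h, map_add, augH_one, LinearMap.map_smul_of_tower, ← Hat.C_smul, smul_eq_mul]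
  exact ((Commute.all _ _).isNilpotent_mul_right (s.nil.map (Hat.C K))).isUnit_one_add

lemma form (f f' : LL HA) : Oh fr (Hat.act K _ b (γ f)) (γ f') = fT.Ω f f' :=
  form_eq (ω := Oh fr ∘ₗ Hat.act K _ b) s.tw.ccr fT.ccr s.tw.Oh_σ
    (fun x y => by rw [fT.Ω_σ, (pA.fs ℤ).inv]) s.ev s.itw (x0 := 1) (fun c hc => by
      have := congrArg (augH _) hc
      rwa [map_smul, map_zero, smul_eq_mul, s.aug_unit.mul_left_eq_zero] at this) f f'

lemma den' (f' : LL H) : ∃ f, γ f ∈ Hat.Lo K _ 0 ∧ ∃ g ∈ Hat.Lo K (LL H) 0,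
    γ f = Hat.act K _ b' (Hat.single K 0 f') + q • g ∧ ∃ g' ∈ Hat.Lo K (LL H) 0,
    Hat.act K _ b (γ f) = Hat.single K 0 f' + q • g' ∧
    (pos K H f' = 0 → pos (Hat K K) HA f = 0) := by
  obtain ⟨f, g, hg, e, h⟩ := s.den f'
  refine ⟨f, e ▸ add_mem (by simpa using act_Lo s.tw.lo' (Hat.single_Lo 0 f')) (Lo_smul q hg),
    g, hg, e, _, by simpa using act_Lo s.tw.lo hg, ?_, h⟩
  rw [e, map_add, ← Module.End.mul_apply, ← map_mul, s.tw.mul, map_one, Module.End.one_apply,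
    LinearMap.map_smul_of_tower]

lemma approx {y : Hat K (S (p.fs ℕ))} {L : ℤ} (h0 : augH _ y ∈ Hat.Lo _ _ L)
    (h : ∀ f, pos (Hat K K) HA f = 0 → γ f ∈ Hat.Lo K _ 0 →
      hA fr b (γ f) y + fT.neg f fT.dil • y ∈ Hat.Lo _ _ L) : y ∈ Hat.Lo _ _ L := by
  refine vac (fr := fr) s.nil h0 fun f' hf' => ?_
  obtain ⟨f, h1, g, hg, e, g', hg', e', h2⟩ := s.den' f'
  obtain ⟨g1, hg1, e1⟩ := s.dil
  let l : Hat K K := Oh fr (Hat.single K 0 f') g1 + Oh fr g' (γ (up (Hat K K) HA fT.dil))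
  have hl : l ∈ Hat.Lo K K 0 := add_mem (by simpa using Oh_Lo (Hat.single_Lo 0 f') hg1)
    (by simpa using Oh_Lo hg' (e1 ▸ add_mem (Hat.single_Lo _ _) (Lo_smul q hg1)))
  have e2 : fT.neg f fT.dil = Hat.C K (fr.neg f' fr.dil) + q • l := by
    rw [Frame.neg_apply, ← s.form, e', map_add, LinearMap.add_apply, smul_add, ← add_assoc,
      LinearMap.map_smul_of_tower, LinearMap.smul_apply]
    congr 1
    rw [e1, map_add, LinearMap.map_smul_of_tower, Oh_single, Hat.map_single]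
    rfl
  refine ⟨-(Hat.map fr.h (Hat.act K _ (bt b) g) + l • 1), neg_mem (add_mem (s.tw.hA_Lo hg)
    (by simpa using Hat.smul_Lo hl Hat.one_Lo)), ?_⟩
  have := h f (h2 hf') h1
  rw [e, map_add, LinearMap.add_apply, s.tw.hA_neg hf', e2, LinearMap.map_smul_of_tower] at this
  convert this using 1
  simp only [map_neg, map_add, map_smul, map_one, LinearMap.neg_apply, LinearMap.add_apply,
    LinearMap.smul_apply, Module.End.one_apply, add_smul, Hat.C_smul, smul_assoc, smul_neg,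
    smul_add, hA_apply, hatR_apply]
  abel

lemma one_Lo (hn : augH _ (G 1) = 1) : G 1 ∈ Hat.Lo _ _ 0 :=
  s.approx (hn ▸ Hat.one_Lo) fun f hf _ => by
    rw [← s.itw.apply, fT.h_of_pos_eq_zero hf]; simp

lemma lat_Lo (hn : augH _ (G 1) = 1) {x : S (pA.fs ℕ)} (hx : Lat fT γ x) : G x ∈ Hat.Lo _ _ 0 := by
  induction hx with
  | one => exact s.one_Lo hn
  | h f x hf _ ih => rw [s.itw.apply]; simpa using s.tw.hA_mem hf ih
  | add x y _ _ hx hy => rw [map_add]; exact add_mem hx hy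
  | smul c x hc _ ih => rw [map_smul]; simpa using Hat.smul_Lo hc ih

lemma small {Y : S (pA.fs ℕ) →ₗ[Hat K K] Hat K (S (p.fs ℕ))} {L : ℤ} (h0 : augH _ (Y 1) = 0)
    (h : ∀ f x, γ f ∈ Hat.Lo K _ 0 → Lat fT γ x →
      Y (fT.h f x) - hA fr b (γ f) (Y x) ∈ Hat.Lo _ _ L) {x : S (pA.fs ℕ)} (hx : Lat fT γ x) :
    Y x ∈ Hat.Lo _ _ L := by
  induction hx with
  | one =>
    refine s.approx (h0 ▸ zero_mem _) fun f hf hf' => ?_
    have := neg_mem (h f 1 hf' Lat.one)
    rw [fT.h_of_pos_eq_zero hf] at this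
    simpa [add_comm] using this
  | h f x hf hx ih =>
    have := add_mem (h f x hf hx) (by simpa using s.tw.hA_mem hf ih)
    rwa [sub_add_cancel] at this
  | add x y _ _ hx hy => rw [map_add]; exact add_mem hx hy
  | smul c x hc _ ih => rw [map_smul]; simpa using Hat.smul_Lo hc ih

lemma transfer (hn : augH _ (G 1) = 1) {X : Module.End (Hat K K) (Hat K (S (p.fs ℕ)))}
    {ℓ : Module.End (Hat K K) (Hat K (LL H))} (hX : IsQ (hA fr b) X ℓ)
    {A : Module.End (Hat K K) (LL HA)} (hA' : fT.Quad A) : ∃ c : Hat K K,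
      augH _ ((X ∘ₗ G - G ∘ₗ fT.qz A - c • G) 1) = 0 ∧ ∀ f x,
      (X ∘ₗ G - G ∘ₗ fT.qz A - c • G) (fT.h f x) -
        hA fr b (γ f) ((X ∘ₗ G - G ∘ₗ fT.qz A - c • G) x) =
        hA fr b (ℓ (γ f) - γ (A f)) (G x) := by
  refine ⟨augH _ ((X ∘ₗ G - G ∘ₗ fT.qz A) 1), by simp [hn], fun f x => ?_⟩
  simp only [LinearMap.sub_apply, LinearMap.comp_apply, LinearMap.smul_apply, s.itw.apply,
    hX.apply, hA'.isQ.apply, map_add, map_sub, map_smul]
  abel

lemma adj_small {ℓ : Module.End (Hat K K) (Hat K (LL H))}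
    {T : Module.End (Hat K K) (Hat K (S (p.fs ℕ)))} (hT : IsQ (hA fr b) T ℓ)
    (hℓ : IsEv (parH (p.fs ℤ)) (parH (p.fs ℤ)) ℓ) {X X' : Module.End (Hat K K) (LL HA)}
    (hX : fT.Adj X X') {L : ℤ}
    (h : ∀ f, γ f ∈ Hat.Lo K _ 0 → γ (X f) - ℓ (γ f) ∈ Hat.Lo K _ L) {f : LL HA}
    (hf : γ f ∈ Hat.Lo K _ 0) : γ (X' f) + ℓ (γ f) ∈ Hat.Lo K _ L := by
  refine nondeg (fr := fr) s.nil fun f' => ?_
  obtain ⟨f1, h1, -, -, -, g', hg', e', -⟩ := s.den' f'
  have sk := isQ_skew (ω := Oh fr ∘ₗ Hat.act K _ b) s.tw.ccr s.tw.Oh_σ (fun c hc => by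
    have := congrArg (augH _) (LinearMap.congr_fun hc (Hat.single K 0 1))
    simpa [augH_one] using this) hT hℓ (γ f1) (γ f)
  have := Oh_Lo (fr := fr) (act_Lo s.tw.lo (h f1 h1)) hf
  rw [map_sub, map_sub, LinearMap.sub_apply, s.form, hX, ← s.form, zero_add, add_zero] at this
  refine ⟨-g', neg_mem hg', ?_⟩
  convert this using 1
  simp only [LinearMap.comp_apply] at sk
  rw [eq_neg_of_add_eq_zero_left sk, e', ← Oh_single]
  simp only [map_add, map_neg, LinearMap.add_apply, LinearMap.neg_apply,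
    LinearMap.map_smul_of_tower, LinearMap.smul_apply, smul_neg, smul_add]
  abel

lemma smul_unit {c : Hat K K} (hc : c * augH _ (G 1) = 1) : Setup fr fT b b' q γ (c • G) := by
  refine ⟨s.tw, s.nil, s.itw.smul c, s.ev, ?_, s.den, s.dil⟩
  obtain ⟨Ω, h⟩ := s.one
  rw [h, map_add, augH_one, LinearMap.map_smul_of_tower, mul_add, mul_one] at hc
  refine ⟨c • Ω - (c * augH _ Ω) • Hat.single K 0 1, ?_⟩
  rw [LinearMap.smul_apply, h, smul_add, smul_comm c q, smul_sub, ← smul_assoc q (c * _),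
    ← mul_smul_comm, eq_sub_of_add_eq' hc, sub_smul, one_smul]
  abel

theorem main {Γ : Type*} {Z : Hat K (S (p.fs ℕ)) →ₗ[Hat K K] (Γ → Hat K K)}
    (hZ : ∀ n, ∀ y ∈ Hat.Lo K _ n, ∀ β, Z y β ∈ Hat.Lo K K n) {o : Γ}
    (ho : ∀ y ∈ Hat.Lo K K 0, (∃ v, y.co 0 = (Z (Hat.single K 0 1) o).co 0 + q * v) →
      ∃ y' ∈ Hat.Lo K K 0, y * y' = 1)
    (k0 : Kill (hA fr b) Z (Hat.act K _ (Hat.C K (zp K H (-1)))))
    (e0 : ∀ f, γ (zp (Hat K K) HA (-1) f) = Hat.act K _ (Hat.C K (zp K H (-1))) (γ f))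
    {ℓ : Module.End (Hat K K) (Hat K (LL H))} (kℓ : Kill (hA fr b) Z ℓ)
    (hℓ : IsEv (parH (p.fs ℤ)) (parH (p.fs ℤ)) ℓ) {X X' : Module.End (Hat K K) (LL HA)}
    (hN : Nice fT X) (hX : fT.Adj X X') {L : ℤ}
    (h : ∀ f, γ f ∈ Hat.Lo K _ 0 → γ (X f) - ℓ (γ f) ∈ Hat.Lo K _ L) {x : S (pA.fs ℕ)}
    (hx : Lat fT γ x) (β : Γ) : ∃ w ∈ Hat.Lo K K L,
      Z (G ((fT.qz (zp (Hat K K) HA (-1)) * fT.qz (hf (Hat K K) • (X - X')) -
        fT.qz (hf (Hat K K) • (X - X')) * fT.qz (zp (Hat K K) HA (-1))) x)) β = Z (G 1) o * w := by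
  obtain ⟨c, hc⟩ := s.aug_unit.exists_left_inv
  have s' := s.smul_unit hc
  have hn : augH _ ((c • G) 1) = 1 := by rw [LinearMap.smul_apply, map_smul, smul_eq_mul, hc]
  have hG : G = augH _ (G 1) • c • G := by rw [smul_smul, mul_comm, hc, one_smul]
  generalize c • G = G' at s' hn hG
  generalize augH _ (G 1) = a at hG
  subst hG
  obtain ⟨T0, hT0, z0⟩ := k0
  obtain ⟨T, hT, z1⟩ := kℓ
  have q0 := quad_zi fT
  obtain ⟨c0, a0, b0⟩ := s'.transfer hn hT0 q0
  obtain ⟨c1, a1, b1⟩ := s'.transfer hn hT (hN.quad hX)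
  have y0 : T0 ∘ₗ G' - G' ∘ₗ fT.qz (zp (Hat K K) HA (-1)) - c0 • G' = 0 := by
    refine lin_ext (Hat.eq_zero_of_Lo fun n => s'.small a0 (fun f x _ _ => ?_) Lat.one)
      fun v x hx => ?_
    · rw [b0, e0, sub_self, map_zero]; exact zero_mem _
    · have := b0 (up (Hat K K) HA v) x
      rwa [e0, sub_self, map_zero, hx, Frame.h_up, LinearMap.zero_apply, LinearMap.zero_apply,
        map_zero, sub_zero] at this
  have y0' : ∀ x β, Z (G' (fT.qz (zp (Hat K K) HA (-1)) x)) β = -c0 * Z (G' x) β := fun x β => by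
    have := congrFun (congrArg Z (LinearMap.congr_fun y0 x)) β
    have z := LinearMap.congr_fun z0 (G' x)
    simp only [LinearMap.sub_apply, LinearMap.comp_apply, LinearMap.smul_apply, map_sub, map_smul,
      LinearMap.zero_apply, map_zero, Pi.sub_apply, Pi.smul_apply, smul_eq_mul] at this z
    rw [z] at this
    linear_combination -this
  have y1 : ∀ x, Lat fT γ x →
      Z (G' (fT.qz (hf (Hat K K) • (X - X')) x)) β + c1 * Z (G' x) β ∈ Hat.Lo K K L := fun x hx => by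
    have := neg_mem (hZ _ _ (s'.small (L := L) a1 (fun f x hf hx => by
      have e : ℓ (γ f) - γ ((Fock.hf (Hat K K) • (X - X')) f) =
          Fock.hf K • (γ (X' f) + ℓ (γ f) - (γ (X f) - ℓ (γ f))) := by
        rw [LinearMap.smul_apply, map_smul, LinearMap.sub_apply, map_sub,
          ← map_hf (Hat.C K : K →+* Hat K K), Hat.C_smul]
        have := Fock.hf_add K
        match_scalars <;> first | ring1 | linear_combination -this
      rw [b1, e]
      simpa using s'.tw.hA_mem (Lo_smul _ (sub_mem (s'.adj_small hT hℓ hX h hf) (h f hf)))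
        (s'.lat_Lo hn hx)) hx) β)
    have z := LinearMap.congr_fun z1 (G' x)
    simp only [LinearMap.sub_apply, LinearMap.comp_apply, LinearMap.smul_apply, map_sub, map_smul,
      LinearMap.zero_apply, Pi.sub_apply, Pi.smul_apply, smul_eq_mul] at this z
    rw [z] at this
    convert this using 1
    simp only [Pi.zero_apply]; ring
  have lz : ∀ f, γ f ∈ Hat.Lo K _ 0 → γ (zp (Hat K K) HA (-1) f) ∈ Hat.Lo K _ 0 := fun f hf => by
    rw [e0, Hat.act_C]; exact Hat.map_Lo _ hf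
  have lat : ∀ x, Lat fT γ x → Lat fT γ (fT.qz (zp (Hat K K) HA (-1)) x) := fun x hx => by
    induction hx with
    | one =>
      obtain ⟨g, hg, e⟩ := s'.dil
      rw [qz_zi_one]
      exact Lat.smul (-1) _ (neg_mem Hat.one_Lo) (Lat.h (fT := fT) _ 1
        (lz _ (e ▸ add_mem (Hat.single_Lo _ _) (Lo_smul q hg))) Lat.one)
    | h f x hf hx ih => rw [q0.isQ.apply]; exact .add _ _ (.h _ _ hf ih) (.h _ _ (lz f hf) hx)
    | add x y _ _ hx hy => rw [map_add]; exact .add _ _ hx hy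
    | smul c x hc _ ih => rw [map_smul]; exact .smul _ _ hc ih
  obtain ⟨y', hy', ey⟩ := ho _ (hZ _ _ (s'.one_Lo hn) o) (by
    obtain ⟨Ω, e⟩ := s'.one
    exact ⟨(Z Ω o).co 0, by rw [e, map_add, LinearMap.map_smul_of_tower]; simp⟩)
  have hc0 : c0 ∈ Hat.Lo K K 0 := by
    have := neg_mem ((lo0 K K).mul_mem (hZ _ _ (s'.lat_Lo hn (lat 1 Lat.one)) o) hy')
    rwa [y0', mul_assoc, ey, mul_one, neg_neg] at this
  refine ⟨y' * (-c0 * _ - _), by
    simpa using Hat.mul_Lo hy' (sub_mem (by simpa using Hat.mul_Lo (neg_mem hc0) (y1 x hx))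
      (y1 _ (lat x hx))), ?_⟩
  simp only [LinearMap.sub_apply, Module.End.mul_apply, LinearMap.smul_apply, map_sub, map_smul,
    Pi.sub_apply, Pi.smul_apply, smul_eq_mul, y0']
  linear_combination (a * (c0 * Z (G' (fT.qz (hf (Hat K K) • (X - X')) x)) β +
    Z (G' (fT.qz (hf (Hat K K) • (X - X')) (fT.qz (zp (Hat K K) HA (-1)) x))) β)) * ey

end Setup

end Vale.Agent.P269.B
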