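import Vale.Agent.P269.B.EgDef
import Vale.Agent.P269.B.Main

/-! Definitions for the assembly of step (B). -/

namespace Vale.Agent.P269.B

open Fock Finset TensorProduct

/-- A weighted sum of series of forms composed with a map. -/
noncomputable def zS {K E M Γ : Type*} [CommRing K] [AddCommGroup E] [Module K E] [AddCommGroup M]
    [Module (Hat K K) M] (s : Finset Γ) (w : Γ → Hat K K) (Z : Γ → Hat K (E →ₗ[K] K))
    (G : M →ₗ[Hat K K] Hat K E) : M →ₗ[Hat K K] Hat K K := ∑ β ∈ s, w β • (zA (Z β) ∘ₗ G)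

lemma zS_apply {K E M Γ : Type*} [CommRing K] [AddCommGroup E] [Module K E] [AddCommGroup M]
    [Module (Hat K K) M] (s : Finset Γ) (w : Γ → Hat K K) (Z : Γ → Hat K (E →ₗ[K] K))
    (G : M →ₗ[Hat K K] Hat K E) (x : M) : zS s w Z G x = ∑ β ∈ s, w β * zA (Z β) (G x) := by
  simp [zS, LinearMap.sum_apply]

section ev

variable {B : Type} [CommRing B] [Algebra ℂ B] {C : Type} [CommRing C] [Algebra ℂ C] {r : ℕ}
  (c : Fin (r + 1) → C)

variable (B) in
/-- Evaluation of the universal classes. -/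
noncomputable def psi : L0 r →+* LaurentPolynomial (B ⊗[ℂ] C) :=
  mapL ((iR B C).comp (MvPolynomial.aeval c : C0 r →ₐ[ℂ] C))

/-- Evaluation of polynomials in `t` and `Q`. -/
noncomputable def phB (t Q : B) :
    Polynomial (Polynomial (L0 r)) →+* LaurentPolynomial (B ⊗[ℂ] C) :=
  Polynomial.eval₂RingHom (Polynomial.eval₂RingHom (psi B c) (algebraMap B _ Q)) (algebraMap B _ t)

/-- Evaluation of scalar polynomials in `t` and `Q`. -/
noncomputable def sB (t Q : B) : Polynomial (Polynomial ℂ) →+* B :=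
  Polynomial.eval₂RingHom (Polynomial.eval₂RingHom (algebraMap ℂ B) Q) t

/-- The matrix `Q^N M + t U`. -/
noncomputable def MB [Algebra ℚ B] (t Q : B) (N : ℕ)
    (U1 : Fin (r + 1) → Fin (r + 1) → Polynomial (Polynomial (L0 r))) :
    Matrix (Fin (r + 1)) (Fin (r + 1)) (LaurentPolynomial (B ⊗[ℂ] C)) :=
  Q ^ N • mainG B (algebraMap B (B ⊗[ℂ] C) Q) (fun l => iR B C (c l)) +
    t • Matrix.of fun k' k => phB c t Q (U1 k' k)

end ev

variable {H : Type} [AddCommGroup H] [Module ℂ H] {p : Par ℂ H} {ι : Type} [Fintype ι]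
  {fr : Frame p ι} {d : VD fr} {C : Type} [CommRing C] [Algebra ℂ C] {ac : Act fr C} {r : ℕ}
  {c : Fin (r + 1) → C} {Γ : Type}
  {ZT : Γ → ℤ → ℤ → S ((p.pi (Fin (r + 1))).fs ℕ) →ₗ[ℂ] Polynomial ℂ}

variable (ac c) in
/-- The hypergeometric series of the bundle expanded at `z = 0`. -/
noncomputable def nB (a : Fin (r + 1) → ℂ) (D : ℕ) :
    Matrix (Fin (r + 1)) (Fin (r + 1)) (RH (K1 D) (K1 D ⊗[ℂ] C)) :=
  nH (emT (K1 D) ac) (chiK (t1 D) a c) D (algebraMap (F1 D) _ (Qe r D))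

variable (ac c) in
/-- The sum over the graphs with given vertex contributions. -/
noncomputable def GE (a : Fin (r + 1) → ℂ) {D : ℕ}
    (Ex : S ((p.bc (F1 D)).fs (Sym (Fin (r + 1)))) →ₗ[F1 D]
      Hat (K1 D) (S (((p.bc (K1 D)).pi (Fin (r + 1))).fs ℕ))) :
    S (((p.bc (F1 D)).pi (Fin (r + 1))).fs ℕ) →ₗ[F1 D]
      Hat (K1 D) (S (((p.bc (K1 D)).pi (Fin (r + 1))).fs ℕ)) :=
  Ex ∘ₗ nexp (F1 D) (XE (ac.bc (F1 D)) (chiK (t1 D) a c) D (Qe r D) (uH r D)) ∘ₗ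
    (Fock.map _ (isEv_res (ac.bc (F1 D)) (chiK (t1 D) a c))).toLinearMap

/-- The generating series of the equivariant invariants of the bundle. -/
noncomputable def BIn.ZTh (I : BIn d ac c Γ ZT) {D : ℕ}
    (Z : I.Γv → Hat (K1 D) (S (((p.bc (K1 D)).pi (Fin (r + 1))).fs ℕ) →ₗ[K1 D] K1 D))
    (Ex : S ((p.bc (F1 D)).fs (Sym (Fin (r + 1)))) →ₗ[F1 D]
      Hat (K1 D) (S (((p.bc (K1 D)).pi (Fin (r + 1))).fs ℕ))) (s0 : ℤ) (β : Γ) :
    S (((p.bc (F1 D)).pi (Fin (r + 1))).fs ℕ) →ₗ[F1 D] F1 D :=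
  zS (I.tup β) (fun βv => phF D (I.lam βv) * Qe r D ^ (I.sh βv - s0).toNat) Z (GE ac c I.a Ex)

end Vale.Agent.P269.B
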