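import Vale.Agent.P269.B.Nat

/-! The Heisenberg calculus on Laurent series; twisted pairings; perturbed vacua. -/

namespace Vale.Agent.P269.B

open Fock Finset

noncomputable instance instRingEL {K H : Type*} [CommRing K] [AddCommGroup H] [Module K H] :
    Ring (Hat K (Module.End K (LL H))) := Hat.instRing

noncomputable instance instRingES {K V : Type*} [CommRing K] [AddCommGroup V] [Module K V]
    (p : Par K V) : Ring (Hat K (Module.End K (S p))) := Hat.instRing

section gen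

variable {K : Type*} [CommRing K] {N E M : Type*} [AddCommGroup N] [Module K N] [AddCommGroup E]
  [Module K E] [AddCommGroup M] [Module K M]

/-- The parity of series. -/
noncomputable def parH (p : Par K N) : Par (Hat K K) (Hat K N) :=
  ⟨Hat.map p.σ, fun v => by ext; simp [p.inv]⟩

@[simp] lemma parH_σ (p : Par K N) (x : Hat K N) (n : ℤ) : ((parH p).σ x).co n = p.σ (x.co n) := rfl

/-- The extension of a representation. -/
noncomputable def hatR (h : N →ₗ[K] Module.End K E) :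
    Hat K N →ₗ[Hat K K] Module.End (Hat K K) (Hat K E) := (Hat.act K E).toLinearMap ∘ₗ Hat.map h

lemma hatR_apply (h : N →ₗ[K] Module.End K E) (y : Hat K N) :
    hatR h y = Hat.act K E (Hat.map h y) := rfl

lemma act_Lo {X : Hat K (Module.End K E)} {x : Hat K E} {a b : ℤ} (hX : X ∈ Hat.Lo _ _ a)
    (hx : x ∈ Hat.Lo _ _ b) : Hat.act K E X x ∈ Hat.Lo _ _ (a + b) := Hat.hat2_Lo _ hX hx

lemma hatR_Lo (h : N →ₗ[K] Module.End K E) {y : Hat K N} {x : Hat K E} {a b : ℤ}
    (hy : y ∈ Hat.Lo _ _ a) (hx : x ∈ Hat.Lo _ _ b) : hatR h y x ∈ Hat.Lo _ _ (a + b) :=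
  act_Lo (Hat.map_Lo _ hy) hx

lemma hatR_single (h : N →ₗ[K] Module.End K E) (v : N) (x : Hat K E) :
    hatR h (Hat.single K 0 v) x = Hat.map (h v) x := by
  rw [hatR_apply, Hat.map_single]; exact Hat.act_C _ _

lemma mul_eq_of {A : Type*} [Ring A] [Algebra K A] {X Y X' Y' : Hat K A} {y : Hat K N} {z : Hat K M}
    {β : N →ₗ[K] M →ₗ[K] A} (s : K)
    (H : ∀ i j, X.co i * Y.co j + s • (Y'.co j * X'.co i) = β (y.co i) (z.co j)) :
    X * Y + s • (Y' * X') = Hat.hat2 β y z := by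
  obtain ⟨a, ha⟩ := X.exists_Lo
  obtain ⟨b, hb⟩ := Y.exists_Lo
  obtain ⟨a', ha'⟩ := X'.exists_Lo
  obtain ⟨b', hb'⟩ := Y'.exists_Lo
  obtain ⟨c, hc⟩ := y.exists_Lo
  obtain ⟨d, hd⟩ := z.exists_Lo
  ext n
  rw [Hat.mul_def, Hat.mul_def, ← Hat.cv_flip _ Y', Hat.hat2_def, Hat.co_add, Hat.co_smul,
    Hat.co_cv _ (Hat.Lo_mono (L' := min a (min a' c)) (by omega) ha)
      (Hat.Lo_mono (L' := min b (min b' d)) (by omega) hb),
    Hat.co_cv _ (Hat.Lo_mono (L' := min a (min a' c)) (by omega) ha')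
      (Hat.Lo_mono (L' := min b (min b' d)) (by omega) hb'),
    Hat.co_cv _ (Hat.Lo_mono (L' := min a (min a' c)) (by omega) hc)
      (Hat.Lo_mono (L' := min b (min b' d)) (by omega) hd), smul_sum, ← sum_add_distrib]
  exact sum_congr rfl fun i _ => H _ _

lemma act_hat2_scalar (ω : N →ₗ[K] N →ₗ[K] K) (x y : Hat K N) :
    Hat.act K E (Hat.hat2 (ω.compr₂ (Algebra.linearMap K (Module.End K E))) x y) =
      Hat.hat2 ω x y • 1 := by
  rw [← Hat.map_hat2, ← Algebra.algebraMap_eq_smul_one, ← (Hat.act K E).commutes,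
    Hat.algebraMap_hat]
  rfl

theorem ccr_hat {q : Par K N} {h : N →ₗ[K] Module.End K E} {ω : N →ₗ[K] N →ₗ[K] K}
    (H : CCR q h fun x y => ω x y) : CCR (parH q) (hatR h) fun x y => Hat.hat2 ω x y := by
  refine ⟨fun x hx y => ?_, fun x y hx hy => ?_, fun x y hx hy => ?_⟩
  · rw [hatR_apply, hatR_apply, ← map_mul (Hat.act K E), ← map_mul (Hat.act K E),
      ← map_sub (Hat.act K E), ← act_hat2_scalar,
      ← mul_eq_of (X := Hat.map h x) (Y := Hat.map h y) (X' := Hat.map h x) (Y' := Hat.map h y)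
        (-1) fun i j => ?_, neg_smul, one_smul, sub_eq_add_neg]
    simpa [sub_eq_add_neg, Algebra.algebraMap_eq_smul_one] using
      H.ev (x.co i) (congrArg (·.co i) hx) (y.co j)
  · rw [hatR_apply, hatR_apply, ← map_mul (Hat.act K E), ← map_mul (Hat.act K E),
      ← map_add (Hat.act K E), ← act_hat2_scalar,
      ← mul_eq_of (X := Hat.map h x) (Y := Hat.map h y) (X' := Hat.map h x) (Y' := Hat.map h y)
        1 fun i j => ?_, one_smul]
    simpa [Algebra.algebraMap_eq_smul_one] using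
      H.od (x.co i) (y.co j) (congrArg (·.co i) hx) (congrArg (·.co j) hy)
  · exact Hat.hat2_eq_zero fun i j => H.orth _ _ (congrArg (·.co i) hx) (congrArg (·.co j) hy)

lemma isQ_hat' {h : N →ₗ[K] Module.End K E} {X : Hat K (Module.End K E)}
    {A : Hat K (Module.End K N)} (H : ∀ n, IsQ h (X.co n) (A.co n)) (y : Hat K N) :
    X * Hat.map h y - Hat.map h y * X = Hat.map h (Hat.act K N A y) := by
  rw [Hat.act_apply, Hat.map_hat2, ← mul_eq_of (X := X) (Y := Hat.map h y) (X' := X)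
    (Y' := Hat.map h y) (-1) fun i j => ?_, neg_smul, one_smul, sub_eq_add_neg]
  simpa [sub_eq_add_neg] using H i (y.co j)

theorem isQ_hat {h : N →ₗ[K] Module.End K E} {X : Hat K (Module.End K E)}
    {A : Hat K (Module.End K N)} (H : ∀ n, IsQ h (X.co n) (A.co n)) :
    IsQ (hatR h) (Hat.act K E X) (Hat.act K N A) := fun y => by
  rw [hatR_apply, hatR_apply, ← map_mul, ← map_mul, ← map_sub, isQ_hat' H]

lemma hat2_adj (β : N →ₗ[K] M →ₗ[K] E) {X : Hat K (Module.End K N)} {Y : Hat K (Module.End K M)}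
    (h : ∀ n a c, β (X.co n a) c = β a (Y.co n c)) (x : Hat K N) (y : Hat K M) :
    Hat.hat2 β (Hat.act K _ X x) y = Hat.hat2 β x (Hat.act K _ Y y) := by
  let U : Submodule K (Module.End K N × Module.End K M) :=
    { carrier := {w | ∀ a c, β (w.1 a) c = β a (w.2 c)}
      add_mem' := fun h h' a c => by simp [h a c, h' a c]
      zero_mem' := fun a c => by simp
      smul_mem' := fun k _ hw a c => by simp [hw a c] }
  let W : Hat K U := ⟨fun n => ⟨(X.co n, Y.co n), h n⟩, by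
    obtain ⟨a, ha⟩ := X.bdd
    obtain ⟨b, hb⟩ := Y.bdd
    exact ⟨min a b, fun n hn => Subtype.ext (Prod.ext (ha n (by omega)) (hb n (by omega)))⟩⟩
  have e1 : Hat.act K _ X x = Hat.hat2 (N := U) (LinearMap.fst K _ _ ∘ₗ U.subtype).flip x W := by
    rw [Hat.hat2_flip]; exact Hat.hat2_congr fun _ _ => rfl
  have e2 : Hat.act K _ Y y = Hat.hat2 (M := U) (LinearMap.snd K _ _ ∘ₗ U.subtype) W y :=
    Hat.hat2_congr fun _ _ => rfl
  rw [e1, e2]
  exact Hat.hat2_assoc (N := U) (β1 := β) (β3 := β)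
    (β2 := (LinearMap.fst K _ _ ∘ₗ U.subtype).flip) (β4 := LinearMap.snd K _ _ ∘ₗ U.subtype)
    (fun a w c => w.2 a c) x W y

/-- Series of even operators. -/
def EvH (p : Par K N) (A : Hat K (Module.End K N)) : Prop := ∀ n, IsEv p p (A.co n)

lemma EvH.act {p : Par K N} {A : Hat K (Module.End K N)} (h : EvH p A) :
    IsEv (parH p) (parH p) (Hat.act K N A) := fun y => by
  rw [Hat.act_apply, Hat.act_apply]
  exact (Hat.map_hat2 _ _ _ _).trans (Hat.hat2_congr fun i j => h i _)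

/-- The subring of even operators. -/
def evR (p : Par K N) : Subring (Module.End K N) where
  carrier := {A | IsEv p p A}
  mul_mem' := IsEv.mul
  one_mem' := IsEv.one
  add_mem' := IsEv.add
  zero_mem' := IsEv.zero
  neg_mem' := IsEv.neg

lemma mul_All {A : Type*} [Ring A] {U : Subring A} {x y : Hat K A}
    (hx : x ∈ Hat.All K U.toAddSubgroup) (hy : y ∈ Hat.All K U.toAddSubgroup) :
    x * y ∈ Hat.All K U.toAddSubgroup := fun _ => Hat.cv_mem _ fun _ => U.mul_mem (hx _) (hy _)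

/-- Series with coefficients in a subring. -/
def allR {A : Type*} [Ring A] (K : Type*) (U : Subring A) : Subring (Hat K A) where
  __ := Hat.All K U.toAddSubgroup
  mul_mem' hx hy _ := Hat.cv_mem _ fun _ => U.mul_mem (hx _) (hy _)
  one_mem' := Hat.single_All _ U.one_mem

lemma mem_allR {A : Type*} [Ring A] {U : Subring A} {x : Hat K A} :
    x ∈ allR K U ↔ ∀ n, x.co n ∈ U := Iff.rfl

lemma C_mem_allR {A : Type*} [Ring A] {U : Subring A} {a : A} (h : a ∈ U) : Hat.C K a ∈ allR K U :=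
  Hat.single_All _ h

/-- Series without poles. -/
def lo0 (K A : Type*) [Ring A] : Subring (Hat K A) where
  __ := Hat.Lo K A 0
  mul_mem' hx hy := by simpa using Hat.mul_Lo hx hy
  one_mem' := Hat.one_Lo

/-- A series of forms applied to a series. -/
noncomputable def zA (Z : Hat K (E →ₗ[K] K)) : Hat K E →ₗ[Hat K K] Hat K K :=
  Hat.hat2 LinearMap.id Z

lemma zA_act (Z : Hat K (E →ₗ[K] K)) (X : Hat K (Module.End K E)) (x : Hat K E) :
    zA Z (Hat.act K E X x) = zA (Hat.hat2 (LinearMap.llcomp K E E K) Z X) x :=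
  (Hat.hat2_assoc (β1 := LinearMap.id) (β2 := LinearMap.llcomp K E E K) (β3 := LinearMap.id)
    (β4 := LinearMap.id) (fun _ _ _ => rfl) Z X x).symm

lemma zA_Lo {Z : Hat K (E →ₗ[K] K)} {x : Hat K E} {a b : ℤ} (hZ : Z ∈ Hat.Lo _ _ a)
    (hx : x ∈ Hat.Lo _ _ b) : zA Z x ∈ Hat.Lo _ _ (a + b) := Hat.hat2_Lo _ hZ hx

lemma co_zA_single (Z : Hat K (E →ₗ[K] K)) (x : E) (n : ℤ) :
    (zA Z (Hat.single K 0 x)).co n = Z.co n x := by simp [zA, Hat.co_hat2_single_right]

/-- Induction along the powers of a nilpotent element. -/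
lemma Lo_of_nil {q : K} (hq : IsNilpotent q) {y : Hat K N} {L : ℤ}
    (h : ∀ I : Ideal K, (∀ n < L, y.co n ∈ I • (⊤ : Submodule K N)) →
      ∀ n < L, y.co n ∈ (Ideal.span {q} * I) • (⊤ : Submodule K N)) : y ∈ Hat.Lo K N L := by
  have : ∀ m : ℕ, ∀ n < L, y.co n ∈ (Ideal.span {q} ^ m) • (⊤ : Submodule K N) := by
    intro m
    induction m with
    | zero => simp
    | succ m ih => rw [pow_succ']; exact h _ ih
  obtain ⟨m, hm⟩ := hq
  intro n hn
  simpa [Ideal.span_singleton_pow, hm] using this m n hn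

lemma map_mem_smul (I : Ideal K) (f : N →ₗ[K] M) {y : N} (hy : y ∈ I • (⊤ : Submodule K N)) :
    f y ∈ I • (⊤ : Submodule K M) := by
  have := Submodule.mem_map_of_mem (f := f) hy
  rw [Submodule.map_smul''] at this
  exact Submodule.smul_mono le_rfl le_top this

lemma smul_hat2_mem {P : Type*} [AddCommGroup P] [Module K P] (β : M →ₗ[K] N →ₗ[K] P) (q : K)
    {I : Ideal K} {T : Hat K M} (hT : T ∈ Hat.Lo _ _ 0) {y : Hat K N} {L : ℤ}
    (hy : ∀ n < L, y.co n ∈ I • (⊤ : Submodule K N)) {n : ℤ} (hn : n < L) :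
    (q • Hat.hat2 β T y).co n ∈ (Ideal.span {q} * I) • (⊤ : Submodule K P) := by
  rw [Submodule.mul_smul, Hat.co_smul]
  refine Submodule.smul_mem_smul (Ideal.mem_span_singleton_self q) ?_
  refine Hat.cv_mem (U := (I • (⊤ : Submodule K P)).toAddSubgroup) (Hat.bi_lin β) fun i => ?_
  rcases lt_or_ge i 0 with hi | hi
  · simp [hT i hi]
  · exact map_mem_smul I _ (hy _ (by omega))

end gen

section loop

variable {K : Type*} [CommRing K] {H : Type*} [AddCommGroup H] [Module K H]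
  {p : Par K H} {ι : Type*} [Fintype ι] (fr : Frame p ι)

variable (K H) in
/-- The projection onto the positive part. -/
noncomputable def pp : Module.End K (LL H) := up K H ∘ₗ pos K H

variable (K H) in
/-- The projection onto the negative part. -/
noncomputable def pm : Module.End K (LL H) := 1 - pp K H

lemma pp_apply (y : LL H) : pp K H y = up K H (pos K H y) := rfl

lemma pp_add_pm : pp K H + pm K H = 1 := by simp [pm]

lemma pp_pp : pp K H * pp K H = pp K H := LinearMap.ext fun y => by simp [pp_apply]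

lemma pp_pm : pp K H * pm K H = 0 := by rw [pm, mul_sub, pp_pp]; simp

lemma pm_pp : pm K H * pp K H = 0 := by rw [pm, sub_mul, pp_pp]; simp

lemma pm_pm : pm K H * pm K H = pm K H := by
  conv_lhs => rw [← one_mul (pm K H * _), ← mul_assoc, one_mul]
  nth_rw 1 [pm]; rw [sub_mul, pp_pm]; simp

@[simp] lemma pos_pp (y : LL H) : pos K H (pp K H y) = pos K H y := by simp [pp_apply]

@[simp] lemma pos_pm (y : LL H) : pos K H (pm K H y) = 0 := by simp [pm]

@[simp] lemma pp_up (v : VV H) : pp K H (up K H v) = up K H v := by simp [pp_apply]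

@[simp] lemma pm_up (v : VV H) : pm K H (up K H v) = 0 := by simp [pm]

@[simp] lemma neg_pp (y : LL H) : fr.neg (pp K H y) = 0 := fr.neg_up _

@[simp] lemma neg_pm (y : LL H) : fr.neg (pm K H y) = fr.neg y := by simp [pm]

lemma pm_of_neg {y : LL H} (h : pos K H y = 0) : pm K H y = y := by simp [pm, pp_apply, h]

lemma pp_of_neg {y : LL H} (h : pos K H y = 0) : pp K H y = 0 := by simp [pp_apply, h]

lemma pp_coe (y : LL H) (j : ℤ) : pp K H y j = if 0 ≤ j then y j else 0 := by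
  split_ifs with h
  · obtain ⟨m, rfl⟩ := Int.eq_ofNat_of_zero_le h; simp [pp_apply]
  · exact up_apply_neg (K := K) _ (by omega)

lemma cst_pp (a : Module.End K H) : cst a * pp K H = pp K H * cst a := by
  refine LinearMap.ext fun y => Finsupp.ext fun j => ?_
  simp only [Module.End.mul_apply, cst_apply, pp_coe]
  split_ifs <;> simp

lemma cst_pm (a : Module.End K H) : cst a * pm K H = pm K H * cst a := by
  rw [pm, mul_sub, sub_mul, cst_pp]; simp

lemma isEv_pp (p : Par K H) : IsEv (p.fs ℤ) (p.fs ℤ) (pp K H) := (isEv_up p).comp (isEv_pos p)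

lemma isEv_pm (p : Par K H) : IsEv (p.fs ℤ) (p.fs ℤ) (pm K H) := IsEv.one.sub (isEv_pp p)

lemma adj_pm : fr.Adj (pm K H) (pp K H) := fun y y' => by
  rw [pp_apply, ← fr.Ω_of_pos_eq_zero (pos_pm y)]
  simp [pm, pp_apply, fr.Ω_up_up]

lemma adj_pp : fr.Adj (pp K H) (pm K H) := (adj_pm fr).symm (isEv_pm p)

variable {fr}

/-- The operator with four prescribed blocks. -/
noncomputable def blk4 (A0 B0 A1 Am : Module.End K (LL H)) : Module.End K (LL H) :=
  pp K H * A0 * pp K H + pp K H * A1 * pm K H + pm K H * Am * pp K H - pm K H * B0 * pm K H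

lemma quad_blk4 {A0 B0 A1 Am : Module.End K (LL H)} (h0 : fr.Adj A0 B0)
    (e0 : IsEv (p.fs ℤ) (p.fs ℤ) A0) (e1 : IsEv (p.fs ℤ) (p.fs ℤ) B0) (h1 : fr.Quad A1)
    (hm : fr.Quad Am) : fr.Quad (blk4 A0 B0 A1 Am) := by
  have a := isEv_pp p
  have b := isEv_pm p
  refine ⟨((((a.mul e0).mul a).add ((a.mul h1.ev).mul b)).add ((b.mul hm.ev).mul a)).sub
    ((b.mul e1).mul b), ?_, ?_⟩
  · have := (((((adj_pp fr).mul h0).mul (adj_pp fr)).add
      (((adj_pp fr).mul h1.adj).mul (adj_pm fr))).add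
      (((adj_pm fr).mul hm.adj).mul (adj_pp fr))).sub
      (((adj_pm fr).mul (h0.symm e0)).mul (adj_pm fr))
    refine fun y y' => (this y y').trans (congrArg _ ?_)
    simp only [blk4, LinearMap.neg_apply, LinearMap.add_apply, LinearMap.sub_apply,
      Module.End.mul_apply, map_neg]
    abel
  · obtain ⟨N, hN⟩ := h1.fin
    refine ⟨N, fun m hm v => ?_⟩
    have e : pos K H (Finsupp.single (-(m : ℤ) - 1) v) = 0 := pos_single_neg (by omega) v
    simp [blk4, pm_of_neg e, pp_of_neg e, hN m hm]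

lemma qz_blk4 [Algebra ℚ K] {A0 B0 A1 Am : Module.End K (LL H)} (h0 : fr.Adj A0 B0)
    (e0 : IsEv (p.fs ℤ) (p.fs ℤ) A0) (e1 : IsEv (p.fs ℤ) (p.fs ℤ) B0) (h1 : fr.Quad A1)
    (hm : fr.Quad Am) : fr.qz (blk4 A0 B0 A1 Am) = fr.q0 A0 + fr.qm Am + fr.q1 A1 := by
  have hq := quad_blk4 h0 e0 e1 h1 hm
  have a : Frame.blk (blk4 A0 B0 A1 Am) = Frame.blk A0 :=
    LinearMap.ext fun v => by simp [Frame.blk, blk4]
  have b : fr.qf (blk4 A0 B0 A1 Am) = fr.qf Am := Subtype.ext (LinearMap.ext fun v => by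
    rw [hq.qf_val, hm.qf_val]; simp [blk4])
  have c : fr.cas (blk4 A0 B0 A1 Am) = fr.cas A1 := by
    rw [Frame.cas, Frame.cas]
    congr 2
    funext m
    have e : ∀ v : H, pos K H (Finsupp.single (-(m : ℤ) - 1) v) = 0 :=
      fun v => pos_single_neg (by omega) v
    simp [Frame.casT, blk4, pm_of_neg (e _), pp_of_neg (e _)]
  rw [Frame.qz_eq, Frame.q0_eq, Frame.q0_eq, hq.qm_eq, hm.qm_eq, Frame.q1_eq, Frame.q1_eq, a, b, c]

variable (fr)

/-- The extended symplectic form. -/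
noncomputable def Oh : Hat K (LL H) →ₗ[Hat K K] Hat K (LL H) →ₗ[Hat K K] Hat K K := Hat.hat2 fr.Ω

/-- Adjoint series. -/
def AdjH (X Y : Hat K (Module.End K (LL H))) : Prop :=
  ∀ x y, Oh fr (Hat.act K _ X x) y = Oh fr x (Hat.act K _ Y y)

variable {fr}

lemma adjH_of {X Y : Hat K (Module.End K (LL H))} (h : ∀ n, fr.Adj (X.co n) (Y.co n)) :
    AdjH fr X Y := fun x y => hat2_adj fr.Ω h x y

lemma AdjH.mul {X Y X' Y' : Hat K (Module.End K (LL H))} (h : AdjH fr X Y) (h' : AdjH fr X' Y') :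
    AdjH fr (X * X') (Y' * Y) := fun x y => by
  rw [map_mul, map_mul, Module.End.mul_apply, h, h', Module.End.mul_apply]

lemma AdjH.add {X Y X' Y' : Hat K (Module.End K (LL H))} (h : AdjH fr X Y) (h' : AdjH fr X' Y') :
    AdjH fr (X + X') (Y + Y') := fun x y => by simp [h x y, h' x y]

lemma adjH_C {X Y : Module.End K (LL H)} (h : fr.Adj X Y) : AdjH fr (Hat.C K X) (Hat.C K Y) :=
  adjH_of fun n => by
    simp only [Hat.C_apply, Hat.co_single]
    split_ifs
    exacts [h, Frame.Adj.zero]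

lemma Oh_single (f : LL H) (w : Hat K (LL H)) : Oh fr (Hat.single K 0 f) w = Hat.map (fr.Ω f) w :=
  Hat.hat2_cst_left _ _ _

lemma Oh_Lo {x y : Hat K (LL H)} {a b : ℤ} (hx : x ∈ Hat.Lo _ _ a) (hy : y ∈ Hat.Lo _ _ b) :
    Oh fr x y ∈ Hat.Lo _ _ (a + b) := Hat.hat2_Lo _ hx hy

variable (fr) in
/-- A twist of the pairing: an invertible series of even self-adjoint constant loops. -/
structure Tw (b b' : Hat K (Module.End K (LL H))) : Prop where
  cst : ∀ n, ∃ a, b.co n = cst a ∧ IsEv p p a ∧ ∀ v w, fr.η (a v) w = fr.η v (a w)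
  lo : b ∈ Hat.Lo _ _ 0
  lo' : b' ∈ Hat.Lo _ _ 0
  mul : b * b' = 1
  mul' : b' * b = 1

/-- The twist acting on the negative part only. -/
noncomputable def bt (b : Hat K (Module.End K (LL H))) : Hat K (Module.End K (LL H)) :=
  Hat.C K (pp K H) + Hat.C K (pm K H) * b

lemma comm_C {A : Type*} [Ring A] {x : Hat K A} {a : A} (h : ∀ n, x.co n * a = a * x.co n) :
    x * Hat.C K a = Hat.C K a * x := by
  ext n; simp [Hat.C_apply, Hat.co_mul_single, Hat.co_single_mul, h]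

namespace Tw

variable {b b' : Hat K (Module.End K (LL H))} (hb : Tw fr b b')
include hb

lemma pp : b * Hat.C K (pp K H) = Hat.C K (pp K H) * b := comm_C fun n => by
  obtain ⟨a, ha, -⟩ := hb.cst n; rw [ha, cst_pp]

lemma pm : b * Hat.C K (pm K H) = Hat.C K (pm K H) * b := comm_C fun n => by
  obtain ⟨a, ha, -⟩ := hb.cst n; rw [ha, cst_pm]

lemma pm' : b' * Hat.C K (B.pm K H) = Hat.C K (B.pm K H) * b' := by
  rw [← mul_one (b' * _), ← hb.mul, mul_assoc, ← mul_assoc _ b, ← hb.pm, mul_assoc, ← mul_assoc,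
    hb.mul', one_mul]

lemma adj : AdjH fr b b := adjH_of fun n => by
  obtain ⟨a, ha, -, h⟩ := hb.cst n; rw [ha]; exact Frame.adj_cst h

lemma ev : EvH (p.fs ℤ) b := fun n => by obtain ⟨a, ha, h, -⟩ := hb.cst n; rw [ha]; exact h.cst

lemma ev_bt : EvH (p.fs ℤ) (bt b) :=
  add_mem (S := Subring _) (s := allR K (evR (p.fs ℤ))) (C_mem_allR (isEv_pp p))
    (mul_mem (C_mem_allR (isEv_pm p)) hb.ev)

lemma bt_Lo : bt b ∈ Hat.Lo _ _ 0 :=
  add_mem (Hat.single_Lo _ _) ((lo0 K _).mul_mem (Hat.single_Lo 0 (B.pm K H)) hb.lo)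

lemma Oh_bt (x y : Hat K (LL H)) :
    Oh fr (Hat.act K _ (bt b) x) (Hat.act K _ (bt b) y) = Oh fr (Hat.act K _ b x) y := by
  have := (adjH_C (adj_pp fr)).add ((adjH_C (adj_pm fr)).mul hb.adj)
  rw [bt, this, ← Module.End.mul_apply, ← map_mul, hb.adj]
  congr 2
  rw [add_mul, mul_add, mul_add, ← mul_assoc, mul_assoc b, ← mul_assoc _ _ b, mul_assoc b]
  simp only [← map_mul, pp_pp, pp_pm, pm_pp, pm_pm, map_zero, mul_zero, zero_mul, zero_add,
    add_zero]
  rw [← hb.pm, ← mul_add, ← map_add, add_comm, pp_add_pm, map_one, mul_one]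

end Tw

variable [Algebra ℚ K] (fr)

/-- The twisted Heisenberg representation. -/
noncomputable def hA (b : Hat K (Module.End K (LL H))) :
    Hat K (LL H) →ₗ[Hat K K] Module.End (Hat K K) (Hat K (S (p.fs ℕ))) :=
  hatR fr.h ∘ₗ Hat.act K _ (bt b)

lemma hA_apply (b : Hat K (Module.End K (LL H))) (y : Hat K (LL H)) :
    hA fr b y = hatR fr.h (Hat.act K _ (bt b) y) := rfl

variable {fr} {b b' : Hat K (Module.End K (LL H))}

theorem Tw.ccr (hb : Tw fr b b') :
    CCR (parH (p.fs ℤ)) (hA fr b) fun x y => Oh fr (Hat.act K _ b x) y :=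
  (ccr_hat fr.ccr).comp hb.ev_bt.act hb.Oh_bt

lemma Tw.hA_Lo (hb : Tw fr b b') {y : Hat K (LL H)} {n : ℤ} (hy : y ∈ Hat.Lo _ _ n) :
    Hat.map fr.h (Hat.act K _ (bt b) y) ∈ Hat.Lo _ _ n :=
  Hat.map_Lo _ (by simpa using act_Lo hb.bt_Lo hy)

lemma Tw.hA_neg (hb : Tw fr b b') {f : LL H} (hf : pos K H f = 0) (x : Hat K (S (p.fs ℕ))) :
    hA fr b (Hat.act K _ b' (Hat.single K 0 f)) x =
      Hat.map (con _ (fr.neg f)) x - fr.neg f fr.dil • x := by
  have e : Hat.single K 0 f = Hat.act K _ (Hat.C K (B.pm K H)) (Hat.single K 0 f) := by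
    rw [Hat.act_C, Hat.map_single, pm_of_neg hf]
  have : bt b * (b' * Hat.C K (B.pm K H)) = Hat.C K (B.pm K H) := by
    rw [bt, add_mul, mul_assoc, ← mul_assoc b, hb.mul, hb.pm', one_mul, ← mul_assoc, ← map_mul,
      ← map_mul, pp_pm, pm_pm]
    simp
  rw [hA_apply, e, ← Module.End.mul_apply, ← Module.End.mul_apply, ← map_mul, ← map_mul, mul_assoc,
    this, ← e, hatR_single]
  ext n
  simp [fr.h_of_pos_eq_zero hf]

/-- Perturbed vacua. -/
theorem vac {q : K} (hq : IsNilpotent q) {y : Hat K (S (p.fs ℕ))} {L : ℤ}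
    (h0 : Hat.map (aug _).toLinearMap y ∈ Hat.Lo _ _ L)
    (h : ∀ f : LL H, pos K H f = 0 → ∃ T ∈ Hat.Lo K (Module.End K (S (p.fs ℕ))) 0,
      Hat.map (con _ (fr.neg f)) y - q • Hat.act K _ T y ∈ Hat.Lo _ _ L) : y ∈ Hat.Lo _ _ L := by
  refine Lo_of_nil hq fun I hI n hn => ?_
  have := fr.sep.sub_aug_mem (U := (Ideal.span {q} * I) • ⊤) (x := y.co n)
    (fun _ => map_mem_smul _ _) (fun v _ => map_mem_smul _ (ml _ v)) (by
      rintro _ ⟨f, hf, rfl⟩
      obtain ⟨T, hT, e⟩ := h f hf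
      have e : con _ (fr.neg f) (y.co n) = (q • Hat.act K _ T y).co n := sub_eq_zero.mp (e n hn)
      rw [e]
      exact smul_hat2_mem _ q hT hI hn)
  rwa [show aug _ (y.co n) = 0 from h0 n hn, map_zero, sub_zero] at this

omit [Algebra ℚ K] in
/-- Perturbed nondegeneracy. -/
theorem nondeg {q : K} (hq : IsNilpotent q) {w : Hat K (LL H)} {L : ℤ}
    (h : ∀ f : LL H, ∃ T ∈ Hat.Lo K (LL H) 0,
      Hat.map (fr.Ω f) w - q • Oh fr T w ∈ Hat.Lo _ _ L) : w ∈ Hat.Lo _ _ L := by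
  refine Lo_of_nil hq fun I hI n hn => ?_
  rw [← Finsupp.sum_single (w.co n)]
  refine Submodule.sum_mem _ fun j _ => map_mem_smul _ (Finsupp.lsingle j) ?_
  rw [← fr.left (w.co n j)]
  refine Submodule.sum_mem _ fun a _ => ?_
  obtain ⟨T, hT, e⟩ := h (Finsupp.single (-j - 1) (sg K j • fr.f a))
  have e0 : fr.Ω (Finsupp.single (-j - 1) (sg K j • fr.f a)) (w.co n) = (q • Oh fr T w).co n :=
    sub_eq_zero.mp (e n hn)
  have e1 := smul_hat2_mem fr.Ω q hT hI hn
  rw [Frame.Ω_single_left, show -(-j - 1) - 1 = j by ring, map_smul, LinearMap.smul_apply,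
    smul_eq_mul, ← mul_assoc, sg_mul_self, one_mul] at e0
  rw [← Oh, ← e0] at e1
  exact map_mem_smul _ (LinearMap.toSpanSingleton K H (fr.e a)) e1

end loop

end Vale.Agent.P269.B
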