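import Vale.Agent.P269.B.Tw
import Vale.Agent.P269.B.Co

/-! The concrete rings and series of step (B). -/

namespace Vale.Agent.P269.B

open Fock Finset TensorProduct

lemma mapA_C {K A B : Type*} [CommRing K] [Ring A] [Ring B] [Algebra K A] [Algebra K B]
    (f : A →ₐ[K] B) (x : A) : Hat.mapA f (Hat.C K x) = Hat.C K (f x) := Hat.map_single _ _ _

lemma act_mapA_smul_C {K A N : Type*} [CommRing K] [Ring A] [Algebra K A] [AddCommGroup N]
    [Module K N] (f : A →ₐ[K] Module.End K N) (a : Hat K K) (x : A) (w : Hat K N) :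
    Hat.act K N (Hat.mapA f (a • Hat.C K x)) w = a • Hat.map (f x) w := by
  rw [map_smul, map_smul, mapA_C, LinearMap.smul_apply, Hat.act_C]

variable (K : Type) [CommRing K] [Algebra ℂ K] {H : Type} [AddCommGroup H] [Module ℂ H]
  {p : Par ℂ H} {ι : Type} [Fintype ι] {fr : Frame p ι} {C : Type} [CommRing C] [Algebra ℂ C]

variable (C) in
/-- `x ↦ 1 ⊗ x`. -/
noncomputable abbrev iR : C →+* K ⊗[ℂ] C :=
  ((Algebra.TensorProduct.includeRight : C →ₐ[ℂ] K ⊗[ℂ] C) : C →+* K ⊗[ℂ] C)

variable (H) in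
/-- The embedding of the coefficients. -/
noncomputable def embV : Hat K K ⊗[ℂ] H →ₗ[Hat K K] Hat K (K ⊗[ℂ] H) :=
  (TensorProduct.isBaseChange ℂ H (Hat K K)).lift
    { toFun := fun v => Hat.single K 0 (1 ⊗ₜ v)
      map_add' := fun v w => by rw [tmul_add, map_add]
      map_smul' := fun c v => by ext n; simp [Hat.co_single] }

lemma embV_tmul (a : Hat K K) (v : H) : embV K H (a ⊗ₜ v) = a • Hat.single K 0 (1 ⊗ₜ v) := by
  have e : a ⊗ₜ[ℂ] v = a • ((1 : Hat K K) ⊗ₜ[ℂ] v) := by simp [smul_tmul']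
  rw [e, map_smul]
  exact congrArg _ ((TensorProduct.isBaseChange ℂ H (Hat K K)).lift_eq _ v)

variable (C) in
/-- The embedding of the classes. -/
noncomputable def embC : Hat K K ⊗[ℂ] C →ₐ[Hat K K] Hat K (K ⊗[ℂ] C) :=
  Algebra.TensorProduct.lift (Algebra.ofId _ _)
    { __ := (Hat.C K).comp (iR K C)
      commutes' := fun c => congrArg (Hat.C K) (AlgHom.commutes
        (Algebra.TensorProduct.includeRight : C →ₐ[ℂ] K ⊗[ℂ] C) c) } fun _ _ => Commute.all _ _

lemma embC_tmul (a : Hat K K) (x : C) : embC K C (a ⊗ₜ x) = a • Hat.C K (1 ⊗ₜ x) :=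
  (Algebra.TensorProduct.lift_tmul _ _ _ a x).trans (Algebra.smul_def a _).symm

lemma embV_bc (a : Module.End ℂ H) (w : Hat K K ⊗[ℂ] H) :
    embV K H (a.baseChange _ w) = Hat.map (a.baseChange K) (embV K H w) := by
  induction w with
  | zero => simp
  | add a b ha hb => simp only [map_add, ha, hb]
  | tmul a v => simp [embV_tmul]

/-- The embedding of the tensor products. -/
noncomputable def emT (ac : Act fr C) : Emb (ac.bc K) (ac.bc (Hat K K)) where
  v := embV K H
  c := embC K C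
  act x w := by
    induction x with
    | zero => simp
    | add a b ha hb => simp only [map_add, LinearMap.add_apply, ha, hb]
    | tmul a x =>
      have e : (ac.bc K).act (1 ⊗ₜ x) = (ac.act x).baseChange K :=
        (actBC_tmul ac K 1 x).trans (one_smul _ _)
      rw [embC_tmul, act_mapA_smul_C, e, ← embV_bc, ← map_smul]
      exact congrArg _ (LinearMap.congr_fun (actBC_tmul ac _ a x) w)
  ev := embV_bc K p.σ
  η w w' := by
    induction w with
    | zero => simp
    | add a b ha hb => simp only [map_add, LinearMap.add_apply, ha, hb]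
    | tmul a v =>
      induction w' with
      | zero => simp
      | add a b ha hb => simp only [map_add, ha, hb]
      | tmul b w =>
        simp only [Frame.bc_η, embV_tmul, map_smul, LinearMap.smul_apply, Hat.hat2_single, mul_one,
          add_zero, smul_eq_mul]
        rw [← Hat.C_apply, ← Algebra.algebraMap_eq_smul_one, ← Hat.algebraMap_co, Algebra.smul_def]
        ring
  one := (embV_tmul K 1 fr.one).trans (one_smul _ _)
  surj u := by
    induction u with
    | zero => exact ⟨0, by simp⟩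
    | add a b ha hb =>
      obtain ⟨x, hx⟩ := ha
      obtain ⟨y, hy⟩ := hb
      exact ⟨x + y, by rw [map_add, hx, hy, map_add]⟩
    | tmul a v =>
      refine ⟨Hat.C K a ⊗ₜ v, ?_⟩
      rw [embV_tmul, Hat.C_smul]
      ext n; simp [Hat.co_single, smul_tmul']

variable {r : ℕ} (a : Fin (r + 1) → ℂ) (c : Fin (r + 1) → C)

/-- The leading coefficient of the Euler class of the normal bundle. -/
noncomputable def wt (i : Fin (r + 1)) : ℂ := ∏ l ∈ univ.erase i, (a l - a i)

/-- The Riemann-Roch series. -/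
noncomputable def aH (i : Fin (r + 1)) : RH K (K ⊗[ℂ] C) :=
  Hat.ofPS K (PowerSeries.mk fun k => mapL (iR K C) (aL a c (fun _ => True) i k))

/-- `ħ e_i`. -/
noncomputable def bI' (h : K) (i : Fin (r + 1)) : Hat K (K ⊗[ℂ] C) :=
  (wt a i • h) • Hat.ofPS K (PowerSeries.map (iR K C) (cI a c i))

/-- `1 / (ħ e_i)`; `h` is the inverse of `ħ`. -/
noncomputable def bI (h : K) (i : Fin (r + 1)) : Hat K (K ⊗[ℂ] C) :=
  ((wt a i)⁻¹ • h) • Hat.ofPS K (PowerSeries.map (iR K C) (Ring.inverse (cI a c i)))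

/-- A diagonal series of classes as a series of operators. -/
noncomputable def dH {K H C : Type} [CommRing K] [AddCommGroup H] [Module K H] {p : Par K H}
    {fr : Frame p ι} [CommRing C] [Algebra K C] (ac : Act fr C) {σ : Type} [Fintype σ]
    [DecidableEq σ] (b : σ → Hat K C) : Hat K (Module.End K (LL (σ → H))) :=
  matH ac σ (Matrix.diagonal fun i => Hat.mapA (lC K C) (b i))

/-- The twisted Virasoro operators. -/
noncomputable def ellT {K H C : Type} [CommRing K] [Algebra ℚ K] [AddCommGroup H] [Module K H]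
    {p : Par K H} {fr : Frame p ι} [CommRing C] [Algebra K C] (ac : Act fr C) (d : VD fr) {σ : Type}
    [Fintype σ] [DecidableEq σ] (𝔞 : σ → RH K C) (i : σ) (k : ℕ) :
    Hat K (Module.End K (LL (σ → H))) :=
  EH K H i i * Hat.C K (zp K _ (-1)) *
    (Hat.C K (vdPi σ d).D - Hat.C K (zp K _ 1) * matH ac σ (Matrix.diagonal 𝔞)) ^ k

/-- `Z` is the generating series of the twisted invariants. -/
def IsZt (D : ℕ) {Γv : Type}
    (ZB : Γv → (Fin (r + 1) → ℤ) → ℕ → S ((p.pi (Fin (r + 1))).fs ℕ) →ₗ[ℂ] ℂ)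
    (Z : Γv → Hat (K1 D) (S (((p.bc (K1 D)).pi (Fin (r + 1))).fs ℕ) →ₗ[K1 D] K1 D)) : Prop :=
  ∀ β, Z β ∈ Hat.Lo _ _ 0 ∧ ∀ (m : ℕ) x, IsGen D (wt a) (fun jv => ZB β jv m x)
    ((Z β).co m (bcS _ (isEvS_jV p (K1 D)) x))

end Vale.Agent.P269.B
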