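import Vale.Agent.P269.B.PFDef

/-! Operators on several copies, Laurent polynomials as operators, matrices, adjoints,
compatibility with a change of the ground ring. -/

namespace Vale.Agent.P269.B

open Fock Finset TensorProduct

section mat

variable {B E : Type*} [Ring B] [Ring E] {σ : Type} [Fintype σ] [DecidableEq σ]

/-- A system of matrix units commuting with a ring homomorphism. -/
structure Units (φ : B →+* E) (U : σ → σ → E) : Prop where
  mul : ∀ i j k l, U i j * U k l = if j = k then U i l else 0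
  sum : ∑ i, U i i = 1
  comm : ∀ i j x, φ x * U i j = U i j * φ x

/-- The action of matrices. -/
noncomputable def Units.hom {φ : B →+* E} {U : σ → σ → E} (h : Units φ U) : Matrix σ σ B →+* E where
  toFun M := ∑ i, ∑ j, U i j * φ (M i j)
  map_zero' := by simp
  map_add' M N := by simp [mul_add, sum_add_distrib]
  map_one' := by
    rw [← h.sum]
    refine sum_congr rfl fun i _ => ?_
    rw [sum_eq_single i (fun j _ hj => by simp [Matrix.one_apply_ne hj.symm]) (by simp)]
    simp
  map_mul' M N := by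
    have e : ∀ i j k l, U i j * φ (M i j) * (U k l * φ (N k l)) =
        if j = k then U i l * φ (M i j * N k l) else 0 := fun i j k l => by
      rw [mul_assoc, ← mul_assoc (φ _), h.comm, mul_assoc, ← mul_assoc, h.mul, map_mul]
      split_ifs <;> simp
    rw [sum_mul]
    refine sum_congr rfl fun i _ => ?_
    have e2 : ∀ j, U i j * φ (M i j) * ∑ k, ∑ l, U k l * φ (N k l) =
        ∑ l, U i l * φ (M i j * N j l) := fun j => by
      rw [Finset.mul_sum, sum_eq_single j (fun k _ hk => by simp [Finset.mul_sum, e, hk.symm])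
        (by simp), Finset.mul_sum]
      simp [e]
    rw [sum_mul, sum_congr rfl fun j _ => e2 j, sum_comm]
    simp only [Matrix.mul_apply, map_sum, Finset.mul_sum]

lemma Units.hom_apply {φ : B →+* E} {U : σ → σ → E} (h : Units φ U) (M : Matrix σ σ B) :
    h.hom M = ∑ i, ∑ j, U i j * φ (M i j) := rfl

lemma Units.hom_diagonal {φ : B →+* E} {U : σ → σ → E} (h : Units φ U) (x : σ → B) :
    h.hom (Matrix.diagonal x) = ∑ i, U i i * φ (x i) := by
  refine sum_congr rfl fun i _ => ?_
  rw [sum_eq_single i (fun j _ hj => by simp [Matrix.diagonal_apply_ne _ hj.symm]) (by simp)]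
  simp

lemma Units.hom_scalar {φ : B →+* E} {U : σ → σ → E} (h : Units φ U) (x : B) :
    h.hom (Matrix.diagonal fun _ => x) = φ x := by
  rw [h.hom_diagonal, ← sum_mul, h.sum, one_mul]

end mat

section laurent

variable {C C' : Type*} [CommRing C] [CommRing C']

/-- Change of coefficients. -/
noncomputable def mapL (ψ : C →+* C') : LaurentPolynomial C →+* LaurentPolynomial C' :=
  AddMonoidAlgebra.mapRingHom ℤ ψ

@[simp] lemma mapL_C (ψ : C →+* C') (x : C) :
    mapL ψ (LaurentPolynomial.C x) = LaurentPolynomial.C (ψ x) :=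
  AddMonoidAlgebra.mapRingHom_single _ _ _

@[simp] lemma mapL_T (ψ : C →+* C') (n : ℤ) :
    mapL ψ (LaurentPolynomial.T n) = LaurentPolynomial.T n :=
  (AddMonoidAlgebra.mapRingHom_single _ _ _).trans (by rw [map_one]; rfl)

end laurent

section ops

variable {K : Type*} [CommRing K] {H : Type*} [AddCommGroup H] [Module K H]
  {C : Type*} [CommRing C] [Algebra K C] {σ : Type}

variable (σ) in
/-- Diagonal operators. -/
noncomputable def dg : Module.End K H →ₐ[K] Module.End K (σ → H) where
  toFun a := a.compLeft σ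
  map_one' := rfl
  map_mul' _ _ := rfl
  map_zero' := rfl
  map_add' _ _ := rfl
  commutes' _ := rfl

@[simp] lemma dg_apply (a : Module.End K H) (v : σ → H) (i : σ) : dg σ a v i = a (v i) := rfl

/-- Laurent polynomials as operators. -/
noncomputable def opL (act : C →ₐ[K] Module.End K H) :
    LaurentPolynomial C →ₐ[K] Module.End K (LL H) :=
  AddMonoidAlgebra.liftNCAlgHom (cst.comp act)
    ⟨⟨fun n => zp K H n.toAdd, zp_zero⟩, fun _ _ => zp_add _ _⟩ fun _ _ => cst_zp _ _

@[simp] lemma opL_C (act : C →ₐ[K] Module.End K H) (x : C) :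
    opL act (LaurentPolynomial.C x) = cst (act x) :=
  (AddMonoidAlgebra.liftNCRingHom_single _ _ (fun _ _ => cst_zp _ _) 0 x).trans (by simp)

@[simp] lemma opL_T (act : C →ₐ[K] Module.End K H) (n : ℤ) :
    opL act (LaurentPolynomial.T n) = zp K H n :=
  (AddMonoidAlgebra.liftNCRingHom_single _ _ (fun _ _ => cst_zp _ _) n 1).trans (by simp)

lemma opL_comm {act : C →ₐ[K] Module.End K H} {A : Module.End K (LL H)}
    (h1 : ∀ x, Commute (cst (act x)) A) (h2 : ∀ n, Commute (zp K H n) A) (x : LaurentPolynomial C) :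
    Commute (opL act x) A := by
  induction x using LaurentPolynomial.induction_on' with
  | add a b ha hb => rw [map_add]; exact ha.add_left hb
  | C_mul_T n a => rw [map_mul, opL_C, opL_T]; exact (h1 a).mul_left (h2 n)

variable [DecidableEq σ]

variable (K H) in
/-- Matrix units. -/
noncomputable def EU (i j : σ) : Module.End K (σ → H) :=
  LinearMap.single K (fun _ => H) i ∘ₗ LinearMap.proj j

@[simp] lemma EU_apply (i j : σ) (v : σ → H) : EU K H i j v = Pi.single i (v j) := rfl

lemma dg_single (a : Module.End K H) (i : σ) (v : H) :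
    dg σ a (Pi.single i v) = Pi.single i (a v) := by
  ext j; by_cases h : j = i
  · subst h; simp
  · simp [h]

lemma dg_EU (a : Module.End K H) (i j : σ) : dg σ a * EU K H i j = EU K H i j * dg σ a :=
  LinearMap.ext fun v => dg_single a i (v j)

lemma EU_mul (i j k l : σ) : EU K H i j * EU K H k l = if j = k then EU K H i l else 0 := by
  refine LinearMap.ext fun v => ?_
  split_ifs with h
  · subst h; simp
  · simp [h]

variable [Fintype σ]

lemma sum_EU : ∑ i : σ, EU K H i i = 1 := LinearMap.ext fun v => by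
  simp [LinearMap.sum_apply, Finset.univ_sum_single]

lemma units_dg (act : C →ₐ[K] Module.End K H) :
    Units ((dg σ).comp act).toRingHom (EU K H) := ⟨EU_mul, sum_EU, fun _ _ _ => dg_EU _ _ _⟩

lemma units_opL (act : C →ₐ[K] Module.End K H) :
    Units (opL ((dg σ).comp act)).toRingHom fun i j : σ => cst (EU K H i j) where
  mul i j k l := by rw [← map_mul, EU_mul]; split_ifs <;> simp
  sum := by rw [← map_sum, sum_EU, map_one]
  comm i j x := opL_comm (fun x => by
    rw [Commute, SemiconjBy, ← map_mul, ← map_mul]; exact congrArg _ (dg_EU _ _ _))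
    (fun n => (cst_zp _ _).symm) x

/-- Matrices of classes. -/
noncomputable def actM (act : C →ₐ[K] Module.End K H) : Matrix σ σ C →+* Module.End K (σ → H) :=
  (units_dg act).hom

lemma actM_apply (act : C →ₐ[K] Module.End K H) (M : Matrix σ σ C) (v : σ → H) (i : σ) :
    actM act M v i = ∑ j, act (M i j) (v j) := by
  simp only [actM, Units.hom_apply, LinearMap.sum_apply, Finset.sum_apply]
  rw [sum_eq_single i (fun k _ hk => by simp [hk.symm]) (by simp)]
  simp

/-- Matrices of Laurent polynomials. -/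
noncomputable def opM (act : C →ₐ[K] Module.End K H) :
    Matrix σ σ (LaurentPolynomial C) →+* Module.End K (LL (σ → H)) := (units_opL act).hom

lemma opM_apply (act : C →ₐ[K] Module.End K H) (M : Matrix σ σ (LaurentPolynomial C)) :
    opM act M = ∑ i, ∑ j, cst (EU K H i j) * opL ((dg σ).comp act) (M i j) := rfl

lemma opM_C (act : C →ₐ[K] Module.End K H) (M : Matrix σ σ C) :
    opM act (M.map LaurentPolynomial.C) = cst (actM act M) := by
  simp [opM_apply, actM, Units.hom_apply, map_sum]

variable {p : Par K H} {ι : Type*} [Fintype ι] {fr : Frame p ι}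

omit [DecidableEq σ] [Fintype σ] in
lemma isEv_dg {a : Module.End K H} (h : IsEv p p a) : IsEv (p.pi σ) (p.pi σ) (dg σ a) :=
  fun v => funext fun i => h (v i)

omit [Fintype σ] in
lemma isEv_EU (i j : σ) : IsEv (p.pi σ) (p.pi σ) (EU K H i j) := fun _ => Par.pi_σ_single _ _ _

lemma adj_dg {a b : Module.End K H} (h : ∀ v w, fr.η (a v) w = fr.η v (b w)) (v w : σ → H) :
    (fr.pi σ).η (dg σ a v) w = (fr.pi σ).η v (dg σ b w) := by simp [Frame.pi_η, h]

lemma adj_EU (i j : σ) (v w : σ → H) :
    (fr.pi σ).η (EU K H i j v) w = (fr.pi σ).η v (EU K H j i w) := by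
  rw [Frame.pi_η, Frame.pi_η, sum_eq_single i (fun k _ hk => by simp [hk]) (by simp),
    sum_eq_single j (fun k _ hk => by simp [hk]) (by simp)]
  simp

variable (σ) in
/-- The diagonal action. -/
noncomputable def Act.pi (ac : Act fr C) : Act (fr.pi σ) C :=
  ⟨(dg σ).comp ac.act, fun x => isEv_dg (ac.ev x), fun x => adj_dg (ac.adj x)⟩

variable (σ) in
/-- The Virasoro data of several copies. -/
noncomputable def vdPi (d : VD fr) : VD (fr.pi σ) where
  μ := dg σ d.μ
  ρ := dg σ d.ρ
  evμ := isEv_dg d.evμ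
  evρ := isEv_dg d.evρ
  adjμ v w := by simp [Frame.pi_η, d.adjμ]
  adjρ := adj_dg d.adjρ
  comm := by rw [← map_mul, d.comm, map_add, map_mul]

lemma isEv_opL {act : C →ₐ[K] Module.End K H} (h : ∀ x, IsEv p p (act x))
    (x : LaurentPolynomial C) : IsEv (p.fs ℤ) (p.fs ℤ) (opL act x) := by
  induction x using LaurentPolynomial.induction_on' with
  | add a b ha hb => rw [map_add]; exact ha.add hb
  | C_mul_T n a => rw [map_mul, opL_C, opL_T]; exact (h a).cst.mul (isEv_zp p n)

lemma isEv_actM (ac : Act fr C) (M : Matrix σ σ C) : IsEv (p.pi σ) (p.pi σ) (actM ac.act M) :=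
  IsEv.sum _ fun i _ => IsEv.sum _ fun j _ => (isEv_EU i j).mul (isEv_dg (ac.ev _))

lemma adj_actM (ac : Act fr C) (M : Matrix σ σ C) (v w : σ → H) :
    (fr.pi σ).η (actM ac.act M v) w = (fr.pi σ).η v (actM ac.act M.transpose w) := by
  simp only [Frame.pi_η, actM_apply, map_sum, LinearMap.sum_apply, ac.adj, Matrix.transpose_apply]
  exact sum_comm

end ops

section nice

variable {K : Type*} [CommRing K] {H : Type*} [AddCommGroup H] [Module K H]
  {p : Par K H} {ι : Type*} [Fintype ι] (fr : Frame p ι)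

/-- Even operators of bounded degree with an adjoint of the same kind. -/
def Nice (A : Module.End K (LL H)) : Prop :=
  ∃ B n, fr.Adj A B ∧ IsEv (p.fs ℤ) (p.fs ℤ) A ∧ IsEv (p.fs ℤ) (p.fs ℤ) B ∧ Up n A ∧ Up n B

variable {fr} {A A' : Module.End K (LL H)}

lemma Nice.add (h : Nice fr A) (h' : Nice fr A') : Nice fr (A + A') := by
  obtain ⟨B, n, h1, h2, h3, h4, h5⟩ := h
  obtain ⟨B', n', h1', h2', h3', h4', h5'⟩ := h'
  exact ⟨_, max n n', h1.add h1', h2.add h2', h3.add h3',
    (h4.mono (le_max_left _ _)).add (h4'.mono (le_max_right _ _)),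
    (h5.mono (le_max_left _ _)).add (h5'.mono (le_max_right _ _))⟩

lemma Nice.mul (h : Nice fr A) (h' : Nice fr A') : Nice fr (A * A') := by
  obtain ⟨B, n, h1, h2, h3, h4, h5⟩ := h
  obtain ⟨B', n', h1', h2', h3', h4', h5'⟩ := h'
  exact ⟨_, n + n', h1.mul h1', h2.mul h2', h3'.mul h3, h4.mul h4', add_comm n n' ▸ h5'.mul h5⟩

lemma Nice.smul (h : Nice fr A) (c : K) : Nice fr (c • A) := by
  obtain ⟨B, n, h1, h2, h3, h4, h5⟩ := h
  exact ⟨_, n, h1.smul c, h2.smul c, h3.smul c, h4.smul c, h5.smul c⟩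

lemma Nice.one : Nice fr 1 := ⟨1, 0, Frame.Adj.one, IsEv.one, IsEv.one, Up.one, Up.one⟩

lemma Nice.zero : Nice fr 0 := ⟨0, 0, Frame.Adj.zero, IsEv.zero, IsEv.zero, Up.zero, Up.zero⟩

lemma Nice.pow (h : Nice fr A) (k : ℕ) : Nice fr (A ^ k) := by
  induction k with
  | zero => simpa using Nice.one
  | succ k ih => rw [pow_succ]; exact ih.mul h

lemma Nice.sum {α : Type*} (s : Finset α) {A : α → Module.End K (LL H)}
    (h : ∀ a ∈ s, Nice fr (A a)) : Nice fr (∑ a ∈ s, A a) :=
  sum_induction _ _ (fun _ _ => Nice.add) Nice.zero h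

lemma nice_zp (n : ℤ) : Nice fr (zp K H n) :=
  ⟨_, n, Frame.adj_zp n, isEv_zp p n, (isEv_zp p n).smul _, up_zp n, (up_zp n).smul _⟩

lemma nice_eu : Nice fr (Fock.eu K H) :=
  ⟨_, 0, Frame.adj_eu, isEv_eu p, (isEv_eu p).neg.sub IsEv.one, up_eu, up_eu.neg.sub Up.one⟩

lemma exists_adj (fr : Frame p ι) (a : Module.End K H) :
    ∃ b : Module.End K H, ∀ v w, fr.η (a v) w = fr.η v (b w) := by
  refine ⟨∑ x, (fr.η (a (fr.f x))).smulRight (fr.e x), fun v w => ?_⟩
  conv_lhs => rw [← fr.right v]
  simp [LinearMap.sum_apply, map_sum, mul_comm]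

lemma nice_cst {a : Module.End K H} (h : IsEv p p a) : Nice fr (cst a) := by
  obtain ⟨b, hb⟩ := exists_adj fr a
  have : IsEv p p b := fun w => fr.ext_right fun u => by rw [fr.η_σ, ← hb, ← hb, ← h, fr.η_σ]
  exact ⟨_, 0, Frame.adj_cst hb, h.cst, this.cst, up_cst _, up_cst _⟩

lemma nice_opL {C : Type*} [CommRing C] [Algebra K C] {act : C →ₐ[K] Module.End K H}
    (h : ∀ x, IsEv p p (act x)) (x : LaurentPolynomial C) : Nice fr (opL act x) := by
  induction x using LaurentPolynomial.induction_on' with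
  | add a b ha hb => rw [map_add]; exact ha.add hb
  | C_mul_T n a => rw [map_mul, opL_C, opL_T]; exact (nice_cst (h a)).mul (nice_zp n)

variable [Algebra ℚ K]

lemma nice_D {ι' : Type*} [Fintype ι'] {fr' : Frame p ι'} (d : VD fr') : Nice fr d.D :=
  ((nice_zp 1).mul ((nice_eu.add (Nice.one.smul _)).add (nice_cst d.evμ))).add (nice_cst d.evρ)

lemma Nice.quad (h : Nice fr A) {B : Module.End K (LL H)} (hB : fr.Adj A B) :
    fr.Quad (hf K • (A - B)) := by
  obtain ⟨B', n, h1, h2, h3, h4, h5⟩ := h
  obtain rfl := h1.unique hB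
  refine (Frame.Quad.of_up (h2.sub h3) ?_ (h4.sub h5)).smul _
  simpa using h1.sub (h1.symm h2)

end nice

end Vale.Agent.P269.B
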