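import Vale.Agent.P269.B.Ring

/-! Definitions for the partial fraction decomposition of the hypergeometric series. -/

namespace Vale.Agent.P269.B

open Fock Finset TensorProduct

/-- The truncated hypergeometric series. -/
noncomputable def nS {B : Type*} [CommRing B] {σ : Type} [Fintype σ] (D : ℕ) (Q ξ : B) (χ : σ → B)
    (z : B) (k : ℕ) : B := ∑ d ∈ range (D + 1), Q ^ d * nn ξ χ z k d

lemma finite_edges (σ : Type) [Finite σ] (D : ℕ) : {e : Edge σ | e.deg < D}.Finite := by
  refine Set.Finite.of_finite_image (f := fun e => (e.src, e.tgt, e.deg))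
    ((Set.finite_univ.prod (Set.finite_univ.prod (Set.finite_Iio D))).subset ?_) ?_
  · rintro _ ⟨e, he, rfl⟩; exact ⟨trivial, trivial, he⟩
  · intro e _ e' _ h
    simp only [Prod.mk.injEq] at h
    exact Edge.ext h.1 h.2.1 h.2.2

/-- The edges of degree at most `D`. -/
noncomputable def edges (σ : Type) [Finite σ] (D : ℕ) : Finset (Edge σ) :=
  (finite_edges σ D).toFinset

@[simp] lemma mem_edges {σ : Type} [Finite σ] {D : ℕ} {e : Edge σ} : e ∈ edges σ D ↔ e.deg < D := by
  simp [edges]

@[simp] lemma Edge.rev_rev {σ : Type} (e : Edge σ) : e.rev.rev = e := rfl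

@[simp] lemma Edge.rev_src {σ : Type} (e : Edge σ) : e.rev.src = e.tgt := rfl

@[simp] lemma Edge.rev_tgt {σ : Type} (e : Edge σ) : e.rev.tgt = e.src := rfl

@[simp] lemma Edge.rev_deg {σ : Type} (e : Edge σ) : e.rev.deg = e.deg := rfl

variable (K : Type*) [CommRing K] [Algebra ℚ K] {C : Type*} [CommRing C] [Algebra K C] {σ : Type}

/-- The weights are in general position. -/
structure Gen (χ : σ → C) : Prop where
  p : ∀ e, IsUnit (pe K χ e)
  src : ∀ e e' : Edge σ, e.src = e'.src → e ≠ e' → IsUnit (pe K χ e - pe K χ e')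
  tgt : ∀ e e' : Edge σ, e'.src = e.tgt → IsUnit (pe K χ e - pe K χ e')

variable {K} in
/-- Evaluation at `z = p_e`. -/
noncomputable def Gen.ev {χ : σ → C} (h : Gen K χ) (e : Edge σ) : LaurentPolynomial C →+* C :=
  LaurentPolynomial.eval₂ (RingHom.id C) (h.p e).unit

/-- The equivariant first Chern classes over a general ground ring. -/
noncomputable def chiK {K : Type*} [CommRing K] [Algebra ℂ K] {C : Type} [CommRing C] [Algebra ℂ C]
    {σ : Type} (t : K) (a : σ → ℂ) (c : σ → C) (j : σ) : K ⊗[ℂ] C := (a j • t) ⊗ₜ 1 + 1 ⊗ₜ c j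

end Vale.Agent.P269.B
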