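import Vale.Agent.P269.B.Inst

/-! Virasoro constraints for the twisted theory: the abstract transfer. -/

namespace Vale.Agent.P269.B

open Fock Finset TensorProduct

namespace QrrA

section gen

variable {K : Type} [CommRing K] {N E M : Type*} [AddCommGroup N] [Module K N] [AddCommGroup E]
  [Module K E] [AddCommGroup M] [Module K M] {A : Type*} [Ring A] [Algebra K A]

lemma th_Lo {x : Hat K N} {n : ℤ} (h : x ∈ Hat.Lo _ _ n) : Hat.th K N x ∈ Hat.Lo _ _ n :=
  fun m hm => by simp [h m hm]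

omit [CommRing K] [Algebra K A] in
lemma Lo_zero {x : Hat K A} (h : x - 1 ∈ Hat.Lo _ _ 1) : x ∈ Hat.Lo _ _ 0 := by
  simpa using add_mem (Hat.Lo_mono zero_le_one h) (Hat.one_Lo (K := K) (A := A))

lemma th_C (a : A) : Hat.th K A (Hat.C K a) = 0 := Hat.th_cst a

lemma th_mul_C (a : A) (x : Hat K A) : Hat.th K A (x * Hat.C K a) = Hat.th K A x * Hat.C K a := by
  rw [Hat.th_mul, th_C, mul_zero, add_zero]

omit [CommRing K] [Algebra K A] in
lemma co_C_mul_C (a b : A) (x : Hat K A) (n : ℤ) :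
    (Hat.C K a * x * Hat.C K b).co n = a * x.co n * b := by
  simp [Hat.C_apply, Hat.co_mul_single, Hat.co_single_mul]

lemma th_act (X : Hat K (Module.End K N)) (y : Hat K N) : Hat.th K N (Hat.act K N X y) =
    Hat.act K N (Hat.th K _ X) y + Hat.act K N X (Hat.th K N y) := Hat.th_hat2 _ _ _

variable [Algebra ℚ K]

lemma exists_sol {Y : Hat K A} (hY : Y ∈ Hat.Lo _ _ 1) :
    ∃ G, Hat.th K A G = G * Y ∧ G - 1 ∈ Hat.Lo _ _ 1 := by
  obtain ⟨G, h1, h2, -⟩ := Hat.ode_exists (K := K) (T := AddMonoidHom.mulRight Y)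
    (fun n x hx => Hat.mul_Lo hx hY) (1 : A) (U := ⊤) (fun _ _ _ => trivial) trivial
    fun _ _ _ => trivial
  exact ⟨G, h1, h2⟩

lemma sol_unique {W Y : Hat K A} (hY : Y ∈ Hat.Lo _ _ 1) (hW : W ∈ Hat.Lo _ _ 1)
    (e : Hat.th K A W = W * Y) : W = 0 :=
  Hat.ode_unique hW fun _ hn => e ▸ Hat.mul_Lo hn hY

lemma lin_unique {D : Hat K N →ₗ[K] Hat K M}
    (h1 : ∀ k, ∀ y ∈ Hat.Lo K N k, D y ∈ Hat.Lo K M (k + 1))
    (h2 : ∀ n, (∀ k, ∀ y ∈ Hat.Lo K N k, D y ∈ Hat.Lo K M (k + n)) → ∀ k, ∀ y ∈ Hat.Lo K N k,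
      Hat.th K M (D y) - D (Hat.th K N y) ∈ Hat.Lo K M (k + n + 1)) (y : Hat K N) : D y = 0 := by
  have key : ∀ n : ℕ, ∀ k, ∀ y ∈ Hat.Lo K N k, D y ∈ Hat.Lo K M (k + (n + 1)) := by
    intro n
    induction n with
    | zero => simpa using h1
    | succ n ih =>
      intro k y hy m hm
      rcases lt_or_ge m (k + (n + 1)) with h | h
      · exact ih k y hy m h
      have e1 : Hat.th K N y - (k : K) • y ∈ Hat.Lo K N (k + 1) := fun l hl => by
        rcases lt_or_ge l k with h | h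
        · simp [hy l h]
        · simp [show l = k by omega]
      have e2 := h2 _ ih k y hy m (by push_cast at hm; omega)
      have e3 := ih _ _ e1 m (by push_cast at hm; omega)
      refine Hat.smul_eq_zero_of_ne (K := K) (n := m - k) (by omega) ?_
      rw [map_sub, map_smul, Hat.co_sub, Hat.co_smul, sub_eq_zero] at e3
      rw [Hat.co_sub, Hat.co_th, e3] at e2
      rw [Int.cast_sub, sub_smul, e2]
  obtain ⟨k, hk⟩ := y.exists_Lo
  exact Hat.eq_zero_of_Lo fun L => Hat.Lo_mono (by omega) (key (L - k).toNat k y hk)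

/-- Egorov for regular singular equations. -/
lemma egorov {h : N →ₗ[K] Module.End K E} {Y G : Hat K (Module.End K E)}
    {T Gt : Hat K (Module.End K N)} (H : ∀ n, IsQ h (Y.co n) (T.co n)) (hY : Y ∈ Hat.Lo _ _ 1)
    (hT : T ∈ Hat.Lo _ _ 1) (hG : Hat.th K _ G = G * Y) (hG1 : G - 1 ∈ Hat.Lo _ _ 1)
    (hGt : Hat.th K _ Gt = Gt * T) (hGt1 : Gt - 1 ∈ Hat.Lo _ _ 1) (y : Hat K N) :
    G * Hat.map h y = Hat.map h (Hat.act K N Gt y) * G := by
  let D : Hat K N →ₗ[K] Hat K (Module.End K E) :=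
    (Hat.hat2 (LinearMap.mul K _) G ∘ₗ Hat.map h -
      (Hat.hat2 (LinearMap.mul K _)).flip G ∘ₗ Hat.map h ∘ₗ Hat.act K N Gt).restrictScalars K
  have hD : ∀ y, D y = G * Hat.map h y - Hat.map h (Hat.act K N Gt y) * G := fun _ => rfl
  refine sub_eq_zero.mp (lin_unique (D := D) (fun k y hy => ?_) (fun n ih k y hy => ?_) y)
  · have : D y = (G - 1) * Hat.map h y - Hat.map h (Hat.act K N (Gt - 1) y) * G -
        Hat.map h y * (G - 1) := by
      rw [hD, map_sub, map_one, LinearMap.sub_apply, map_sub, Module.End.one_apply]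
      simp only [sub_mul, mul_sub, one_mul, mul_one]
      abel
    rw [this]
    refine sub_mem (sub_mem ?_ ?_) (Hat.mul_Lo (Hat.map_Lo _ hy) hG1)
    · exact add_comm k 1 ▸ Hat.mul_Lo hG1 (Hat.map_Lo _ hy)
    · simpa [add_comm] using Hat.mul_Lo (Hat.map_Lo h (act_Lo hGt1 hy)) (Lo_zero hG1)
  · have e := isQ_hat' H y
    have : Hat.th K _ (D y) - D (Hat.th K N y) = D y * Y + D (Hat.act K N T y) := by
      simp only [hD, map_sub, Hat.th_mul, hG, Hat.th_map, th_act, hGt, map_add, map_mul,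
        Module.End.mul_apply, ← e, sub_mul, mul_sub, add_mul, mul_assoc]
      abel
    rw [this]
    exact add_mem (Hat.mul_Lo (ih k y hy) hY)
      (Hat.Lo_mono (by omega) (ih _ _ (act_Lo hT hy)))

lemma zA_sol {Z : Hat K (E →ₗ[K] K)} {Y G : Hat K (Module.End K E)} (hZ : Z ∈ Hat.Lo _ _ 0)
    (hY : Y ∈ Hat.Lo _ _ 1)
    (e : ∀ (m : ℕ) x, (m : K) * Z.co m x = ∑ q ∈ antidiagonal m, Z.co q.1 (Y.co q.2 x))
    (hG : Hat.th K _ G = G * Y) (hG1 : G - 1 ∈ Hat.Lo _ _ 1) (x : Hat K E) :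
    zA Z x = zA (Hat.single K 0 (Z.co 0)) (Hat.act K E G x) := by
  let β : (E →ₗ[K] K) →ₗ[K] Module.End K E →ₗ[K] E →ₗ[K] K := LinearMap.llcomp K E E K
  have a1 : Hat.th K _ Z = Hat.hat2 β Z Y := by
    have hY0 := Hat.Lo_mono zero_le_one hY
    refine Hat.ext_nat (th_Lo hZ) (by simpa using Hat.hat2_Lo β hZ hY0) fun m => ?_
    ext x
    rw [Hat.co_th, LinearMap.smul_apply, smul_eq_mul, Int.cast_natCast, e, Hat.hat2_def,
      Hat.co_cv _ hZ hY0, LinearMap.sum_apply]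
    refine sum_nbij' (fun z => (z.1 : ℤ)) (fun i => (i.toNat, m - i.toNat)) ?_ ?_ ?_ ?_ ?_
    · rintro ⟨i, j⟩; simp only [mem_antidiagonal, mem_Icc]; omega
    · intro i; simp only [mem_antidiagonal, mem_Icc]; omega
    · rintro ⟨i, j⟩ hij
      obtain rfl := mem_antidiagonal.mp hij
      simp
    · intro i; simp only [mem_Icc]; omega
    · rintro ⟨i, j⟩ hij
      obtain rfl := mem_antidiagonal.mp hij
      simp [β]
  have a2 : ∀ (Z : Hat K (E →ₗ[K] K)) X Y, Hat.hat2 β (Hat.hat2 β Z X) Y = Hat.hat2 β Z (X * Y) :=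
    fun Z X Y => Hat.hat2_assoc (β1 := β) (β2 := β) (β3 := β)
      (β4 := LinearMap.mul K (Module.End K E)) (fun _ _ _ => rfl) Z X Y
  have a3 : Z - Hat.hat2 β (Hat.single K 0 (Z.co 0)) G = 0 := by
    refine Hat.ode_unique (fun n hn => ?_) fun n hn => ?_
    · have := hG1 n hn
      rw [Hat.co_sub, sub_eq_zero] at this
      rw [Hat.co_sub, Hat.co_hat2_single_left, sub_zero, this, Hat.one_def, Hat.co_single]
      split_ifs with h
      · rw [h]; exact sub_self _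
      · rw [hZ n (by omega), map_zero, sub_zero]
    · rw [map_sub, Hat.th_hat2, Hat.th_cst, map_zero, LinearMap.zero_apply, zero_add, a1, hG, ← a2,
        ← LinearMap.sub_apply, ← map_sub]
      exact Hat.hat2_Lo β hn hY
  rw [zA_act]
  exact congrArg (zA · x) (sub_eq_zero.mp a3)

lemma conj_D {D z : A} {g α : Hat K A} (hα : α ∈ Hat.Lo _ _ 1) (hg : Hat.th K A g = g * -α)
    (hg1 : g - 1 ∈ Hat.Lo _ _ 1) (hz : Hat.C K z * g = g * Hat.C K z)
    (h : Hat.C K D * α - α * Hat.C K D = Hat.C K z * Hat.th K A α) :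
    Hat.C K D * g = g * (Hat.C K D - Hat.C K z * α) := by
  have : Hat.C K D * g - g * Hat.C K D - Hat.C K z * Hat.th K A g = 0 := by
    refine sol_unique (neg_mem hα) ?_ ?_
    · have e : Hat.C K D * g - g * Hat.C K D - Hat.C K z * Hat.th K A g = Hat.C K D * (g - 1) -
          (g - 1) * Hat.C K D - Hat.C K z * Hat.th K A (g - 1) := by
        rw [map_sub, ← map_one (Hat.C K), th_C, map_one]; noncomm_ring
      rw [e]
      exact sub_mem (sub_mem (C_mul_Lo _ hg1) (mul_C_Lo _ hg1)) (C_mul_Lo _ (th_Lo hg1))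
    · have e : Hat.C K z * (g * Hat.th K A α) = g * (Hat.C K D * α - α * Hat.C K D) := by
        rw [h, ← mul_assoc, hz, mul_assoc]
      simp only [map_sub, th_C, hg, Hat.th_mul, map_neg, mul_neg, mul_add, e, neg_mul]
      noncomm_ring
  rw [hg, ← mul_assoc, hz] at this
  linear_combination (norm := noncomm_ring) this

lemma itw_gen {h : N →ₗ[K] Module.End K E} {Y G : Hat K (Module.End K E)}
    {T U U0 Γ α : Hat K (Module.End K N)} (H : ∀ n, IsQ h (Y.co n) (T.co n))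
    (hY : Y ∈ Hat.Lo _ _ 1) (hT : T ∈ Hat.Lo _ _ 1) (hG : Hat.th K _ G = G * Y)
    (hG1 : G - 1 ∈ Hat.Lo _ _ 1) (hα : α ∈ Hat.Lo _ _ 1) (hU0 : U0 ∈ Hat.Lo _ _ 0)
    (hU : U - U0 ∈ Hat.Lo _ _ 1) (h0 : Hat.th K _ U0 = 0) (e : T * U + Hat.th K _ U = U * α)
    (hΓ : Hat.th K _ Γ = Γ * α) (hΓ1 : Γ - 1 ∈ Hat.Lo _ _ 1) :
    Itw (hatR h ∘ₗ Hat.act K N U) (hatR h ∘ₗ Hat.act K N U0) (Hat.act K N Γ) (Hat.act K E G) := by
  obtain ⟨Gt, hGt, hGt1⟩ := exists_sol hT
  have a1 : Gt * U - U0 * Γ = 0 := by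
    refine sol_unique hα ?_ ?_
    · have : Gt * U - U0 * Γ = (Gt - 1) * U + (U - U0) - U0 * (Γ - 1) := by
        simp only [sub_mul, mul_sub, one_mul, mul_one]
        abel
      have hU' : U ∈ Hat.Lo _ _ 0 := by simpa using add_mem (Hat.Lo_mono zero_le_one hU) hU0
      rw [this]
      exact sub_mem (add_mem (Hat.mul_Lo hGt1 hU') hU) (Hat.mul_Lo hU0 hΓ1)
    · rw [map_sub, Hat.th_mul, Hat.th_mul, hGt, h0, hΓ, mul_assoc, ← mul_add, e, sub_mul, zero_mul,
        zero_add, mul_assoc, mul_assoc]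
  intro y
  rw [LinearMap.comp_apply, LinearMap.comp_apply, hatR_apply, hatR_apply, ← Module.End.mul_eq_comp,
    ← Module.End.mul_eq_comp, ← map_mul, ← map_mul, egorov H hY hT hG hG1 hGt hGt1,
    ← Module.End.mul_apply, ← Module.End.mul_apply, ← map_mul, ← map_mul, sub_eq_zero.mp a1]

omit [Algebra ℚ K] in
lemma kill_C {h : N →ₗ[K] Module.End K E} {X : Module.End K E} {T l U : Module.End K N}
    (H : IsQ h X T) (e : T * U = U * l) {Γ : Type*} {Z : Γ → E →ₗ[K] K}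
    (hZ : ∀ β x, Z β (X x) = 0) : Kill (hatR h ∘ₗ Hat.act K N (Hat.C K U))
      (LinearMap.pi fun β => zA (Hat.single K 0 (Z β))) (Hat.act K N (Hat.C K l)) := by
  refine ⟨Hat.act K E (Hat.C K X), fun y => ?_, ?_⟩
  · rw [LinearMap.comp_apply, LinearMap.comp_apply, isQ_hat (A := Hat.C K T) fun n => ?_,
      ← Module.End.mul_apply, ← Module.End.mul_apply (Hat.act K N _), ← map_mul, ← map_mul,
      ← map_mul, ← map_mul, e]
    simp only [Hat.C_apply, Hat.co_single]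
    split_ifs
    exacts [H, IsQ.zero]
  · ext x β n
    simp [zA, Hat.act_C, Hat.co_hat2_single_left, hZ]

end gen

lemma ring_id {R : Type*} [Ring R] {P M a S B B' : R} (h1 : P + M = 1) (hM : M * M = M)
    (hS : S * M = M * S) (hB : B * M = M * B) (hBB : B' * B = 1) (ha : a * B = B * a)
    (hSB : S * B = B * S) :
    -(P * (a + S) * P + P * (a * B') * M + M * (a * B) * P - M * (S - a) * M) * (P + M * B) +
      M * -(S * B + S * B) = (P + M * B) * -(a + S) := by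
  obtain rfl : P = 1 - M := eq_sub_of_add_eq h1
  have e3 : ∀ x, M * (B * x) = B * (M * x) := fun x => by rw [← mul_assoc, ← hB, mul_assoc]
  have e4 : ∀ x, B' * (B * x) = x := fun x => by rw [← mul_assoc, hBB, one_mul]
  have e5 : ∀ x, a * (B * x) = B * (a * x) := fun x => by rw [← mul_assoc, ha, mul_assoc]
  have e6 : ∀ x, S * (B * x) = B * (S * x) := fun x => by rw [← mul_assoc, hSB, mul_assoc]
  simp only [mul_add, add_mul, mul_sub, sub_mul, neg_mul, mul_neg, mul_assoc, one_mul, mul_one,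
    e3, e4, e5, e6, hM, ← hS, ← hB, ha, hSB]
  abel

section loop

variable {K : Type*} [CommRing K] {H : Type*} [AddCommGroup H] [Module K H]
  {p : Par K H} {ι : Type*} [Fintype ι] {fr : Frame p ι} {C : Type*} [CommRing C] [Algebra K C]

variable (C) in
/-- Odd Laurent polynomials. -/
def Od : AddSubgroup (LaurentPolynomial C) where
  carrier := {x | ∀ k, Even k → x.coeff k = 0}
  add_mem' hx hy k hk := by simp [hx k hk, hy k hk]
  zero_mem' k _ := by simp
  neg_mem' hx k hk := by simp [hx k hk]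

lemma Od_mul {x : LaurentPolynomial C} (hx : x ∈ Od C) (c : C) :
    x * LaurentPolynomial.C c ∈ Od C := fun k hk =>
  (AddMonoidAlgebra.coeff_mul_single_zero x c k).trans (by rw [hx k hk, zero_mul])

lemma quad_opL (ac : Act fr C) {x : LaurentPolynomial C} (hx : x ∈ Od C) :
    fr.Quad (opL ac.act x) := by
  rw [← x.sum_coeff_single, Finsupp.sum, map_sum]
  refine Frame.Quad.sum _ fun k hk => ?_
  have : sg K k = -1 := by
    rw [sg, Int.negOnePow_odd _ (Int.not_even_iff_odd.mp fun h =>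
      Finsupp.mem_support_iff.mp hk (hx k h))]
    simp
  rw [LaurentPolynomial.single_eq_C_mul_T, map_mul, opL_C, opL_T]
  refine Frame.Quad.of_up ((ac.ev _).cst.mul (isEv_zp p k)) ?_ ((up_cst _).mul (up_zp k))
  refine fun y y' => ((Frame.adj_cst (ac.adj (x.coeff k))).mul (Frame.adj_zp k) y y').trans
    (congrArg _ ?_)
  ext j
  simp [this, zp_apply]

lemma quad_cst_mul {e : Module.End K H} (h1 : IsEv p p e) (h2 : ∀ v w, fr.η (e v) w = fr.η v (e w))
    {A : Module.End K (LL H)} (hA : fr.Quad A) (h : cst e * A = A * cst e) :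
    fr.Quad (cst e * A) := by
  refine ⟨h1.cst.mul hA.ev, ?_, hA.fin.imp fun N hN m hm v => ?_⟩
  · exact fun y y' => ((Frame.adj_cst h2).mul hA.adj y y').trans (congrArg _ (by simp [h]))
  · ext j
    have := DFunLike.congr_fun (hN m hm v) j
    rw [pos_apply] at this
    simp [this]

lemma blk4_mul {l β : Module.End K (LL H)} {u w : K} (h : u * w = 1) (e1 : β * l = w • l)
    (e2 : l * β = w • l) (e3 : β * pm K H = pm K H * β) :
    blk4 l (-l) (u • l) (w • l) * (pp K H + pm K H * β) = (pp K H + pm K H * β) * l := by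
  refine LinearMap.ext fun y => ?_
  have a1 : β (l y) = w • l y := LinearMap.congr_fun e1 y
  have a2 : l (β (pm K H y)) = w • l (pm K H y) := LinearMap.congr_fun e2 _
  have a3 : β (pm K H y) = pm K H (β y) := LinearMap.congr_fun e3 y
  have a4 : l y = l (pp K H y) + l (pm K H y) := by
    rw [← map_add, ← LinearMap.add_apply, pp_add_pm, Module.End.one_apply]
  simp only [blk4, Module.End.mul_apply, LinearMap.add_apply, LinearMap.sub_apply, map_add,
    pp_of_neg (pos_pm _), pm_of_neg (pos_pm _), pp_apply y, pp_up, pm_up, a1, map_zero,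
    LinearMap.smul_apply, LinearMap.neg_apply, map_neg, map_smul]
  rw [← pp_apply, ← a3, a2, a4]
  simp only [map_add, map_smul, smul_smul, h, one_smul, smul_add]
  abel

variable [Algebra ℚ K] {A : Module.End K (LL H)}

lemma q0_smul (c : K) : fr.q0 (c • A) = c • fr.q0 A := by
  rw [Frame.q0_eq, Frame.q0_eq, ← map_smul]
  exact congrArg _ (LinearMap.ext fun v => by simp [Frame.blk])

lemma qm_smul (hA : fr.Quad A) (c : K) : fr.qm (c • A) = c • fr.qm A := by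
  rw [(hA.smul c).qm_eq, hA.qm_eq, ← map_smul]
  exact congrArg _ (Subtype.ext (LinearMap.ext fun v => by
    simp [(hA.smul c).qf_val, hA.qf_val]))

lemma q1_smul (hA : fr.Quad A) (c : K) : fr.q1 (c • A) = c • fr.q1 A := by
  have := hA.qz_smul c
  rw [Frame.qz_eq, Frame.qz_eq, qm_smul hA, smul_add, smul_add, q0_smul] at this
  exact add_left_cancel this

end loop

end QrrA

open QrrA

section abstract

variable {K : Type} [CommRing K] {H : Type} [AddCommGroup H] [Module K H]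
  {p : Par K H} {ι : Type} [Fintype ι] {fr : Frame p ι} {C : Type} [CommRing C] [Algebra K C]
  {σ : Type} [Fintype σ] [DecidableEq σ]

lemma quad_odd (ac : Act fr C) {x : LaurentPolynomial C} (hx : ∀ k, Even k → x.coeff k = 0)
    (i : σ) : (fr.pi σ).Quad (cst (EU K H i i) * opL ((dg σ).comp ac.act) x) :=
  quad_cst_mul (isEv_EU i i) (adj_EU i i) (quad_opL (ac.pi σ) hx)
    ((units_opL ac.act).comm i i x).symm

/-- Diagonal matrices of series. -/
noncomputable def dM (ac : Act fr C) : (σ → RH K C) →+* Hat K (Module.End K (LL (σ → H))) :=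
  (matH ac σ).comp (Matrix.diagonalRingHom σ _)

variable (ac : Act fr C)

lemma dM_apply (x : σ → RH K C) : dM ac x = ∑ i, EH K H i i * opH ac σ (x i) :=
  matH_diagonal ac x

lemma dM_Lo {x : σ → RH K C} {n : ℤ} (h : ∀ i, x i ∈ Hat.Lo _ _ n) : dM ac x ∈ Hat.Lo _ _ n := by
  rw [dM_apply]
  exact sum_mem fun i _ => C_mul_Lo _ (opH_Lo ac σ (h i))

lemma dM_th (x : σ → RH K C) : Hat.th K _ (dM ac x) = dM ac fun i => Hat.th K _ (x i) := by
  simp only [dM_apply, map_sum, EH, th_C_mul, opH_th]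

lemma dM_co (x : σ → RH K C) (n : ℤ) :
    (dM ac x).co n = ∑ i, cst (EU K H i i) * opL ((dg σ).comp ac.act) ((x i).co n) := by
  rw [dM_apply, Hat.co_sum]
  exact sum_congr rfl fun i _ => by rw [EH, Hat.C_apply, Hat.co_single_mul, sub_zero]; rfl

lemma dM_comm (x y : σ → RH K C) : dM ac x * dM ac y = dM ac y * dM ac x := by
  rw [← map_mul, ← map_mul, mul_comm]

lemma dM_zH (n : ℤ) : dM ac (fun _ : σ => zH K C n) = Hat.C K (zp K _ n) :=
  (matH_scalar ac _).trans (opH_zH ac σ n)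

lemma dM_single (i : σ) : dM ac (Pi.single i 1) = EH K H i i := by
  rw [dM_apply, sum_eq_single i (fun j _ hj => by simp [hj]) (by simp)]
  simp

lemma quad_dM {x : σ → RH K C} {n : ℤ} (h : ∀ i, (x i).co n ∈ Od C) :
    (fr.pi σ).Quad ((dM ac x).co n) := by
  rw [dM_co]
  exact Frame.Quad.sum _ fun i _ => quad_odd ac (h i) i

lemma dH_co (b : σ → Hat K C) (n : ℤ) :
    (dH ac b).co n = cst (actM ac.act (Matrix.diagonal fun i => (b i).co n)) := by
  refine (dM_co ac _ n).trans ?_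
  rw [actM, Units.hom_diagonal, map_sum]
  exact sum_congr rfl fun i _ => by rw [map_mul]; exact congrArg _ (opL_C _ _)

lemma dH_pm (b : σ → Hat K C) : dH ac b * Hat.C K (pm K _) = Hat.C K (pm K _) * dH ac b :=
  comm_C fun n => by rw [dH_co, cst_pm]

lemma dH_adj (b : σ → Hat K C) (n : ℤ) : (fr.pi σ).Adj ((dH ac b).co n) ((dH ac b).co n) := by
  rw [dH_co]
  exact Frame.adj_cst fun v w => by rw [adj_actM, Matrix.diagonal_transpose]

lemma dH_alg (w : σ → K) : dH ac (fun i => algebraMap K _ (w i)) =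
    Hat.C K (∑ i, w i • cst (EU K H i i)) := by
  refine (dM_apply ac _).trans ?_
  rw [map_sum]
  refine sum_congr rfl fun i _ => ?_
  beta_reduce
  rw [Hat.algebraMap_co, mapA_C, opH_C, EH, ← map_mul, AlgHom.commutes, AlgHom.commutes,
    ← Algebra.commutes, ← Algebra.smul_def]

variable [Algebra ℚ K] (d : VD fr)

lemma EU_D (i j : σ) : Commute (cst (EU K H i j)) (vdPi σ d).D := by
  have e : ∀ a, Commute (cst (EU K H i j)) (cst (dg σ a)) := fun a =>
    (show Commute _ _ from (dg_EU a i j).symm).map cst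
  exact ((cst_zp _ _).mul_right (((cst_eu _).add_right
    ((Commute.one_right _).smul_right _)).add_right (e _))).add_right (e _)

lemma quad_ell_cmp (i : σ) (k : ℕ) : (fr.pi σ).Quad (cst (EU K H i i) * (vdPi σ d).ell k) :=
  quad_cst_mul (isEv_EU i i) (adj_EU i i) (VD.quad_ell _ k)
    ((cst_zp _ _).mul_right ((EU_D d i i).pow_right k))

lemma kill_zero {u : σ → Kˣ} {Γ : Type} {Z : Γ → S ((p.pi σ).fs ℕ) →ₗ[K] K}
    {l : Module.End K (LL (σ → H))} {i : σ} (hl : (fr.pi σ).Quad (cst (EU K H i i) * l))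
    (h : cst (EU K H i i) * l = l * cst (EU K H i i)) {c : K}
    (vir : ∀ β x, Z β ((fr.pi σ).q0 (cst (EU K H i i) * l) x + c • x +
      (((u i)⁻¹ : Kˣ) : K) • (fr.pi σ).qm (cst (EU K H i i) * l) x +
      (u i : K) • (fr.pi σ).q1 (cst (EU K H i i) * l) x) = 0) :
    Kill (hA (fr.pi σ) (dH ac fun j => algebraMap K _ (((u j)⁻¹ : Kˣ) : K)))
      (LinearMap.pi fun β => zA (Hat.single K 0 (Z β)))
      (Hat.act K _ (Hat.C K (cst (EU K H i i) * l))) := by
  set w : σ → K := fun j => (((u j)⁻¹ : Kˣ) : K)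
  have q1 := hl.smul (u i : K)
  have q2 := hl.smul (w i)
  have e1 : (∑ j, w j • cst (EU K H j j)) * cst (EU K H i i) = w i • cst (EU K H i i) := by
    simp [sum_mul, ← map_mul, EU_mul, apply_ite]
  have e2 : cst (EU K H i i) * ∑ j, w j • cst (EU K H j j) = w i • cst (EU K H i i) := by
    simp [mul_sum, ← map_mul, EU_mul, apply_ite]
  rw [hA, dH_alg, bt, ← map_mul, ← map_add]
  refine kill_C ((quad_blk4 hl.adj hl.ev hl.ev.neg q1 q2).isQ.add_const c)
    (blk4_mul (u i).mul_inv ?_ ?_ ?_) fun β x => ?_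
  · rw [← mul_assoc, e1, smul_mul_assoc]
  · rw [h, mul_assoc, e2, mul_smul_comm]
  · simp only [sum_mul, mul_sum, smul_mul_assoc, mul_smul_comm, cst_pm]
  · rw [qz_blk4 hl.adj hl.ev hl.ev.neg q1 q2, qm_smul hl, q1_smul hl, ← vir β x]
    simp only [LinearMap.add_apply, LinearMap.smul_apply, Module.End.one_apply]
    exact congrArg _ (by abel)

lemma dM_ellT {𝔞 g : σ → RH K C} (ha : ∀ i, 𝔞 i ∈ Hat.Lo _ _ 1)
    (hΓ : Hat.th K _ (dM ac g) = dM ac g * -dM ac 𝔞) (hΓ1 : dM ac g - 1 ∈ Hat.Lo _ _ 1)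
    (hom : ∀ i, Hat.C K (vdPi σ d).D * opH ac σ (𝔞 i) - opH ac σ (𝔞 i) * Hat.C K (vdPi σ d).D =
      Hat.C K (zp K _ 1) * opH ac σ (Hat.th K _ (𝔞 i))) (i : σ) (k : ℕ) :
    dM ac g * ellT ac d 𝔞 i k = Hat.C K (cst (EU K H i i) * (vdPi σ d).ell k) * dM ac g := by
  have hD : Hat.C K (vdPi σ d).D * dM ac g =
      dM ac g * (Hat.C K (vdPi σ d).D - Hat.C K (zp K _ 1) * dM ac 𝔞) := by
    refine conj_D (dM_Lo ac ha) hΓ hΓ1 (by rw [← dM_zH ac, dM_comm]) ?_
    rw [dM_th, dM_apply, dM_apply, mul_sum, sum_mul, mul_sum, ← sum_sub_distrib]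
    refine sum_congr rfl fun j _ => ?_
    have e1 : Hat.C K (vdPi σ d).D * EH K H j j = EH K H j j * Hat.C K (vdPi σ d).D :=
      ((EU_D d j j).map (Hat.C K)).symm
    have e2 : Hat.C K (zp K _ 1) * EH K H j j = EH K H j j * Hat.C K (zp K _ 1) :=
      ((cst_zp _ _).map (Hat.C K)).symm
    rw [← mul_assoc, ← mul_assoc, e1, e2, mul_assoc, mul_assoc, mul_assoc, ← mul_sub, hom]
  have e1 := (SemiconjBy.pow_right (show SemiconjBy _ _ _ from hD.symm) k).eq
  have e2 : dM ac g * (EH K H i i * Hat.C K (zp K _ (-1))) =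
      EH K H i i * Hat.C K (zp K _ (-1)) * dM ac g := by
    rw [← dM_zH ac, ← dM_single ac, ← map_mul, dM_comm]
  rw [VD.ell, ← mul_assoc, map_mul, map_mul, map_pow, mul_assoc, ← e1, ← mul_assoc, ← EH, ← e2,
    mul_assoc]
  rfl

theorem twVir_abs (ac : Act fr C) (d : VD fr) {𝔞 𝔞' : σ → RH K C} {s b b' : σ → Hat K C}
    {u : σ → Kˣ} (h𝔞 : ∀ i, 𝔞 i = 𝔞' i + Hat.mapA (lC K C) (s i))
    (hlo : ∀ i, 𝔞' i ∈ Hat.Lo _ _ 1) (hodd : ∀ i n k, Even k → ((𝔞' i).co n).coeff k = 0)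
    (hs : ∀ i, s i ∈ Hat.Lo _ _ 1) (hbb : ∀ i, b i * b' i = 1) (hb' : ∀ i, b' i ∈ Hat.Lo _ _ 0)
    (hb : ∀ i, b i - algebraMap K _ ((u i)⁻¹ : Kˣ) ∈ Hat.Lo _ _ 1)
    (hth : ∀ i, Hat.th K _ (b i) = -(2 * s i * b i))
    (hom : ∀ i, Hat.C K (vdPi σ d).D * opH ac σ (𝔞 i) - opH ac σ (𝔞 i) * Hat.C K (vdPi σ d).D =
      Hat.C K (zp K _ 1) * opH ac σ (Hat.th K _ (𝔞 i)))
    {Γ : Type} {Z : Γ → Hat K (S ((p.pi σ).fs ℕ) →ₗ[K] K)} (hZ : ∀ β, Z β ∈ Hat.Lo _ _ 0)
    (vir : ∀ i k, ∃ c : K, ∀ β x, (Z β).co 0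
      ((fr.pi σ).q0 (cst (EU K H i i) * (vdPi σ d).ell k) x + c • x +
        (((u i)⁻¹ : Kˣ) : K) • (fr.pi σ).qm (cst (EU K H i i) * (vdPi σ d).ell k) x +
        (u i : K) • (fr.pi σ).q1 (cst (EU K H i i) * (vdPi σ d).ell k) x) = 0)
    {κ : ℕ → K} (hκ : κ 0 = 0)
    (qrr : ∀ β (m : ℕ) x, (m : K) * (Z β).co m x = ∑ q ∈ antidiagonal m, (Z β).co q.1
      (κ q.2 • x - (fr.pi σ).q0 ((matH ac σ (Matrix.diagonal 𝔞)).co q.2) x -
        (fr.pi σ).q1 ((matH ac σ (Matrix.diagonal 𝔞') * dH ac b').co q.2) x -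
        (fr.pi σ).qm ((matH ac σ (Matrix.diagonal 𝔞') * dH ac b).co q.2) x))
    (i : σ) (k : ℕ) :
    Kill (hA (fr.pi σ) (dH ac b)) (LinearMap.pi fun β => zA (Z β))
      (Hat.act K _ (ellT ac d 𝔞 i k)) := by
  let L : (σ → Hat K C) → σ → RH K C := fun b i => Hat.mapA (lC K C) (b i)
  have hL : ∀ b, dH ac b = dM ac (L b) := fun _ => rfl
  have lo : ∀ {b : σ → Hat K C} {n}, (∀ i, b i ∈ Hat.Lo _ _ n) → dH ac b ∈ Hat.Lo _ _ n :=
    fun h => dM_Lo ac fun i => Hat.map_Lo _ (h i)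
  have h0 : ∀ i, algebraMap K (Hat K C) ((u i)⁻¹ : Kˣ) ∈ Hat.Lo _ _ 0 := fun i =>
    Hat.single_Lo _ _
  have hb0 : ∀ i, b i ∈ Hat.Lo _ _ 0 := fun i => by
    simpa using add_mem (Hat.Lo_mono zero_le_one (hb i)) (h0 i)
  have ha : ∀ i, 𝔞 i ∈ Hat.Lo _ _ 1 := fun i => h𝔞 i ▸ add_mem (hlo i) (Hat.map_Lo _ (hs i))
  have ea : dM ac 𝔞 = dM ac 𝔞' + dH ac s := by
    rw [hL, ← map_add]; exact congrArg _ (funext h𝔞)
  choose g hg hg1 using fun i => exists_sol (neg_mem (ha i))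
  have hΓ : Hat.th K _ (dM ac g) = dM ac g * -dM ac 𝔞 := by
    rw [dM_th, ← map_neg, ← map_mul]; exact congrArg _ (funext hg)
  have hΓ1 : dM ac g - 1 ∈ Hat.Lo _ _ 1 := by
    rw [← map_one (dM ac), ← map_sub]; exact dM_Lo ac hg1
  have od : ∀ (b : σ → Hat K C) n, (fr.pi σ).Quad ((dM ac 𝔞' * dH ac b).co n) := fun b n => by
    rw [hL, ← map_mul]
    exact quad_dM ac fun i => Hat.cv_mem Hat.bi_mul fun j => Od_mul (hodd i j) _
  have adj : ∀ n, (fr.pi σ).Adj ((dM ac 𝔞).co n) ((dH ac s - dM ac 𝔞').co n) := fun n => by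
    rw [ea, sub_eq_neg_add]
    exact (quad_dM ac fun i => hodd i n).adj.add (dH_adj ac s n)
  have ev1 : ∀ n, IsEv _ _ ((dM ac 𝔞).co n) := matH_ev ac _
  have ev2 : ∀ n, IsEv _ _ ((dH ac s - dM ac 𝔞').co n) := fun n =>
    (matH_ev ac _ n).sub (matH_ev ac _ n)
  let A4 : Hat K (Module.End K (LL (σ → H))) :=
    Hat.C K (pp K _) * dM ac 𝔞 * Hat.C K (pp K _) +
      Hat.C K (pp K _) * (dM ac 𝔞' * dH ac b') * Hat.C K (pm K _) +
      Hat.C K (pm K _) * (dM ac 𝔞' * dH ac b) * Hat.C K (pp K _) -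
      Hat.C K (pm K _) * (dH ac s - dM ac 𝔞') * Hat.C K (pm K _)
  have c4 : ∀ n, A4.co n = blk4 ((dM ac 𝔞).co n) ((dH ac s - dM ac 𝔞').co n)
      ((dM ac 𝔞' * dH ac b').co n) ((dM ac 𝔞' * dH ac b).co n) := fun n => by
    simp only [A4, Hat.co_add, Hat.co_sub _ (_ * _), co_C_mul_C, blk4]
  have l4 : A4 ∈ Hat.Lo _ _ 1 :=
    sub_mem (add_mem (add_mem (mul_C_Lo _ (C_mul_Lo _ (dM_Lo ac ha)))
      (mul_C_Lo _ (C_mul_Lo _ (Hat.mul_Lo (dM_Lo ac hlo) (lo hb')))))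
      (mul_C_Lo _ (C_mul_Lo _ (Hat.mul_Lo (dM_Lo ac hlo) (lo hb0)))))
      (mul_C_Lo _ (C_mul_Lo _ (sub_mem (lo hs) (dM_Lo ac hlo))))
  have q4 : ∀ n, (fr.pi σ).Quad (A4.co n) := fun n =>
    c4 n ▸ quad_blk4 (adj n) (ev1 n) (ev2 n) (od b' n) (od b n)
  have z4 : ∀ n < 1, κ n.toNat • 1 - (fr.pi σ).qz (A4.co n) = 0 := fun n hn => by
    have := (q4 n).qz_smul 0
    rw [zero_smul, zero_smul] at this
    rw [l4 n hn, this, show n.toNat = 0 by omega, hκ, zero_smul, sub_zero]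
  let Y : Hat K (Module.End K (S ((p.pi σ).fs ℕ))) :=
    ⟨fun n => κ n.toNat • 1 - (fr.pi σ).qz (A4.co n), 1, z4⟩
  have hY : Y ∈ Hat.Lo _ _ 1 := z4
  obtain ⟨G, hG, hG1⟩ := exists_sol hY
  obtain ⟨G', i1, i2, -⟩ := Hat.exists_inv hG1 ⊤ fun _ => trivial
  have itw : Itw (hA (fr.pi σ) (dH ac b))
      (hA (fr.pi σ) (dH ac fun j => algebraMap K _ (((u j)⁻¹ : Kˣ) : K)))
      (Hat.act K _ (dM ac g)) (Hat.act K _ G) := by
    refine itw_gen (T := -A4) (fun n => ?_) hY (neg_mem l4) hG hG1 (neg_mem (dM_Lo ac ha))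
      (add_mem (Hat.single_Lo _ _) (C_mul_Lo _ (lo h0))) ?_ ?_ ?_ hΓ hΓ1
    · simpa using (IsQ.const (κ n.toNat)).sub (q4 n).isQ
    · rw [bt, bt, add_sub_add_left_eq_sub, ← mul_sub, hL, hL, ← map_sub]
      exact C_mul_Lo _ (dM_Lo ac fun i => (map_sub (Hat.mapA (lC K C)) _ _ ▸
        Hat.map_Lo _ (hb i) : Hat.mapA (lC K C) _ - Hat.mapA (lC K C) _ ∈ _))
    · rw [dH_alg, bt, ← map_mul, ← map_add, th_C]
    · have e : Hat.th K _ (dH ac b) = -(dH ac s * dH ac b + dH ac s * dH ac b) := by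
        rw [hL, hL, dM_th, ← map_mul, ← map_add, ← map_neg]
        refine congrArg _ (funext fun i => (Hat.th_map _ _).trans ?_)
        change Hat.mapA (lC K C) _ = _
        rw [hth, mul_assoc, two_mul]
        simp [L]
      simp only [A4]
      rw [bt, map_add, th_C, th_C_mul, zero_add, e, ea]
      refine ring_id ?_ ?_ (dH_pm ac s) (dH_pm ac b) ?_ (dM_comm ac _ _) (dM_comm ac _ _)
      · rw [← map_add, pp_add_pm, map_one]
      · rw [← map_mul, pm_pm]
      · rw [hL, hL, ← map_mul, ← map_one (dM ac)]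
        exact congrArg _ (funext fun i => by simp [L, ← map_mul, mul_comm, hbb])
  obtain ⟨c, hc⟩ := vir i k
  have := (kill_zero ac (quad_ell_cmp d i k)
    ((cst_zp _ _).mul_right ((EU_D d i i).pow_right k)) hc).conj itw
    (G' := Hat.act K _ G') (fun x => by rw [← Module.End.mul_apply, ← map_mul, i2]; simp)
    (fun x => by rw [← Module.End.mul_apply, ← map_mul, i1]; simp)
    (A' := Hat.act K _ (ellT ac d 𝔞 i k)) fun y => by
      rw [← Module.End.mul_apply, ← Module.End.mul_apply, ← map_mul, ← map_mul,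
        dM_ellT ac d ha hΓ hΓ1 hom]
  refine (LinearMap.ext fun x => funext fun β => ?_ : _ = LinearMap.pi fun β => zA (Z β)) ▸ this
  refine (zA_sol (hZ β) hY (fun m x => (qrr β m x).trans (sum_congr rfl fun q _ => ?_)) hG hG1
    x).symm
  simp only [Y, c4, qz_blk4 (adj _) (ev1 _) (ev2 _) (od b' _) (od b _), LinearMap.sub_apply,
    LinearMap.add_apply, LinearMap.smul_apply, Module.End.one_apply, Int.toNat_natCast]
  exact congrArg _ (by rw [sub_sub, sub_sub, add_comm (Frame.q1 _ _ _), add_assoc]; rfl)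

end abstract

end Vale.Agent.P269.B
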