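import Vale.Agent.P269.B.Iface
import Mathlib.Algebra.Polynomial.Laurent
import Mathlib.Algebra.MvPolynomial.CommRing

/-! The hypergeometric series of the fibre and the statement of their asymptotic expansion. -/

namespace Vale.Agent.P269.B

open Fock Finset

section nn

variable {B B' : Type*} [CommRing B] [CommRing B'] {σ : Type} [Fintype σ]

/-- The denominator of the term of degree `d`. -/
noncomputable def dn (ξ : B) (χ : σ → B) (z : B) (d : ℕ) : B :=
  ∏ j, ∏ m ∈ range d, (ξ + χ j - ((m : B) + 1) * z)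

/-- The term of degree `d` of `(ξ - z Q ∂_Q)^k I`. -/
noncomputable def nn (ξ : B) (χ : σ → B) (z : B) (k d : ℕ) : B :=
  (ξ - d * z) ^ k * Ring.inverse (dn ξ χ z d)

lemma map_inv {F : Type*} [FunLike F B B'] [RingHomClass F B B'] (f : F) {x : B} (h : IsUnit x) :
    f (Ring.inverse x) = Ring.inverse (f x) := by
  obtain ⟨u, rfl⟩ := h
  have e : f u * f ↑u⁻¹ = 1 := by rw [← map_mul, Units.mul_inv, map_one]
  rw [Ring.inverse_unit, ← mul_one (Ring.inverse _), ← e, ← mul_assoc,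
    Ring.inverse_mul_cancel _ (u.isUnit.map f), one_mul]

lemma map_dn {F : Type*} [FunLike F B B'] [RingHomClass F B B'] (f : F) (ξ : B) (χ : σ → B) (z : B)
    (d : ℕ) : f (dn ξ χ z d) = dn (f ξ) (fun j => f (χ j)) (f z) d := by simp [dn]

lemma map_nn {F : Type*} [FunLike F B B'] [RingHomClass F B B'] (f : F) {ξ : B} {χ : σ → B} {z : B}
    {d : ℕ} (h : IsUnit (dn ξ χ z d)) (k : ℕ) :
    f (nn ξ χ z k d) = nn (f ξ) (fun j => f (χ j)) (f z) k d := by
  rw [nn, nn, map_mul, map_inv f h, map_dn]; simp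

@[simp] lemma dn_zero (ξ : B) (χ : σ → B) (z : B) : dn ξ χ z 0 = 1 := by simp [dn]

lemma dn_succ (ξ : B) (χ : σ → B) (z : B) (d : ℕ) :
    dn ξ χ z (d + 1) = dn ξ χ z d * ∏ j, (ξ - ((d + 1 : ℕ) : B) * z + χ j) := by
  simp only [dn, prod_range_succ, prod_mul_distrib]
  congr 1
  exact prod_congr rfl fun j _ => by push_cast; ring

@[simp] lemma nn_zero (ξ : B) (χ : σ → B) (z : B) (k : ℕ) : nn ξ χ z k 0 = ξ ^ k := by simp [nn]

lemma nn_succ (ξ : B) (χ : σ → B) (z : B) (k d : ℕ) :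
    nn ξ χ z (k + 1) d = (ξ - d * z) * nn ξ χ z k d := by rw [nn, nn]; ring

end nn

/-- The Laurent polynomial in `z` behind `aK`. -/
noncomputable def aL {C : Type} [CommRing C] [Algebra ℂ C] {r : ℕ} (a : Fin (r + 1) → ℂ)
    (c : Fin (r + 1) → C) (T : ℕ → Prop) [DecidablePred T] (i : Fin (r + 1)) (k : ℕ) :
    LaurentPolynomial C :=
  if k = 0 then 0 else ∑ l ∈ univ.erase i, ∑ q ∈ antidiagonal (k + 1) with T q.1,
    ((-1) ^ k * k.factorial / (a l - a i) ^ k * (bernoulli q.1 : ℚ) /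
      (q.1.factorial * q.2.factorial) : ℂ) •
      (LaurentPolynomial.T (q.1 - 1) * LaurentPolynomial.C ((c l - c i) ^ q.2))

/-- The matrix of `z (k - r/2) + ∑ c + (r + 1) ξ ⋆`, a polynomial in `Q`. -/
noncomputable def mainM {C : Type} [CommRing C] [Algebra ℂ C] {r : ℕ} (c : Fin (r + 1) → C)
    (k' k : Fin (r + 1)) : Polynomial (LaurentPolynomial C) :=
  Polynomial.C ((if k' = k then (((k : ℕ) - r / 2 : ℂ) • LaurentPolynomial.T 1 +
      LaurentPolynomial.C (∑ l, c l)) else 0) +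
    ((r : ℂ) + 1) • LaurentPolynomial.C (xc c (k + 1) k')) +
  if (k' : ℕ) = 0 ∧ (k : ℕ) = r then ((r : ℂ) + 1) • Polynomial.X else 0

/-- Universal classes. -/
abbrev C0 (r : ℕ) : Type := MvPolynomial (Fin (r + 1)) ℂ

/-- Laurent polynomials in `z`. -/
abbrev L0 (r : ℕ) : Type := LaurentPolynomial (C0 r)

/-- Laurent series in `ε`. -/
abbrev R0 (r : ℕ) : Type := Hat ℂ (L0 r)

/-- Power series in `Q' = Q ε^(r+1)`. -/
abbrev RR (r : ℕ) : Type := PowerSeries (R0 r)

section univ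

variable {r : ℕ} (a : Fin (r + 1) → ℂ)

variable (r) in
/-- `ε^n`. -/
noncomputable def ez (n : ℤ) : R0 r := Hat.single ℂ n 1

variable (r) in
/-- `z^n`. -/
noncomputable def zz (n : ℤ) : R0 r := Hat.C ℂ (LaurentPolynomial.T n)

/-- `χ_j = a_j / ε + c_j`. -/
noncomputable def chi0 (j : Fin (r + 1)) : R0 r :=
  a j • ez r (-1) + Hat.C ℂ (LaurentPolynomial.C (MvPolynomial.X j) : L0 r)

/-- The hypergeometric series restricted to the component `i`. -/
noncomputable def n0 (i : Fin (r + 1)) (k : ℕ) : RR r :=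
  PowerSeries.mk fun d => ez r (-((r + 1) * d)) * nn (-chi0 a i) (chi0 a) (zz r 1) k d

/-- The Riemann-Roch series. -/
noncomputable def a0 (i : Fin (r + 1)) : R0 r :=
  Hat.ofPS ℂ (PowerSeries.mk fun k => aL a MvPolynomial.X (fun _ => True) i k)

/-- `ε ∂_ε` at fixed `Q'`. -/
noncomputable def thR (x : RR r) : RR r :=
  PowerSeries.mk fun d => Hat.th ℂ _ (PowerSeries.coeff d x)

variable (r) in
/-- Scalar series. -/
noncomputable def sc0 : PowerSeries ℂ →+* RR r := PowerSeries.map (algebraMap ℂ (R0 r))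

variable (r) in
/-- Polynomials in `t = 1 / ε` (outer variable) and `Q = Q' / ε^(r+1)` (inner variable). -/
noncomputable def phi : Polynomial (Polynomial (L0 r)) →+* RR r :=
  Polynomial.eval₂RingHom (Polynomial.eval₂RingHom (PowerSeries.C.comp (Hat.C ℂ))
    (PowerSeries.C (ez r (-(r + 1))) * PowerSeries.X)) (PowerSeries.C (ez r (-1)))

/-- The asymptotic expansion of the hypergeometric series. -/
def WKB (r : ℕ) : Prop :=
  ∀ a : Fin (r + 1) → ℂ, Function.Injective a → ∃ s u : Fin (r + 1) → PowerSeries ℂ,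
    (∀ i, PowerSeries.constantCoeff (u i) = 0) ∧
    (∀ (D : ℕ) (i k : Fin (r + 1)), ∀ d ≤ D, PowerSeries.coeff d
      ((∑ m ∈ range (D + 1), ((m.factorial : ℂ)⁻¹) •
        (sc0 r (u i) * PowerSeries.C (ez r (-1) * zz r (-1))) ^ m) * n0 a i k) ∈
      Hat.Lo ℂ (L0 r) (-(k : ℕ))) ∧
    ∀ K : ℤ, ∃ (N : ℕ) (s1 : Polynomial (Polynomial ℂ))
      (U1 : Fin (r + 1) → Fin (r + 1) → Polynomial (Polynomial (L0 r)))
      (ρ : Fin (r + 1) → Fin (r + 1) → RR r),
      (∀ (k' k : Fin (r + 1)) d, PowerSeries.coeff d (ρ k' k) ∈ Hat.Lo ℂ (L0 r) (K + (k' : ℕ) - (k : ℕ))) ∧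
      (∀ d, PowerSeries.coeff d (phi r (Polynomial.C (Polynomial.X ^ N) +
        Polynomial.X * s1.map (Polynomial.mapRingHom (algebraMap ℂ (L0 r))))) ∈
        Hat.Lo ℂ (L0 r) (-((r + 1) * N))) ∧
      ∀ i k : Fin (r + 1), ∑ k' : Fin (r + 1), n0 a i k' *
          phi r (Polynomial.C (Polynomial.X ^ N * mainM MvPolynomial.X k' k) +
            Polynomial.X * U1 k' k) =
        phi r (Polynomial.C (Polynomial.X ^ N) +
            Polynomial.X * s1.map (Polynomial.mapRingHom (algebraMap ℂ (L0 r)))) *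
          (PowerSeries.C (zz r 1) * (thR (n0 a i k) + ((k : ℕ) : RR r) * n0 a i k) +
            (PowerSeries.C (ez r (-1)) * sc0 r (s i) - PowerSeries.C (zz r 1 * a0 a i)) * n0 a i k +
            ∑ k' : Fin (r + 1), n0 a i k' * ρ k' k)

end univ

end Vale.Agent.P269.B
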