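import Vale.Agent.P269.B.HatQ
import Vale.Agent.P269.B.PF

/-! The expansion at `z = 0`: rings, embeddings, the twisted pairing. -/

namespace Vale.Agent.P269.B

open Fock Finset

variable {K : Type} [CommRing K] {H : Type} [AddCommGroup H] [Module K H]
  {p : Par K H} {ι : Type} [Fintype ι] {fr : Frame p ι} {C : Type} [CommRing C] [Algebra K C]

variable (K C) in
/-- Series of Laurent polynomials. -/
abbrev RH : Type := Hat K (LaurentPolynomial C)

noncomputable instance instCommRingRH : CommRing (RH K C) := Hat.instCommRing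

variable (K C) in
/-- Constants as Laurent polynomials. -/
noncomputable def lC : C →ₐ[K] LaurentPolynomial C := ⟨LaurentPolynomial.C, fun _ => rfl⟩

@[simp] lemma lC_apply (x : C) : lC K C x = LaurentPolynomial.C x := rfl

variable (K C) in
/-- `z^n`. -/
noncomputable def zH (n : ℤ) : RH K C := Hat.C K (LaurentPolynomial.T n)

lemma zH_add (m n : ℤ) : zH K C (m + n) = zH K C m * zH K C n := by
  rw [zH, LaurentPolynomial.T_add, map_mul]; rfl

@[simp] lemma zH_zero : zH K C 0 = 1 := by rw [zH, LaurentPolynomial.T_zero, map_one]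

lemma zH_Lo (n : ℤ) : zH K C n ∈ Hat.Lo _ _ 0 := Hat.single_Lo _ _

lemma C_mul_Lo {A : Type*} [Ring A] (a : A) {x : Hat K A} {n : ℤ} (h : x ∈ Hat.Lo _ _ n) :
    Hat.C K a * x ∈ Hat.Lo _ _ n := by
  simpa using Hat.mul_Lo (x := Hat.C K a) (Hat.single_Lo 0 a) h

lemma mul_C_Lo {A : Type*} [Ring A] (a : A) {x : Hat K A} {n : ℤ} (h : x ∈ Hat.Lo _ _ n) :
    x * Hat.C K a ∈ Hat.Lo _ _ n := by
  simpa using Hat.mul_Lo (y := Hat.C K a) h (Hat.single_Lo 0 a)

lemma th_C_mul {A : Type*} [Ring A] [Algebra K A] (a : A) (x : Hat K A) :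
    Hat.th K A (Hat.C K a * x) = Hat.C K a * Hat.th K A x := by
  rw [Hat.th_mul, Hat.C_apply, Hat.th_cst, zero_mul, zero_add]

variable (ac : Act fr C) (σ : Type)

/-- Series of Laurent polynomials as series of operators. -/
noncomputable def opH : RH K C →ₐ[Hat K K] Hat K (Module.End K (LL (σ → H))) :=
  Hat.mapA (opL ((dg σ).comp ac.act))

lemma opH_C (x : LaurentPolynomial C) :
    opH ac σ (Hat.C K x) = Hat.C K (opL ((dg σ).comp ac.act) x) := Hat.map_single _ _ _

lemma opH_zH (n : ℤ) : opH ac σ (zH K C n) = Hat.C K (zp K _ n) := by rw [zH, opH_C, opL_T]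

lemma opH_Lo {x : RH K C} {n : ℤ} (h : x ∈ Hat.Lo _ _ n) : opH ac σ x ∈ Hat.Lo _ _ n :=
  Hat.map_Lo _ h

lemma opH_th (x : RH K C) : Hat.th K _ (opH ac σ x) = opH ac σ (Hat.th K _ x) := Hat.th_map _ x

lemma opH_ev (x : RH K C) : EvH ((p.pi σ).fs ℤ) (opH ac σ x) :=
  fun _ => isEv_opL (fun x => isEv_dg (ac.ev x)) _

variable [DecidableEq σ]

variable (K H) {σ} in
/-- Matrix units as series. -/
noncomputable def EH (i j : σ) : Hat K (Module.End K (LL (σ → H))) := Hat.C K (cst (EU K H i j))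

variable (K H) {σ} in
/-- The inclusion of one coefficient of one component. -/
noncomputable def inL {α : Type} (m : α) (i : σ) : H →ₗ[K] (α →₀ (σ → H)) :=
  Finsupp.lsingle m ∘ₗ LinearMap.single K (fun _ => H) i

@[simp] lemma inL_apply {α : Type} (m : α) (i : σ) (v : H) :
    inL K H m i v = Finsupp.single m (Pi.single i v) := rfl

lemma hat2_smul {M N P : Type*} [AddCommGroup M] [AddCommGroup N] [AddCommGroup P] [Module K M]
    [Module K N] [Module K P] (c : K) (β : M →ₗ[K] N →ₗ[K] P) (x : Hat K M) (y : Hat K N) :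
    Hat.hat2 (c • β) x y = c • Hat.hat2 β x y :=
  (Hat.map_hat2 (LinearMap.lsmul K P c) β x y).symm

variable [Fintype σ]

lemma unitsH : Units (opH ac σ).toRingHom (EH K H : σ → σ → _) where
  mul i j k l := by rw [EH, EH, ← map_mul, ← map_mul, EU_mul]; split_ifs <;> simp [EH]
  sum := by
    simp only [EH]
    rw [← map_sum (Hat.C K), ← map_sum cst, sum_EU, map_one, map_one]
  comm i j x := comm_C fun n => (units_opL ac.act).comm i j _

/-- Matrices of series as series of operators. -/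
noncomputable def matH : Matrix σ σ (RH K C) →+* Hat K (Module.End K (LL (σ → H))) :=
  (unitsH ac σ).hom

variable {σ}

lemma matH_apply (M : Matrix σ σ (RH K C)) :
    matH ac σ M = ∑ i, ∑ j, EH K H i j * opH ac σ (M i j) := rfl

lemma matH_Lo {M : Matrix σ σ (RH K C)} {n : ℤ} (h : ∀ i j, M i j ∈ Hat.Lo _ _ n) :
    matH ac σ M ∈ Hat.Lo _ _ n :=
  sum_mem fun i _ => sum_mem fun j _ => C_mul_Lo _ (opH_Lo ac σ (h i j))

lemma matH_ev (M : Matrix σ σ (RH K C)) : EvH ((p.pi σ).fs ℤ) (matH ac σ M) :=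
  sum_mem (S := allR K (evR _)) fun i _ => sum_mem fun j _ =>
    mul_mem (C_mem_allR (isEv_EU i j).cst) (opH_ev ac σ _)

lemma matH_smul (c : Hat K K) (M : Matrix σ σ (RH K C)) : matH ac σ (c • M) = c • matH ac σ M := by
  simp [matH_apply, smul_sum]

lemma matH_scalar (x : RH K C) : matH ac σ (Matrix.diagonal fun _ => x) = opH ac σ x :=
  (unitsH ac σ).hom_scalar x

lemma matH_diagonal (x : σ → RH K C) :
    matH ac σ (Matrix.diagonal x) = ∑ i, EH K H i i * opH ac σ (x i) := (unitsH ac σ).hom_diagonal x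

lemma matH_th (M : Matrix σ σ (RH K C)) :
    Hat.th K _ (matH ac σ M) = matH ac σ (M.map (Hat.th K _)) := by
  simp only [matH_apply, map_sum, EH, th_C_mul, opH_th, Matrix.map_apply]

lemma opH_comm (x : RH K C) (M : Matrix σ σ (RH K C)) :
    opH ac σ x * matH ac σ M = matH ac σ M * opH ac σ x := by
  rw [← matH_scalar, ← map_mul, ← map_mul]
  congr 1
  ext i j
  simp [mul_comm]

lemma tw_diagonal {b b' : σ → Hat K C} (h : ∀ i, b i * b' i = 1) (hb : ∀ i, b i ∈ Hat.Lo _ _ 0)
    (hb' : ∀ i, b' i ∈ Hat.Lo _ _ 0) :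
    Tw (fr.pi σ) (matH ac σ (Matrix.diagonal fun i => Hat.mapA (lC K C) (b i)))
      (matH ac σ (Matrix.diagonal fun i => Hat.mapA (lC K C) (b' i))) := by
  have lo : ∀ {b : σ → Hat K C}, (∀ i, b i ∈ Hat.Lo _ _ 0) →
      matH ac σ (Matrix.diagonal fun i => Hat.mapA (lC K C) (b i)) ∈ Hat.Lo _ _ 0 := fun hb =>
    matH_Lo ac fun i j => by
      rw [Matrix.diagonal_apply]
      split_ifs
      exacts [Hat.map_Lo _ (hb i), zero_mem _]
  have mul : ∀ {b b' : σ → Hat K C}, (∀ i, b i * b' i = 1) →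
      matH ac σ (Matrix.diagonal fun i => Hat.mapA (lC K C) (b i)) *
      matH ac σ (Matrix.diagonal fun i => Hat.mapA (lC K C) (b' i)) = 1 := fun h => by
    rw [← map_mul, Matrix.diagonal_mul_diagonal]
    simp only [← map_mul, h, map_one, Matrix.diagonal_one]
  refine ⟨fun n => ⟨actM ac.act (Matrix.diagonal fun i => (b i).co n), ?_, isEv_actM ac _,
    fun v w => by rw [adj_actM, Matrix.diagonal_transpose]⟩, lo hb, lo hb', mul h,
    mul fun i => by rw [mul_comm, h]⟩
  rw [matH_diagonal, actM, Units.hom_diagonal, Hat.co_sum, map_sum]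
  refine sum_congr rfl fun i _ => ?_
  rw [EH, Hat.C_apply, Hat.co_single_mul, map_mul, sub_zero]
  exact congrArg _ (opL_C _ _)

section emb

variable {HA : Type} [AddCommGroup HA] [Module (Hat K K) HA] {pA : Par (Hat K K) HA}
  {frA : Frame pA ι} {A : Type} [CommRing A] [Algebra (Hat K K) A]

/-- Equivariant classes embedded into series. -/
structure Emb (acA : Act frA A) where
  v : HA →ₗ[Hat K K] Hat K H
  c : A →ₐ[Hat K K] Hat K C
  act : ∀ x w, v (acA.act x w) = Hat.act K H (Hat.mapA ac.act (c x)) (v w)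
  ev : ∀ w, v (pA.σ w) = Hat.map p.σ (v w)
  η : ∀ w w', frA.η w w' = Hat.hat2 fr.η (v w) (v w')
  one : v frA.one = Hat.single K 0 fr.one
  surj : ∀ u, ∃ w, v w = Hat.single K 0 u

variable {ac} {acA : Act frA A} (em : Emb ac acA)

/-- Equivariant classes as series. -/
noncomputable def Emb.atA : A →ₐ[Hat K K] RH K C := (Hat.mapA (lC K C)).comp em.c

/-- The expansion at `z = 0`. -/
noncomputable def Emb.at0 : LaurentPolynomial A →+* RH K C :=
  AddMonoidAlgebra.liftNCRingHom em.atA.toRingHom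
    ⟨⟨fun n => zH K C n.toAdd, zH_zero⟩, fun _ _ => zH_add _ _⟩ fun _ _ => Commute.all _ _

@[simp] lemma Emb.at0_C (x : A) : em.at0 (LaurentPolynomial.C x) = em.atA x :=
  (AddMonoidAlgebra.liftNCRingHom_single _ _ (fun _ _ => Commute.all _ _) 0 x).trans (by simp)

@[simp] lemma Emb.at0_T (n : ℤ) : em.at0 (LaurentPolynomial.T n) = zH K C n :=
  (AddMonoidAlgebra.liftNCRingHom_single _ _ (fun _ _ => Commute.all _ _) n 1).trans (by simp)

variable (σ) in
/-- The embedding of loops. -/
noncomputable def Emb.L : LL (σ → HA) →ₗ[Hat K K] Hat K (LL (σ → H)) :=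
  Finsupp.lsum (Hat K K) fun m => ∑ i, Hat.map (inL K H m i) ∘ₗ em.v ∘ₗ LinearMap.proj i

lemma Emb.L_co (y : LL (σ → HA)) (n m : ℤ) (i : σ) : (em.L σ y).co n m i = (em.v (y m i)).co n := by
  induction y using Finsupp.induction_linear with
  | zero => simp
  | add a b ha hb => simp [ha, hb]
  | single k v =>
    simp only [Emb.L, Finsupp.lsum_single, LinearMap.sum_apply, LinearMap.comp_apply,
      LinearMap.proj_apply, Hat.co_sum, Hat.co_map, Finsupp.finsetSum_apply, Finset.sum_apply,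
      inL_apply]
    by_cases h : m = k
    · subst h; simp [Pi.single_apply]
    · simp [Finsupp.single_eq_of_ne h]

lemma Emb.L_single (m : ℤ) (i : σ) (w : HA) : em.L σ (Finsupp.single m (Pi.single i w)) =
    Hat.map (inL K H m i) (em.v w) := by
  ext n k j
  rw [em.L_co]
  by_cases h : k = m <;> by_cases h' : j = i <;> simp [h, h']

lemma LLP_ext {K H : Type*} [CommRing K] [AddCommGroup H] [Module K H] {N : Type*} [AddCommGroup N]
    [Module K N] {f g : LL (σ → H) →ₗ[K] N}
    (h : ∀ m i w, f (Finsupp.single m (Pi.single i w)) = g (Finsupp.single m (Pi.single i w))) :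
    f = g := LL_ext fun m v => by
  rw [← Finset.univ_sum_single v, Finsupp.single_finsetSum, map_sum, map_sum]
  exact sum_congr rfl fun i _ => h m i _

lemma Emb.L_surj (u : LL (σ → H)) :
    ∃ y, em.L σ y = Hat.single K 0 u ∧ (pos K _ u = 0 → pos (Hat K K) _ y = 0) := by
  classical
  choose s hs using em.surj
  refine ⟨Finsupp.mapRange (fun v i => if v i = 0 then 0 else s (v i)) (by ext; simp) u, ?_,
    fun h => ?_⟩
  · ext n m i
    rw [em.L_co, Finsupp.mapRange_apply]
    split_ifs with h <;> by_cases hn : n = 0 <;> simp [hs, Hat.co_single, h, hn]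
  · ext m i
    have : u m = 0 := DFunLike.congr_fun h m
    simp [this]

variable (σ) in
/-- Operators that correspond under the embedding. -/
def Em (X : Module.End (Hat K K) (LL (σ → HA))) (Y : Hat K (Module.End K (LL (σ → H)))) : Prop :=
  ∀ f, em.L σ (X f) = Hat.act K _ Y (em.L σ f)

variable {em} {X X' : Module.End (Hat K K) (LL (σ → HA))} {Y Y' : Hat K (Module.End K (LL (σ → H)))}

lemma Em.mul (h : Em σ em X Y) (h' : Em σ em X' Y') : Em σ em (X * X') (Y * Y') := fun f => by
  rw [Module.End.mul_apply, h, h', map_mul, Module.End.mul_apply]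

lemma Em.add (h : Em σ em X Y) (h' : Em σ em X' Y') : Em σ em (X + X') (Y + Y') := fun f => by
  simp [h f, h' f]

lemma Em.smul (h : Em σ em X Y) (c : Hat K K) : Em σ em (c • X) (c • Y) := fun f => by
  simp [h f]

lemma Em.one : Em σ em 1 1 := fun f => by simp

lemma Em.zero : Em σ em 0 0 := fun f => by simp

lemma Em.pow (h : Em σ em X Y) (k : ℕ) : Em σ em (X ^ k) (Y ^ k) := by
  induction k with
  | zero => simpa using Em.one
  | succ k ih => rw [pow_succ, pow_succ]; exact ih.mul h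

lemma Em.sum {α : Type*} (s : Finset α) {X : α → _} {Y : α → _}
    (h : ∀ a ∈ s, Em σ em (X a) (Y a)) : Em σ em (∑ a ∈ s, X a) (∑ a ∈ s, Y a) := fun f => by
  simp only [LinearMap.sum_apply, map_sum]
  exact sum_congr rfl fun a ha => h a ha f

variable (em)

lemma em_zp (n : ℤ) : Em σ em (zp _ _ n) (Hat.C K (zp K _ n)) := fun f => by
  rw [Hat.act_C]; ext k m i; simp [em.L_co, zp_apply]

lemma em_eu : Em σ em (Fock.eu _ _) (Hat.C K (Fock.eu K _)) := fun f => by
  rw [Hat.act_C]; ext k m i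
  simp [em.L_co, eu_apply, Int.cast_smul_eq_zsmul]

lemma em_EU (i j : σ) : Em σ em (cst (EU _ _ i j)) (EH K H i j) := fun f => by
  rw [EH, Hat.act_C]; ext k m l
  by_cases h : l = i <;> simp [em.L_co, h]

lemma em_dg {a : Module.End (Hat K K) HA} {a' : Hat K (Module.End K H)}
    (h : ∀ w, em.v (a w) = Hat.act K H a' (em.v w)) :
    Em σ em (cst (dg σ a)) (Hat.mapA (cst.comp (dg σ)) a') := by
  intro f
  have := LLP_ext (f := em.L σ ∘ₗ cst (dg σ a))
    (g := Hat.act K (LL (σ → H)) (Hat.mapA (cst.comp (dg σ)) a') ∘ₗ em.L σ) fun m i w => by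
      rw [LinearMap.comp_apply, LinearMap.comp_apply, cst_single, dg_single, em.L_single,
        em.L_single, h, Hat.act_apply, Hat.act_apply, Hat.map_hat2]
      refine Hat.hat2_congr fun k l => ?_
      exact ((cst_single _ _ _).trans (congrArg _ (dg_single _ _ _))).symm
  exact LinearMap.congr_fun this f

lemma em_opL (x : LaurentPolynomial A) :
    Em σ em (opL ((dg σ).comp acA.act) x) (opH ac σ (em.at0 x)) := by
  induction x using LaurentPolynomial.induction_on' with
  | add a b ha hb => simpa using ha.add hb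
  | C_mul_T n a =>
    rw [map_mul, map_mul, map_mul, opL_C, opL_T, em.at0_C, em.at0_T, opH_zH]
    refine Em.mul ?_ (em_zp em n)
    have : opH ac σ (em.atA a) = Hat.mapA (cst.comp (dg σ)) (Hat.mapA ac.act (em.c a)) :=
      Hat.ext (funext fun n => opL_C _ _)
    rw [this]
    exact em_dg em (em.act a)

lemma em_opM (M : Matrix σ σ (LaurentPolynomial A)) :
    Em σ em (opM acA.act M) (matH ac σ (M.map em.at0)) :=
  Em.sum _ fun i _ => Em.sum _ fun j _ => (em_EU em i j).mul (em_opL em _)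

lemma em_pp : Em σ em (pp _ _) (Hat.C K (pp K _)) := fun f => by
  rw [Hat.act_C]; ext k m i
  simp only [em.L_co, Hat.co_map, pp_coe]
  split_ifs <;> simp [em.L_co]

lemma isEv_embL : IsEv ((pA.pi σ).fs ℤ) (parH ((p.pi σ).fs ℤ)) (em.L σ) := fun f => by
  ext k m i; simp [em.L_co, em.ev]

lemma em_D [Algebra ℚ K] {d : VD fr} {dA : VD frA} (hμ : ∀ w, em.v (dA.μ w) = Hat.map d.μ (em.v w))
    (hρ : ∀ w, em.v (dA.ρ w) = Hat.map d.ρ (em.v w)) :
    Em σ em (vdPi σ dA).D (Hat.C K (vdPi σ d).D) := by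
  have e : ∀ {a : Module.End (Hat K K) HA} {a' : Module.End K H},
      (∀ w, em.v (a w) = Hat.map a' (em.v w)) → Em σ em (cst (dg σ a)) (Hat.C K (cst (dg σ a'))) :=
    fun h f => by rw [Hat.act_C]; ext k m i; simp [em.L_co, h]
  have e1 : Hat.C K (hf K • (1 : Module.End K (LL (σ → H)))) = hf (Hat K K) • 1 := by
    rw [← map_hf (Hat.C K : K →+* Hat K K), Hat.C_smul]
    ext1; funext n
    simp [Hat.C_apply, Hat.one_def, Hat.co_single]
  rw [VD.D, VD.D, map_add, map_mul, map_add, map_add, e1]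
  exact ((em_zp em 1).mul (((em_eu em).add (Em.one.smul _)).add (e hμ))).add (e hρ)

lemma Emb.Oh_L (y y' : LL (σ → HA)) :
    Oh (fr.pi σ) (em.L σ y) (em.L σ y') = (frA.pi σ).Ω y y' := by
  have := LLP_ext (f := (Oh (fr.pi σ)).compl₁₂ (em.L σ) (em.L σ))
    (g := (frA.pi σ).Ω) fun m i w => LLP_ext fun m' i' w' => by
      have e : ∀ {K H : Type} [CommRing K] [AddCommGroup H] [Module K H] {p : Par K H}
          (fr : Frame p ι) (v v' : H), (fr.pi σ).Ω (Finsupp.single m (Pi.single i v))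
          (Finsupp.single m' (Pi.single i' v')) =
          (if m + m' + 1 = 0 ∧ i = i' then (m'.negOnePow : ℤ) else 0) • fr.η v v' := by
        intro K H _ _ _ p fr v v'
        rw [Frame.Ω_single, Frame.pi_η, sum_eq_single i (fun k _ hk => by simp [hk]) (by simp)]
        by_cases h : m + m' + 1 = 0 <;> by_cases h' : i = i' <;> simp [h, h', sg]
      rw [LinearMap.compl₁₂_apply, em.L_single, em.L_single, e, em.η, ← Int.cast_smul_eq_zsmul K,
        ← hat2_smul]
      refine Hat.hat2_congr fun k l => (e fr _ _).trans ?_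
      rw [← Int.cast_smul_eq_zsmul K]; rfl
  exact LinearMap.congr_fun₂ this y y'

end emb

end Vale.Agent.P269.B
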